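import Vale.Agent.P168MP.Core

/-! Uniform averages, one-step expectations, iterated expectations, morphisms. -/

namespace Vale.Agent.P168

open Finset

section Avg

variable {ι ι' : Type} [Fintype ι] [Fintype ι']

theorem spin_sq (b : Bool) : spin b ^ 2 = 1 := by cases b <;> simp [spin]
theorem abs_spin (b : Bool) : |spin b| = 1 := by cases b <;> simp [spin]

theorem avg_const [Nonempty ι] (c : ℝ) : avg (fun _ : ι => c) = c := by
  have : (Fintype.card ι : ℝ) ≠ 0 := Nat.cast_ne_zero.mpr Fintype.card_ne_zero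
  simp only [avg, sum_const, card_univ, nsmul_eq_mul]
  field_simp
theorem avg_add (f g : ι → ℝ) : avg (fun i => f i + g i) = avg f + avg g := by
  simp only [avg, sum_add_distrib, add_div]
theorem avg_sub (f g : ι → ℝ) : avg (fun i => f i - g i) = avg f - avg g := by
  simp only [avg, sum_sub_distrib, sub_div]
theorem avg_mul_left (c : ℝ) (f : ι → ℝ) : avg (fun i => c * f i) = c * avg f := by
  simp only [avg, ← mul_sum, mul_div_assoc]
theorem avg_mul_right (c : ℝ) (f : ι → ℝ) : avg (fun i => f i * c) = avg f * c := by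
  simp only [avg, ← sum_mul, mul_div_right_comm]
theorem avg_sum {α : Type*} (A : Finset α) (f : α → ι → ℝ) :
    avg (fun i => ∑ a ∈ A, f a i) = ∑ a ∈ A, avg (f a) := by
  simp only [avg, ← sum_div]
  rw [sum_comm]
theorem avg_mono {f g : ι → ℝ} (h : ∀ i, f i ≤ g i) : avg f ≤ avg g :=
  div_le_div_of_nonneg_right (sum_le_sum fun i _ => h i) (Nat.cast_nonneg _)
theorem avg_nonneg {f : ι → ℝ} (h : ∀ i, 0 ≤ f i) : 0 ≤ avg f :=
  div_nonneg (sum_nonneg fun i _ => h i) (Nat.cast_nonneg _)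
theorem avg_pos [Nonempty ι] {f : ι → ℝ} (h : ∀ i, 0 < f i) : 0 < avg f :=
  div_pos (sum_pos (fun i _ => h i) univ_nonempty) (Nat.cast_pos.mpr Fintype.card_pos)
theorem abs_avg_le_avg_abs (f : ι → ℝ) : |avg f| ≤ avg (fun i => |f i|) := by
  rw [avg, abs_div, Nat.abs_cast]
  exact div_le_div_of_nonneg_right (abs_sum_le_sum_abs _ _) (Nat.cast_nonneg _)
theorem abs_avg_le {f : ι → ℝ} {B : ℝ} (hB : 0 ≤ B) (h : ∀ i, |f i| ≤ B) : |avg f| ≤ B := by
  rcases isEmpty_or_nonempty ι with e | e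
  · simpa [avg] using hB
  · exact (abs_avg_le_avg_abs f).trans ((avg_mono h).trans_eq (avg_const B))
theorem abs_avg_sub_le {f g : ι → ℝ} {B : ℝ} (hB : 0 ≤ B) (h : ∀ i, |f i - g i| ≤ B) :
    |avg f - avg g| ≤ B := by
  rw [← avg_sub]
  exact abs_avg_le hB h
theorem avg_sq_le (f : ι → ℝ) : avg f ^ 2 ≤ avg (fun i => f i ^ 2) := by
  rcases isEmpty_or_nonempty ι with e | e
  · simp [avg]
  have h : (0 : ℝ) < Fintype.card ι := Nat.cast_pos.mpr Fintype.card_pos
  have h1 := sq_sum_le_card_mul_sum_sq (s := univ) (f := f)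
  rw [card_univ] at h1
  rw [avg, avg, div_pow, div_le_div_iff₀ (by positivity) h]
  nlinarith
theorem avg_comm (f : ι → ι' → ℝ) :
    avg (fun i => avg (fun j => f i j)) = avg (fun j => avg (fun i => f i j)) := by
  simp only [avg, ← sum_div]
  rw [sum_comm, div_right_comm]
theorem avg_prod (f : ι × ι' → ℝ) : avg f = avg (fun i => avg (fun j => f (i, j))) := by
  simp only [avg, ← sum_div, Fintype.sum_prod_type, Fintype.card_prod, Nat.cast_mul, div_div,
    mul_comm]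
theorem avg_equiv (e : ι ≃ ι') (f : ι' → ℝ) : avg (fun i => f (e i)) = avg f := by
  rw [avg, avg, e.sum_comp, Fintype.card_congr e]
theorem avg_bool (f : Bool → ℝ) : avg f = (f true + f false) / 2 := by
  simp [avg]
theorem avg_pi_prod {J : Type} [Fintype J] [DecidableEq J] (g : J → ι → ℝ) :
    avg (fun i : J → ι => ∏ j, g j (i j)) = ∏ j, avg (g j) := by
  simp only [avg]
  rw [prod_div_distrib, prod_univ_sum, Fintype.piFinset_univ, prod_const, Fintype.card_fun,
    card_univ, Nat.cast_pow]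
/-- Overwriting some coordinates by fresh uniform values keeps the uniform law. -/
theorem avg_extend {J V : Type} [Fintype J] [DecidableEq J] [DecidableEq ι] [Fintype V]
    [Nonempty V] (e : J → ι) (he : Function.Injective e) (g : (ι → V) → ℝ) :
    avg (fun u : ι → V => avg (fun v : J → V => g (Function.extend e v u))) = avg g := by
  have hi : Function.Involutive fun p : (ι → V) × (J → V) =>
      (Function.extend e p.2 p.1, fun j => p.1 (e j)) := by
    rintro ⟨u, v⟩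
    refine Prod.ext (funext fun i => ?_) (funext fun j => he.extend_apply _ _ _)
    by_cases h : ∃ j, e j = i
    · obtain ⟨j, rfl⟩ := h
      exact he.extend_apply _ _ _
    · simp only
      rw [Function.extend_apply' _ _ _ h, Function.extend_apply' _ _ _ h]
  rw [← avg_prod fun p : (ι → V) × (J → V) => g (Function.extend e p.2 p.1)]
  refine (avg_equiv hi.toPerm fun p => g p.1).trans ?_
  rw [avg_prod]
  simp only [avg_const]
theorem avg_update {V : Type} [DecidableEq ι] [Fintype V] [Nonempty V] (i : ι)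
    (g : (ι → V) → ℝ) :
    avg (fun u : ι → V => avg (fun v : V => g (Function.update u i v))) = avg g := by
  rw [← avg_extend (J := Unit) (fun _ => i) (fun _ _ _ => rfl) g]
  congr 1
  funext u
  rw [← avg_equiv (Equiv.funUnique Unit V)]
  congr 1
  funext v
  congr 1
  funext k
  by_cases h : k = i
  · subst h
    rw [Function.update_self]
    exact (Function.Injective.extend_apply (f := fun _ : Unit => k) (fun _ _ _ => rfl) v u ()).symm
  · rw [Function.update_of_ne h, Function.extend_apply' _ _ _ fun ⟨_, e⟩ => h e.symm]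
theorem avg_comp_inj {J V : Type} [Fintype J] [DecidableEq J] [DecidableEq ι] [Fintype V]
    [Nonempty V] (e : J → ι) (he : Function.Injective e) (g : (J → V) → ℝ) :
    avg (fun u : ι → V => g (fun j => u (e j))) = avg g := by
  rw [← avg_extend e he]
  simp only [he.extend_apply, avg_const]
/-- Markov inequality form: a bounded function that is small off a set where `w` is large. -/
theorem avg_le_of_markov [Nonempty ι] {f w : ι → ℝ} {a ε B : ℝ} (ha : 0 < a) (hε : 0 ≤ ε)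
    (hB : 0 ≤ B) (hw : ∀ i, 0 ≤ w i) (hf : ∀ i, f i ≤ B) (hs : ∀ i, w i ≤ a → f i ≤ ε) :
    avg f ≤ ε + B * avg w / a := by
  have h : ∀ i, f i ≤ ε + B / a * w i := fun i => by
    rcases le_or_gt (w i) a with h | h
    · exact (hs i h).trans (le_add_of_nonneg_right (mul_nonneg (by positivity) (hw i)))
    · have : B / a * a ≤ B / a * w i := mul_le_mul_of_nonneg_left h.le (by positivity)
      rw [div_mul_cancel₀ _ ha.ne'] at this
      linarith [hf i]
  refine (avg_mono h).trans_eq ?_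
  rw [avg_add, avg_const, avg_mul_left]
  ring

end Avg

section Ex

variable {S S' S'' : Type} [Fintype S] [Fintype S'] [Fintype S'']

theorem Ex_add (κ : S → S → ℝ) (f g : S → ℝ) (s : S) :
    Ex κ (fun t => f t + g t) s = Ex κ f s + Ex κ g s := by
  simp only [Ex, mul_add, sum_add_distrib]
theorem Ex_sub (κ : S → S → ℝ) (f g : S → ℝ) (s : S) :
    Ex κ (fun t => f t - g t) s = Ex κ f s - Ex κ g s := by
  simp only [Ex, mul_sub, sum_sub_distrib]
theorem Ex_mul_left (κ : S → S → ℝ) (c : ℝ) (f : S → ℝ) (s : S) :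
    Ex κ (fun t => c * f t) s = c * Ex κ f s := by
  simp only [Ex, mul_sum, mul_left_comm]
theorem Ex_mul_right (κ : S → S → ℝ) (c : ℝ) (f : S → ℝ) (s : S) :
    Ex κ (fun t => f t * c) s = Ex κ f s * c := by
  simp only [Ex, sum_mul, mul_assoc]
theorem Ex_sum {α : Type*} (κ : S → S → ℝ) (A : Finset α) (f : α → S → ℝ) (s : S) :
    Ex κ (fun t => ∑ a ∈ A, f a t) s = ∑ a ∈ A, Ex κ (f a) s := by
  simp only [Ex, mul_sum]
  exact sum_comm
theorem Ex_avg {ι : Type} [Fintype ι] (κ : S → S → ℝ) (f : ι → S → ℝ) (s : S) :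
    Ex κ (fun t => avg (fun i => f i t)) s = avg (fun i => Ex κ (f i) s) := by
  simp only [avg, div_eq_mul_inv, Ex_mul_right, Ex_sum]
theorem IsK.Ex_const {κ : S → S → ℝ} (h : IsK κ) (c : ℝ) (s : S) : Ex κ (fun _ => c) s = c := by
  rw [Ex, ← sum_mul, h.2, one_mul]
theorem IsK.Ex_mono {κ : S → S → ℝ} (h : IsK κ) {f g : S → ℝ} (hfg : ∀ t, f t ≤ g t) (s : S) :
    Ex κ f s ≤ Ex κ g s :=
  sum_le_sum fun t _ => mul_le_mul_of_nonneg_left (hfg t) (h.1 s t)
theorem IsK.Ex_nonneg {κ : S → S → ℝ} (h : IsK κ) {f : S → ℝ} (hf : ∀ t, 0 ≤ f t) (s : S) :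
    0 ≤ Ex κ f s :=
  sum_nonneg fun t _ => mul_nonneg (h.1 s t) (hf t)
theorem IsK.Ex_pos {κ : S → S → ℝ} (h : IsK κ) {f : S → ℝ} (hf : ∀ t, 0 < f t) (s : S) :
    0 < Ex κ f s := by
  obtain ⟨t, -, ht⟩ := exists_ne_zero_of_sum_ne_zero (s := univ) (f := κ s)
    (by rw [h.2]; exact one_ne_zero)
  exact sum_pos' (fun t _ => mul_nonneg (h.1 s t) (hf t).le)
    ⟨t, mem_univ t, mul_pos ((h.1 s t).lt_of_ne' ht) (hf t)⟩
theorem IsK.abs_Ex_le_Ex_abs {κ : S → S → ℝ} (h : IsK κ) (f : S → ℝ) (s : S) :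
    |Ex κ f s| ≤ Ex κ (fun t => |f t|) s :=
  (abs_sum_le_sum_abs _ _).trans_eq (sum_congr rfl fun t _ => by
    rw [abs_mul, abs_of_nonneg (h.1 s t)])
theorem IsK.abs_Ex_le {κ : S → S → ℝ} (h : IsK κ) {f : S → ℝ} {B : ℝ} (hf : ∀ t, |f t| ≤ B)
    (s : S) : |Ex κ f s| ≤ B :=
  (h.abs_Ex_le_Ex_abs f s).trans ((h.Ex_mono hf s).trans_eq (h.Ex_const B s))
theorem IsK.Ex_sq_le {κ : S → S → ℝ} (h : IsK κ) (f : S → ℝ) (s : S) :
    Ex κ f s ^ 2 ≤ Ex κ (fun t => f t ^ 2) s := by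
  have h1 := h.Ex_nonneg (f := fun t => f t ^ 2 - 2 * Ex κ f s * f t + Ex κ f s ^ 2)
    (fun t => by nlinarith [sq_nonneg (f t - Ex κ f s)]) s
  rw [Ex_add, Ex_sub, Ex_mul_left, h.Ex_const] at h1
  nlinarith

theorem Pr_succ (κ : ℕ → S → S → ℝ) (d n : ℕ) (f : S → ℝ) :
    Pr κ d (n + 1) f = Ex (κ (d + n)) (Pr κ d n f) := rfl
theorem Pr_succ' (κ : ℕ → S → S → ℝ) (d n : ℕ) (f : S → ℝ) :
    Pr κ d (n + 1) f = Pr κ (d + 1) n (Ex (κ d) f) := by
  induction n with
  | zero => rfl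
  | succ n ih => rw [Pr_succ, ih, Pr_succ, add_assoc, add_comm 1 n]
theorem Pr_add_comp (κ : ℕ → S → S → ℝ) (d n k : ℕ) (f : S → ℝ) :
    Pr κ d (n + k) f = Pr κ (d + n) k (Pr κ d n f) := by
  induction k with
  | zero => rfl
  | succ k ih => rw [← add_assoc, Pr_succ, ih, Pr_succ, add_assoc]
theorem Pr_add (κ : ℕ → S → S → ℝ) (d n : ℕ) (f g : S → ℝ) (s : S) :
    Pr κ d n (fun t => f t + g t) s = Pr κ d n f s + Pr κ d n g s := by
  induction n generalizing s with
  | zero => rfl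
  | succ n ih => rw [Pr_succ, funext ih, Ex_add]; rfl
theorem Pr_sub (κ : ℕ → S → S → ℝ) (d n : ℕ) (f g : S → ℝ) (s : S) :
    Pr κ d n (fun t => f t - g t) s = Pr κ d n f s - Pr κ d n g s := by
  induction n generalizing s with
  | zero => rfl
  | succ n ih => rw [Pr_succ, funext ih, Ex_sub]; rfl
theorem Pr_mul_left (κ : ℕ → S → S → ℝ) (d n : ℕ) (c : ℝ) (f : S → ℝ) (s : S) :
    Pr κ d n (fun t => c * f t) s = c * Pr κ d n f s := by
  induction n generalizing s with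
  | zero => rfl
  | succ n ih => rw [Pr_succ, funext ih, Ex_mul_left]; rfl
theorem Pr_sum {α : Type*} (κ : ℕ → S → S → ℝ) (d n : ℕ) (A : Finset α) (f : α → S → ℝ) (s : S) :
    Pr κ d n (fun t => ∑ a ∈ A, f a t) s = ∑ a ∈ A, Pr κ d n (f a) s := by
  induction n generalizing s with
  | zero => rfl
  | succ n ih => rw [Pr_succ, funext ih, Ex_sum]; rfl
theorem Pr_avg {ι : Type} [Fintype ι] (κ : ℕ → S → S → ℝ) (d n : ℕ) (f : ι → S → ℝ) (s : S) :
    Pr κ d n (fun t => avg (fun i => f i t)) s = avg (fun i => Pr κ d n (f i) s) := by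
  induction n generalizing s with
  | zero => rfl
  | succ n ih => rw [Pr_succ, funext ih, Ex_avg]; rfl
theorem Pr_const {κ : ℕ → S → S → ℝ} (h : ∀ d, IsK (κ d)) (d n : ℕ) (c : ℝ) (s : S) :
    Pr κ d n (fun _ => c) s = c := by
  induction n generalizing s with
  | zero => rfl
  | succ n ih => rw [Pr_succ, funext ih, (h _).Ex_const]
theorem Pr_mono {κ : ℕ → S → S → ℝ} (h : ∀ d, IsK (κ d)) (d n : ℕ) {f g : S → ℝ}
    (hfg : ∀ t, f t ≤ g t) (s : S) : Pr κ d n f s ≤ Pr κ d n g s := by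
  induction n generalizing s with
  | zero => exact hfg s
  | succ n ih => exact (h _).Ex_mono ih s
theorem Pr_nonneg {κ : ℕ → S → S → ℝ} (h : ∀ d, IsK (κ d)) (d n : ℕ) {f : S → ℝ}
    (hf : ∀ t, 0 ≤ f t) (s : S) : 0 ≤ Pr κ d n f s := by
  induction n generalizing s with
  | zero => exact hf s
  | succ n ih => exact (h _).Ex_nonneg ih s
theorem Pr_sq_le {κ : ℕ → S → S → ℝ} (h : ∀ d, IsK (κ d)) (d n : ℕ) (f : S → ℝ) (s : S) :
    Pr κ d n f s ^ 2 ≤ Pr κ d n (fun t => f t ^ 2) s := by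
  induction n generalizing s with
  | zero => exact le_rfl
  | succ n ih => exact ((h _).Ex_sq_le _ s).trans ((h _).Ex_mono ih s)
theorem Pr_mor {κ : ℕ → S → S → ℝ} {κ' : ℕ → S' → S' → ℝ} {φ : S' → S} (d n : ℕ)
    (h : ∀ e, d ≤ e → e < d + n → IsMor φ (κ' e) (κ e)) (f : S → ℝ) (s : S') :
    Pr κ' d n (fun t => f (φ t)) s = Pr κ d n f (φ s) := by
  induction n generalizing s with
  | zero => rfl
  | succ n ih =>
    rw [Pr_succ, funext (ih fun e h1 h2 => h e h1 (by omega)), Pr_succ]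
    exact h _ (by omega) (by omega) _ s

theorem isK_prodK {κ : ℕ → S → S → ℝ} {κ' : ℕ → S' → S' → ℝ} {d : ℕ} (h : IsK (κ d))
    (h' : IsK (κ' d)) : IsK (prodK κ κ' d) := by
  refine ⟨fun s t => mul_nonneg (h.1 _ _) (h'.1 _ _), fun s => ?_⟩
  simp only [prodK, Fintype.sum_prod_type, ← mul_sum, h'.2, mul_one, h.2]
theorem isK_piK (J : Type) [Fintype J] [DecidableEq J] {κ : ℕ → S → S → ℝ} {d : ℕ}
    (h : IsK (κ d)) : IsK (piK J κ d) := by
  refine ⟨fun s t => prod_nonneg fun j _ => h.1 _ _, fun s => ?_⟩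
  simp only [piK]
  rw [← Fintype.piFinset_univ, ← prod_univ_sum (fun _ => univ) fun j t => κ d (s j) t]
  simp only [h.2, prod_const_one]
theorem isK_compK {κ κ' : S → S → ℝ} (h : IsK κ) (h' : IsK κ') : IsK (compK κ κ') := by
  refine ⟨fun s u => sum_nonneg fun t _ => mul_nonneg (h.1 _ _) (h'.1 _ _), fun s => ?_⟩
  simp only [compK]
  rw [sum_comm]
  simp only [← mul_sum, h'.2, mul_one, h.2]
theorem isK_idK [DecidableEq S] : IsK (idK : S → S → ℝ) := by
  refine ⟨fun s t => ?_, fun s => by simp [idK]⟩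
  unfold idK
  split_ifs <;> norm_num
theorem isK_crdK {ι : Type} [Fintype ι] [DecidableEq ι] (lev : ι → ℕ) (d : ℕ) :
    IsK (crdK lev d) := by
  refine ⟨fun s t => avg_nonneg fun u => by split_ifs <;> norm_num, fun s => ?_⟩
  simp only [crdK]
  rw [← avg_sum]
  simp [avg_const]

theorem Ex_prodK (κ : ℕ → S → S → ℝ) (κ' : ℕ → S' → S' → ℝ) (d : ℕ) (f : S × S' → ℝ)
    (s : S × S') :
    Ex (prodK κ κ' d) f s = Ex (κ d) (fun t => Ex (κ' d) (fun t' => f (t, t')) s.2) s.1 := by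
  simp only [Ex, prodK, Fintype.sum_prod_type, mul_sum, mul_assoc]
theorem Ex_prodK_mul (κ : ℕ → S → S → ℝ) (κ' : ℕ → S' → S' → ℝ) (d : ℕ) (f : S → ℝ)
    (g : S' → ℝ) (s : S × S') :
    Ex (prodK κ κ' d) (fun t => f t.1 * g t.2) s = Ex (κ d) f s.1 * Ex (κ' d) g s.2 := by
  simp only [Ex_prodK, Ex_mul_left, Ex_mul_right]
theorem Ex_compK (κ κ' : S → S → ℝ) (f : S → ℝ) (s : S) :
    Ex (compK κ κ') f s = Ex κ (Ex κ' f) s := by
  simp only [Ex, compK, sum_mul, mul_sum, mul_assoc]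
  exact sum_comm
theorem Ex_idK [DecidableEq S] (f : S → ℝ) (s : S) : Ex idK f s = f s := by
  simp [Ex, idK]
theorem Ex_crdK {ι : Type} [Fintype ι] [DecidableEq ι] (lev : ι → ℕ) (d : ℕ)
    (f : (ι → Bool) → ℝ) (s : ι → Bool) :
    Ex (crdK lev d) f s =
      avg (fun u : ι → Bool => f (fun i => if lev i = d then u i else s i)) := by
  simp only [Ex, crdK, ← avg_mul_right]
  rw [← avg_sum]
  simp
theorem crdK_ne_zero {ι : Type} [Fintype ι] [DecidableEq ι] (lev : ι → ℕ) (d : ℕ)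
    {s t : ι → Bool} (h : crdK lev d s t ≠ 0) (i : ι) (hi : lev i ≠ d) : t i = s i := by
  by_contra hn
  refine h ?_
  have : ∀ u : ι → Bool, t ≠ fun i => if lev i = d then u i else s i := fun u e =>
    hn (by rw [e]; exact if_neg hi)
  simp [crdK, this, avg]
theorem Ex_piK_prod (J : Type) [Fintype J] [DecidableEq J] (κ : ℕ → S → S → ℝ) (d : ℕ)
    (g : J → S → ℝ) (s : J → S) :
    Ex (piK J κ d) (fun t => ∏ j, g j (t j)) s = ∏ j, Ex (κ d) (g j) (s j) := by
  simp only [Ex, piK, ← prod_mul_distrib]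
  rw [prod_univ_sum, Fintype.piFinset_univ]
theorem piK_compK (J : Type) [Fintype J] [DecidableEq J] (κ κ' κ'' : ℕ → S → S → ℝ)
    (a b c : ℕ) (h : κ'' c = compK (κ a) (κ' b)) :
    piK J κ'' c = compK (piK J κ a) (piK J κ' b) := by
  funext s u
  simp only [piK, h, compK, ← prod_mul_distrib]
  rw [prod_univ_sum, Fintype.piFinset_univ]

theorem IsMor.comp {κ : S → S → ℝ} {κ' : S' → S' → ℝ} {κ'' : S'' → S'' → ℝ} {φ : S' → S}
    {ψ : S'' → S'} (h : IsMor φ κ' κ) (h' : IsMor ψ κ'' κ') :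
    IsMor (fun x => φ (ψ x)) κ'' κ :=
  fun f s => (h' (fun t => f (φ t)) s).trans (h f (ψ s))
theorem isMor_id (κ : S → S → ℝ) : IsMor (fun x => x) κ κ := fun _ _ => rfl
theorem isMor_fst (κ : ℕ → S → S → ℝ) {κ' : ℕ → S' → S' → ℝ} {d : ℕ} (h' : IsK (κ' d)) :
    IsMor Prod.fst (prodK κ κ' d) (κ d) := fun f s => by
  simp only [Ex_prodK, h'.Ex_const]
theorem isMor_snd {κ : ℕ → S → S → ℝ} (κ' : ℕ → S' → S' → ℝ) {d : ℕ} (h : IsK (κ d)) :
    IsMor Prod.snd (prodK κ κ' d) (κ' d) := fun f s => by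
  simp only [Ex_prodK, h.Ex_const]
theorem isMor_of_equiv {κ : S → S → ℝ} {κ' : S' → S' → ℝ} (e : S' ≃ S)
    (h : ∀ s t, κ' s t = κ (e s) (e t)) : IsMor e κ' κ := fun f s => by
  simp only [Ex, h]
  exact e.sum_comp fun t => κ (e s) t * f t
theorem isMor_prodMap {T T' : Type} [Fintype T] [Fintype T'] {κ : ℕ → S → S → ℝ}
    {κ' : ℕ → S' → S' → ℝ} {η : ℕ → T → T → ℝ} {η' : ℕ → T' → T' → ℝ} {φ : S' → S} {ψ : T' → T}
    {d : ℕ} (h : IsMor φ (κ' d) (κ d)) (h' : IsMor ψ (η' d) (η d)) :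
    IsMor (Prod.map φ ψ) (prodK κ' η' d) (prodK κ η d) := fun f s => by
  simp only [Ex_prodK, Prod.map]
  rw [← h (fun t => Ex (η d) (fun t' => f (t, t')) (ψ s.2))]
  congr 1
  funext t
  exact h' (fun t' => f (φ t, t')) s.2
theorem avg_expand {J : Type} [Fintype J] [DecidableEq J] [DecidableEq S] (f : (J → S) → ℝ)
    (t : J → S) : f t = ∑ u : J → S, f u * ∏ j, if t j = u j then 1 else 0 := by
  simp only [Fintype.prod_boole, ← funext_iff, mul_ite, mul_one, mul_zero, sum_ite_eq, mem_univ,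
    if_true]
theorem avg_Ex_ind [DecidableEq S] (κ : S → S → ℝ) (s u : S) :
    Ex κ (fun x => if x = u then 1 else 0) s = κ s u := by
  simp [Ex]
theorem isMor_piK_comp {J J' : Type} [Fintype J] [DecidableEq J] [Fintype J'] [DecidableEq J']
    {κ : ℕ → S → S → ℝ} {d : ℕ} (h : IsK (κ d)) (e : J' → J) (he : Function.Injective e) :
    IsMor (fun (t : J → S) (j : J') => t (e j)) (piK J κ d) (piK J' κ d) := fun f s => by
  classical
  rw [funext fun t : J → S => avg_expand f fun j => t (e j), Ex_sum]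
  refine sum_congr rfl fun u _ => ?_
  let g : J → S → ℝ := Function.extend e (fun j x => if x = u j then 1 else 0) fun _ _ => 1
  have g1 : ∀ j, g (e j) = fun x => if x = u j then 1 else 0 := fun j => he.extend_apply _ _ _
  have g2 : ∀ i ∉ Set.range e, g i = fun _ => 1 := fun i hi => Function.extend_apply' _ _ _ hi
  have e1 : ∀ t : J → S, (∏ j, if t (e j) = u j then (1 : ℝ) else 0) = ∏ i, g i (t i) := fun t =>
    Fintype.prod_of_injective e he _ _ (fun i hi => by rw [g2 i hi]) fun j => by rw [g1]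
  rw [Ex_mul_left, funext e1, Ex_piK_prod, mul_comm]
  congr 1
  refine (Fintype.prod_of_injective e he _ _ (fun i hi => by rw [g2 i hi, h.Ex_const])
    fun j => ?_).symm
  rw [g1, avg_Ex_ind]
theorem isMor_piK_map (J : Type) [Fintype J] [DecidableEq J] {κ : ℕ → S → S → ℝ}
    {κ' : ℕ → S' → S' → ℝ} {d : ℕ} (φ : J → S' → S) (h : ∀ j, IsMor (φ j) (κ' d) (κ d)) :
    IsMor (fun (t : J → S') (j : J) => φ j (t j)) (piK J κ' d) (piK J κ d) := fun f s => by
  classical
  rw [funext fun t : J → S' => avg_expand f fun j => φ j (t j), Ex_sum]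
  refine sum_congr rfl fun u _ => ?_
  rw [Ex_mul_left, Ex_piK_prod J κ' d fun j x => if φ j x = u j then 1 else 0, mul_comm]
  congr 1
  refine prod_congr rfl fun j _ => ?_
  rw [h j fun x => if x = u j then 1 else 0, avg_Ex_ind]

end Ex

section EpiL

variable {Θ ι : Type} [Fintype Θ] [Fintype ι] [DecidableEq ι]

theorem Epi_const {q : Θ → ℝ} (hq : IsPr q) (c : ℝ) : Epi q (fun _ : ι → Θ => c) = c := by
  rw [Epi, ← sum_mul, ← Fintype.piFinset_univ, ← prod_univ_sum (fun _ => univ) fun _ a => q a]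
  simp only [hq.2, prod_const_one, one_mul]
theorem Epi_add (q : Θ → ℝ) (F G : (ι → Θ) → ℝ) :
    Epi q (fun ω => F ω + G ω) = Epi q F + Epi q G := by
  simp only [Epi, mul_add, sum_add_distrib]
theorem Epi_sub (q : Θ → ℝ) (F G : (ι → Θ) → ℝ) :
    Epi q (fun ω => F ω - G ω) = Epi q F - Epi q G := by
  simp only [Epi, mul_sub, sum_sub_distrib]
theorem Epi_mul_left (q : Θ → ℝ) (c : ℝ) (F : (ι → Θ) → ℝ) :
    Epi q (fun ω => c * F ω) = c * Epi q F := by
  simp only [Epi, mul_sum, mul_left_comm]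
theorem Epi_sum {α : Type*} (q : Θ → ℝ) (A : Finset α) (F : α → (ι → Θ) → ℝ) :
    Epi q (fun ω => ∑ a ∈ A, F a ω) = ∑ a ∈ A, Epi q (F a) := by
  simp only [Epi, mul_sum]
  exact sum_comm
theorem Epi_mono {q : Θ → ℝ} (hq : IsPr q) {F G : (ι → Θ) → ℝ} (h : ∀ ω, F ω ≤ G ω) :
    Epi q F ≤ Epi q G :=
  sum_le_sum fun ω _ => mul_le_mul_of_nonneg_left (h ω) (prod_nonneg fun _ _ => hq.1 _)
theorem abs_Epi_le {q : Θ → ℝ} (hq : IsPr q) {F : (ι → Θ) → ℝ} {B : ℝ} (h : ∀ ω, |F ω| ≤ B) :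
    |Epi q F| ≤ B := by
  have h1 := Epi_mono hq (F := fun _ => -B) fun ω => (abs_le.mp (h ω)).1
  have h2 := Epi_mono hq (G := fun _ => B) fun ω => (abs_le.mp (h ω)).2
  rw [Epi_const hq] at h1 h2
  exact abs_le.mpr ⟨h1, h2⟩
theorem Epi_eval {q : Θ → ℝ} (hq : IsPr q) (i : ι) (f : Θ → ℝ) :
    Epi q (fun ω : ι → Θ => f (ω i)) = ∑ a, q a * f a := by
  obtain ⟨a₀, -, -⟩ := exists_ne_zero_of_sum_ne_zero (s := univ) (f := q)
    (by rw [hq.2]; exact one_ne_zero)
  have h := isMor_piK_comp (κ := fun _ _ t => q t) (d := 0) ⟨fun _ => hq.1, fun _ => hq.2⟩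
    (fun _ : Unit => i) (fun _ _ _ => rfl) (fun t => f (t ())) fun _ => a₀
  refine h.trans ?_
  rw [← (Equiv.funUnique Unit Θ).sum_comp]
  simp [Ex, piK]
theorem Epi_snoc (q : Θ → ℝ) (N : ℕ) (F : (Fin (N + 1) → Θ) → ℝ) :
    Epi q F = Epi q (fun ω : Fin N → Θ => ∑ a, q a * F (Fin.snoc (α := fun _ => Θ) ω a)) := by
  simp only [Epi, mul_sum]
  rw [← (Fin.snocEquiv fun _ => Θ).sum_comp, Fintype.sum_prod_type, sum_comm]
  refine sum_congr rfl fun ω _ => sum_congr rfl fun a _ => ?_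
  rw [Fin.prod_univ_castSucc, mul_assoc]
  simp [Fin.snocEquiv]
/-- A product weight `q a / card V` on `Θ × V`. -/
theorem Epi_prod_unif {V : Type} [Fintype V] [Nonempty V] (q : Θ → ℝ)
    (F : (ι → Θ × V) → ℝ) :
    Epi (fun c : Θ × V => q c.1 / (Fintype.card V : ℝ)) F =
      Epi q (fun ω : ι → Θ => avg (fun i : ι → V => F (fun k => (ω k, i k)))) := by
  simp only [Epi, avg, mul_div_assoc', mul_sum, sum_div]
  rw [← (Equiv.arrowProdEquivProdArrow ι (fun _ => Θ) fun _ => V).symm.sum_comp,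
    Fintype.sum_prod_type]
  refine sum_congr rfl fun ω _ => sum_congr rfl fun i _ => ?_
  rw [prod_div_distrib, prod_const, card_univ, Fintype.card_fun, Nat.cast_pow, div_mul_eq_mul_div]
  rfl

end EpiL

end Vale.Agent.P168
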