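import Vale.Agent.P168MP.Avg

/-! Poisson expectations over lists. -/

namespace Vale.Agent.P168

open Finset Filter

theorem poi_nonneg {γ : ℝ} (h : 0 ≤ γ) (M : ℕ) : 0 ≤ poi γ M := by
  unfold poi
  positivity

lemma poi_hasSum_pow (γ b : ℝ) :
    HasSum (fun M : ℕ => poi γ M * b ^ M) (Real.exp (γ * (b - 1))) := by
  have h := (NormedSpace.expSeries_div_hasSum_exp (γ * b)).mul_left (Real.exp (-γ))
  rw [← Real.exp_eq_exp_ℝ, ← Real.exp_add, show -γ + γ * b = γ * (b - 1) by ring] at h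
  have e : (fun M : ℕ => poi γ M * b ^ M) =
      fun M : ℕ => Real.exp (-γ) * ((γ * b) ^ M / (M.factorial : ℝ)) := by
    funext M
    rw [poi, mul_pow]
    ring
  rw [e]
  exact h

theorem hasSum_poi (γ : ℝ) : HasSum (poi γ) 1 := by
  simpa using poi_hasSum_pow γ 1

theorem hasSum_poi_mul (γ : ℝ) : HasSum (fun M : ℕ => poi γ M * (M : ℝ)) γ := by
  rw [← hasSum_nat_add_iff' 1]
  have e : (fun n : ℕ => poi γ (n + 1) * ((n + 1 : ℕ) : ℝ)) = fun n => poi γ n * γ := by
    funext n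
    have : (n.factorial : ℝ) ≠ 0 := by positivity
    simp only [poi, Nat.factorial_succ]
    push_cast
    field_simp
    ring
  rw [e]
  simpa using (hasSum_poi γ).mul_right γ

lemma poi_hasSum_lin (γ a b : ℝ) : HasSum (fun M : ℕ => poi γ M * (a + b * M)) (a + b * γ) := by
  have h := ((hasSum_poi γ).mul_left a).add ((hasSum_poi_mul γ).mul_left b)
  rw [mul_one] at h
  have e : (fun M : ℕ => poi γ M * (a + b * M)) =
      fun M : ℕ => a * poi γ M + b * (poi γ M * (M : ℝ)) := funext fun M => by ring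
  rw [e]
  exact h

lemma poi_norm_le {γ : ℝ} (h : 0 ≤ γ) {x y : ℝ} (hu : |x| ≤ y) (M : ℕ) :
    ‖poi γ M * x‖ ≤ poi γ M * y := by
  rw [Real.norm_eq_abs, abs_mul, abs_of_nonneg (poi_nonneg h M)]
  exact mul_le_mul_of_nonneg_left hu (poi_nonneg h M)

theorem summable_poi_mul {γ : ℝ} (h : 0 ≤ γ) {u : ℕ → ℝ} {a b : ℝ}
    (hu : ∀ M, |u M| ≤ a + b * M) : Summable (fun M => poi γ M * u M) :=
  (poi_hasSum_lin γ a b).summable.of_norm_bounded fun M => poi_norm_le h (hu M) M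

theorem summable_poi_mul_pow {γ : ℝ} (h : 0 ≤ γ) {u : ℕ → ℝ} {a b : ℝ}
    (hu : ∀ M, |u M| ≤ a * b ^ M) : Summable (fun M => poi γ M * u M) := by
  refine ((poi_hasSum_pow γ b).mul_left a).summable.of_norm_bounded fun M => ?_
  rw [mul_left_comm]
  exact poi_norm_le h (hu M) M

theorem abs_tsum_poi_le {γ : ℝ} (h : 0 ≤ γ) {u : ℕ → ℝ} {a b : ℝ}
    (hu : ∀ M, |u M| ≤ a + b * M) : |∑' M, poi γ M * u M| ≤ a + b * γ :=
  tsum_of_norm_bounded (poi_hasSum_lin γ a b) fun M => poi_norm_le h (hu M) M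

theorem abs_tsum_poi_le_pow {γ : ℝ} (h : 0 ≤ γ) {u : ℕ → ℝ} {a b : ℝ}
    (hu : ∀ M, |u M| ≤ a * b ^ M) : |∑' M, poi γ M * u M| ≤ a * Real.exp (γ * (b - 1)) := by
  rw [← Real.norm_eq_abs]
  refine tsum_of_norm_bounded ((poi_hasSum_pow γ b).mul_left a) fun M => ?_
  rw [mul_left_comm]
  exact poi_norm_le h (hu M) M

/-- Poisson tails of linearly growing sequences are uniformly small. -/
theorem poi_tail {γ : ℝ} (h : 0 ≤ γ) (a b : ℝ) {ε : ℝ} (hε : 0 < ε) :
    ∃ M₀ : ℕ, ∀ (u : ℕ → ℝ) (η : ℝ), 0 ≤ η → (∀ M, |u M| ≤ a + b * M) →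
      (∀ M, M ≤ M₀ → |u M| ≤ η) → |∑' M, poi γ M * u M| ≤ η + ε := by
  obtain ⟨k, hk⟩ := eventually_atTop.1 ((tendsto_sum_nat_add
    fun M : ℕ => poi γ M * (a + b * M)).eventually (gt_mem_nhds hε))
  refine ⟨k, fun u η hη hu hs => ?_⟩
  rw [← (summable_poi_mul h hu).sum_add_tsum_nat_add k]
  refine (abs_add_le _ _).trans (add_le_add ?_ (le_trans ?_ (hk k le_rfl).le))
  · refine (abs_sum_le_sum_abs _ _).trans ((sum_le_sum (g := fun i => poi γ i * η) fun i hi =>
      poi_norm_le h (hs i (mem_range.1 hi).le) i).trans ?_)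
    rw [← sum_mul]
    exact mul_le_of_le_one_left hη (sum_le_hasSum _ (fun i _ => poi_nonneg h i) (hasSum_poi γ))
  · exact tsum_of_norm_bounded ((summable_nat_add_iff k).2 (poi_hasSum_lin γ a b).summable).hasSum
      fun i => poi_norm_le h (hu _) _

variable {C C' : Type} [Fintype C] [Fintype C']

theorem EL_eq_Epi (ν : C → ℝ) (M : ℕ) (G : List C → ℝ) :
    EL ν M G = Epi ν (fun c : Fin M → C => G (List.ofFn c)) := by
  induction M generalizing G with
  | zero => simp [EL, Epi]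
  | succ M ih =>
    simp only [EL, ih, Epi]
    rw [← (Fin.consEquiv fun _ : Fin (M + 1) => C).sum_comp, Fintype.sum_prod_type]
    refine sum_congr rfl fun c _ => ?_
    rw [mul_sum]
    refine sum_congr rfl fun ω _ => ?_
    simp [Fin.prod_univ_succ, List.ofFn_succ, mul_assoc]

theorem EL_smul (γ : ℝ) (ν : C → ℝ) (M : ℕ) (G : List C → ℝ) :
    EL (fun c => γ * ν c) M G = γ ^ M * EL ν M G := by
  induction M generalizing G with
  | zero => simp [EL]
  | succ M ih =>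
    simp only [EL, ih, mul_sum]
    exact sum_congr rfl fun c _ => by ring

theorem PP_eq_poi {q : C → ℝ} (hq : IsPr q) (γ : ℝ) (G : List C → ℝ) :
    PP (fun c => γ * q c) G =
      ∑' M : ℕ, poi γ M * Epi q (fun c : Fin M → C => G (List.ofFn c)) := by
  refine tsum_congr fun M => ?_
  rw [EL_smul, EL_eq_Epi, ← mul_sum, hq.2, poi]
  ring_nf

lemma poi_EL_const (ν : C → ℝ) (M : ℕ) (a : ℝ) : EL ν M (fun _ => a) = (∑ c, ν c) ^ M * a := by
  induction M with
  | zero => simp [EL]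
  | succ M ih =>
    simp only [EL, ih, ← sum_mul]
    ring

lemma poi_EL_add (ν : C → ℝ) (M : ℕ) (F G : List C → ℝ) :
    EL ν M (fun l => F l + G l) = EL ν M F + EL ν M G := by
  induction M generalizing F G with
  | zero => rfl
  | succ M ih => simp only [EL, ih, mul_add, sum_add_distrib]

lemma poi_EL_mul (ν : C → ℝ) (M : ℕ) (a : ℝ) (G : List C → ℝ) :
    EL ν M (fun l => a * G l) = a * EL ν M G := by
  induction M generalizing G with
  | zero => rfl
  | succ M ih =>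
    simp only [EL, ih, mul_sum]
    exact sum_congr rfl fun c _ => by ring

lemma poi_EL_sum {α : Type*} (ν : C → ℝ) (M : ℕ) (A : Finset α) (G : α → List C → ℝ) :
    EL ν M (fun l => ∑ a ∈ A, G a l) = ∑ a ∈ A, EL ν M (G a) := by
  induction M generalizing G with
  | zero => rfl
  | succ M ih =>
    simp only [EL, ih, mul_sum]
    exact sum_comm

lemma poi_EL_hasSum {α : Type*} (ν : C → ℝ) (M : ℕ) {F : α → List C → ℝ} {G : List C → ℝ}
    (h : ∀ l, HasSum (fun a => F a l) (G l)) : HasSum (fun a => EL ν M (F a)) (EL ν M G) := by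
  induction M generalizing F G with
  | zero => exact h []
  | succ M ih => exact hasSum_sum fun c _ => (ih fun l => h (c :: l)).mul_left (ν c)

lemma poi_EL_mono {ν : C → ℝ} (hν : ∀ c, 0 ≤ ν c) (M : ℕ) {F G : List C → ℝ}
    (h : ∀ l, l.length = M → F l ≤ G l) : EL ν M F ≤ EL ν M G := by
  induction M generalizing F G with
  | zero => exact h [] rfl
  | succ M ih =>
    exact sum_le_sum fun c _ => mul_le_mul_of_nonneg_left
      (ih fun l hl => h _ (by rw [List.length_cons, hl])) (hν c)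

lemma poi_EL_abs {ν : C → ℝ} (hν : ∀ c, 0 ≤ ν c) (M : ℕ) {G : List C → ℝ} {B : ℝ}
    (h : ∀ l, l.length = M → |G l| ≤ B) : |EL ν M G| ≤ (∑ c, ν c) ^ M * B := by
  rw [abs_le, ← mul_neg, ← poi_EL_const, ← poi_EL_const]
  exact ⟨poi_EL_mono hν M fun l hl => (abs_le.1 (h l hl)).1,
    poi_EL_mono hν M fun l hl => (abs_le.1 (h l hl)).2⟩

lemma poi_term_le {ν : C → ℝ} (hν : ∀ c, 0 ≤ ν c) (M : ℕ) {G : List C → ℝ} {B : ℝ}
    (h : ∀ l, l.length = M → |G l| ≤ B) :
    ‖Real.exp (-(∑ c, ν c)) / (M.factorial : ℝ) * EL ν M G‖ ≤ poi (∑ c, ν c) M * B := by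
  rw [Real.norm_eq_abs, abs_mul, abs_of_nonneg (by positivity)]
  refine (mul_le_mul_of_nonneg_left (poi_EL_abs hν M h) (by positivity)).trans (le_of_eq ?_)
  rw [poi]
  ring

lemma poi_summable {ν : C → ℝ} (hν : ∀ c, 0 ≤ ν c) {G : List C → ℝ} (hG : LinG G) :
    Summable fun M : ℕ => Real.exp (-(∑ c, ν c)) / (M.factorial : ℝ) * EL ν M G := by
  obtain ⟨a, b, h⟩ := hG
  exact (poi_hasSum_lin _ a b).summable.of_norm_bounded fun M =>
    poi_term_le hν M fun l hl => hl ▸ h l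

theorem LinG.add {F G : List C → ℝ} (hF : LinG F) (hG : LinG G) : LinG (fun l => F l + G l) := by
  obtain ⟨a, b, h⟩ := hF
  obtain ⟨a', b', h'⟩ := hG
  refine ⟨a + a', b + b', fun l => (abs_add_le _ _).trans ?_⟩
  linarith [h l, h' l]

theorem LinG.sub {F G : List C → ℝ} (hF : LinG F) (hG : LinG G) : LinG (fun l => F l - G l) := by
  obtain ⟨a, b, h⟩ := hF
  obtain ⟨a', b', h'⟩ := hG
  refine ⟨a + a', b + b', fun l => (abs_sub _ _).trans ?_⟩
  linarith [h l, h' l]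

theorem LinG.comp_map {G : List C → ℝ} (hG : LinG G) (e : C' → C) :
    LinG (fun l : List C' => G (l.map e)) := by
  obtain ⟨a, b, h⟩ := hG
  exact ⟨a, b, fun l => by simpa using h (l.map e)⟩

theorem linG_const (c : ℝ) : LinG (fun _ : List C => c) := ⟨|c|, 0, fun l => by simp⟩

theorem linG_sum_map (v : C → ℝ) : LinG (fun l : List C => (l.map v).sum) := by
  refine ⟨0, ‖v‖, fun l => ?_⟩
  induction l with
  | nil => simp
  | cons c l ih =>
    have := norm_le_pi_norm v c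
    rw [Real.norm_eq_abs] at this
    dsimp only at ih ⊢
    rw [List.map_cons, List.sum_cons, List.length_cons]
    push_cast
    linarith [abs_add_le (v c) (l.map v).sum]

theorem PP_const {ν : C → ℝ} (c : ℝ) : PP ν (fun _ => c) = c := by
  have h := ((hasSum_poi (∑ c, ν c)).mul_right c).tsum_eq
  rw [one_mul] at h
  refine Eq.trans (tsum_congr fun M => ?_) h
  rw [poi_EL_const, poi]
  ring

theorem PP_add_fun {ν : C → ℝ} (hν : ∀ c, 0 ≤ ν c) {F G : List C → ℝ} (hF : LinG F)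
    (hG : LinG G) : PP ν (fun l => F l + G l) = PP ν F + PP ν G := by
  simp only [PP, poi_EL_add, mul_add]
  exact (poi_summable hν hF).tsum_add (poi_summable hν hG)

theorem PP_sub_fun {ν : C → ℝ} (hν : ∀ c, 0 ≤ ν c) {F G : List C → ℝ} (hF : LinG F)
    (hG : LinG G) : PP ν (fun l => F l - G l) = PP ν F - PP ν G := by
  have h := PP_add_fun hν (hF.sub hG) hG
  simp only [sub_add_cancel] at h
  exact eq_sub_of_add_eq h.symm

theorem PP_mul_left (ν : C → ℝ) (a : ℝ) (G : List C → ℝ) :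
    PP ν (fun l => a * G l) = a * PP ν G := by
  simp only [PP, poi_EL_mul, ← tsum_mul_left]
  exact tsum_congr fun M => by ring

theorem PP_sum {α : Type*} {ν : C → ℝ} (hν : ∀ c, 0 ≤ ν c) (A : Finset α) {G : α → List C → ℝ}
    (hG : ∀ a, LinG (G a)) : PP ν (fun l => ∑ a ∈ A, G a l) = ∑ a ∈ A, PP ν (G a) := by
  simp only [PP, poi_EL_sum, mul_sum]
  exact Summable.tsum_finsetSum fun a _ => poi_summable hν (hG a)

theorem PP_mono {ν : C → ℝ} (hν : ∀ c, 0 ≤ ν c) {F G : List C → ℝ} (hF : LinG F) (hG : LinG G)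
    (h : ∀ l, F l ≤ G l) : PP ν F ≤ PP ν G :=
  (poi_summable hν hF).tsum_le_tsum (fun M => mul_le_mul_of_nonneg_left
    (poi_EL_mono hν M fun l _ => h l) (by positivity)) (poi_summable hν hG)

theorem abs_PP_le {ν : C → ℝ} (hν : ∀ c, 0 ≤ ν c) {G : List C → ℝ} {a b : ℝ}
    (h : ∀ l, |G l| ≤ a + b * l.length) : |PP ν G| ≤ a + b * ∑ c, ν c :=
  tsum_of_norm_bounded (poi_hasSum_lin _ a b) fun M => poi_term_le hν M fun l hl => hl ▸ h l

theorem abs_PP_sub_le {ν : C → ℝ} (hν : ∀ c, 0 ≤ ν c) {F G : List C → ℝ} (hF : LinG F)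
    (hG : LinG G) {a b : ℝ} (h : ∀ l, |F l - G l| ≤ a + b * l.length) :
    |PP ν F - PP ν G| ≤ a + b * ∑ c, ν c := by
  rw [← PP_sub_fun hν hF hG]
  exact abs_PP_le hν h

theorem PP_sum_map {ν : C → ℝ} (hν : ∀ c, 0 ≤ ν c) (v : C → ℝ) :
    PP ν (fun l => (l.map v).sum) = ∑ c, ν c * v c := by
  have _ := hν
  have h1 : ∀ M : ℕ, EL ν (M + 1) (fun l => (l.map v).sum) =
      (M + 1) * (∑ c, ν c) ^ M * ∑ c, ν c * v c := by
    have step : ∀ M : ℕ, EL ν (M + 1) (fun l => (l.map v).sum) =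
        (∑ c, ν c) ^ M * (∑ c, ν c * v c) + (∑ c, ν c) * EL ν M fun l => (l.map v).sum := by
      intro M
      rw [EL, mul_sum, sum_mul, ← sum_add_distrib]
      refine sum_congr rfl fun c _ => ?_
      simp only [List.map_cons, List.sum_cons]
      rw [poi_EL_add, poi_EL_const]
      ring
    intro M
    induction M with
    | zero => rw [step]; simp [EL]
    | succ M ih => rw [step, ih]; push_cast; ring
  refine HasSum.tsum_eq ?_
  rw [← hasSum_nat_add_iff' 1]
  have e : (fun n : ℕ => Real.exp (-(∑ c, ν c)) / ((n + 1).factorial : ℝ) *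
      EL ν (n + 1) (fun l => (l.map v).sum)) = fun n => poi (∑ c, ν c) n * ∑ c, ν c * v c := by
    funext n
    have : (n.factorial : ℝ) ≠ 0 := by positivity
    rw [h1, poi, Nat.factorial_succ]
    push_cast
    field_simp
  rw [e]
  simpa [EL] using (hasSum_poi (∑ c, ν c)).mul_right (∑ c, ν c * v c)

theorem PP_map {ν : C → ℝ} {ν' : C' → ℝ} (e : C' → C)
    (h : ∀ F : C → ℝ, ∑ c, ν c * F c = ∑ c', ν' c' * F (e c')) (G : List C → ℝ) :
    PP ν G = PP ν' (fun l => G (l.map e)) := by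
  have h1 : ∑ c, ν c = ∑ c, ν' c := by simpa using h fun _ => 1
  have h2 : ∀ (M : ℕ) (G : List C → ℝ), EL ν M G = EL ν' M fun l => G (l.map e) := by
    intro M
    induction M with
    | zero => intro G; rfl
    | succ M ih =>
      intro G
      simp only [EL, ih, List.map_cons]
      exact h fun c => EL ν' M fun l => G (c :: l.map e)
  simp only [PP, h1, h2 _ G]

theorem LinG.inner {ν : C → ℝ} (hν : ∀ c, 0 ≤ ν c) {G : List C → ℝ} (hG : LinG G) :
    LinG (fun l₁ => PP ν (fun l₂ => G (l₁ ++ l₂))) := by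
  obtain ⟨a, b, h⟩ := hG
  refine ⟨a + b * ∑ c, ν c, b, fun l₁ => (abs_PP_le hν (a := a + b * l₁.length) (b := b)
    fun l₂ => (h _).trans (le_of_eq ?_)).trans (le_of_eq (by ring))⟩
  rw [List.length_append]
  push_cast
  ring

theorem LinG.append_left {G : List C → ℝ} (hG : LinG G) (l₁ : List C) :
    LinG (fun l₂ => G (l₁ ++ l₂)) := by
  obtain ⟨a, b, h⟩ := hG
  refine ⟨a + b * l₁.length, b, fun l₂ => (h _).trans (le_of_eq ?_)⟩
  rw [List.length_append]
  push_cast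
  ring

lemma poi_EL_binom (ν₁ ν₂ : C → ℝ) (M : ℕ) {G : List C → ℝ} (hP : PermInv G) :
    EL (fun c => ν₁ c + ν₂ c) M G = ∑ p ∈ antidiagonal M, (M.choose p.1 : ℝ) *
      EL ν₁ p.1 (fun l₁ => EL ν₂ p.2 fun l₂ => G (l₁ ++ l₂)) := by
  induction M generalizing G with
  | zero => simp [EL]
  | succ M ih =>
    have hc : ∀ c, PermInv fun l => G (c :: l) := fun c l l' h => hP _ _ (h.cons c)
    rw [sum_antidiagonal_choose_succ_mul
      (fun j k => EL ν₁ j (fun l₁ => EL ν₂ k fun l₂ => G (l₁ ++ l₂))), EL]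
    simp only [fun c => ih (hc c), add_mul, sum_add_distrib, mul_sum]
    rw [add_comm, sum_comm, sum_comm (s := univ)]
    congr 1
    · refine sum_congr rfl fun p _ => ?_
      simp only [EL, poi_EL_sum, poi_EL_mul, mul_sum]
      refine sum_congr rfl fun c _ => ?_
      have e : ∀ l₁ l₂ : List C, G (c :: (l₁ ++ l₂)) = G (l₁ ++ c :: l₂) := fun l₁ l₂ =>
        hP _ _ List.perm_middle.symm
      simp only [e]
      ring
    · refine sum_congr rfl fun p hp => ?_
      rw [Nat.choose_symm_of_eq_add (mem_antidiagonal.1 hp).symm]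
      simp only [EL, mul_sum, List.cons_append]
      exact sum_congr rfl fun c _ => by ring

/-- Superposition. -/
theorem PP_add {ν₁ ν₂ : C → ℝ} (h₁ : ∀ c, 0 ≤ ν₁ c) (h₂ : ∀ c, 0 ≤ ν₂ c) {G : List C → ℝ}
    (hG : LinG G) (hP : PermInv G) :
    PP (fun c => ν₁ c + ν₂ c) G = PP ν₁ (fun l₁ => PP ν₂ (fun l₂ => G (l₁ ++ l₂))) := by
  obtain ⟨a, b, hab⟩ := id hG
  have s₁ : 0 ≤ ∑ c, ν₁ c := sum_nonneg fun c _ => h₁ c
  have s₂ : 0 ≤ ∑ c, ν₂ c := sum_nonneg fun c _ => h₂ c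
  set T : ℕ × ℕ → ℝ := fun p => Real.exp (-(∑ c, ν₁ c)) / (p.1.factorial : ℝ) *
    EL ν₁ p.1 (fun l₁ => Real.exp (-(∑ c, ν₂ c)) / (p.2.factorial : ℝ) *
      EL ν₂ p.2 fun l₂ => G (l₁ ++ l₂)) with hT
  have hs : Summable T := by
    refine (((poi_hasSum_lin (∑ c, ν₁ c) (1 + |a|) |b|).summable).mul_of_nonneg
      ((poi_hasSum_lin (∑ c, ν₂ c) 1 |b|).summable)
      (fun M => mul_nonneg (poi_nonneg s₁ M) (by positivity))
      (fun M => mul_nonneg (poi_nonneg s₂ M) (by positivity))).of_norm_bounded fun p => ?_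
    rw [mul_assoc]
    refine poi_term_le h₁ p.1 fun l₁ hl₁ => ?_
    rw [mul_left_comm]
    refine poi_term_le h₂ p.2 fun l₂ hl₂ => (hab _).trans ?_
    rw [List.length_append, hl₁, hl₂]
    push_cast
    have k1 : b * p.1 ≤ |b| * p.1 := mul_le_mul_of_nonneg_right (le_abs_self b) (by positivity)
    have k2 : b * p.2 ≤ |b| * p.2 := mul_le_mul_of_nonneg_right (le_abs_self b) (by positivity)
    have k3 : 0 ≤ (|a| + |b| * p.1) * (|b| * p.2) := by positivity
    nlinarith [le_abs_self a]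
  have e1 : HasSum (fun n => ∑ p ∈ antidiagonal n, T p) (∑' p, T p) :=
    ((Finset.HasAntidiagonal.sigmaAntidiagonalEquivProd (A := ℕ)).hasSum_iff.2 hs.hasSum).sigma fun n =>
      (antidiagonal n).hasSum T
  have e2 := hs.hasSum.prod_fiberwise fun j => (poi_EL_hasSum ν₁ j fun l₁ =>
    (poi_summable h₂ (hG.append_left l₁)).hasSum).mul_left
      (Real.exp (-(∑ c, ν₁ c)) / (j.factorial : ℝ))
  refine Eq.trans ?_ (e1.tsum_eq.trans e2.tsum_eq.symm)
  refine tsum_congr fun M => ?_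
  rw [poi_EL_binom ν₁ ν₂ M hP, mul_sum]
  refine sum_congr rfl fun p hp => ?_
  have k := Nat.add_choose_mul_factorial_mul_factorial p.2 p.1
  rw [add_comm, mem_antidiagonal.1 hp] at k
  have k' : (M.factorial : ℝ) = M.choose p.1 * p.2.factorial * p.1.factorial := by
    exact_mod_cast k.symm
  have k0 : (M.choose p.1 : ℝ) ≠ 0 := by
    have := mem_antidiagonal.1 hp
    exact_mod_cast (Nat.choose_pos (by omega)).ne'
  simp only [hT, poi_EL_mul]
  rw [sum_add_distrib, neg_add, Real.exp_add, k']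
  field_simp

/-- Adding a small intensity changes little. -/
theorem abs_PP_add_sub_le {ν₁ ν₂ : C → ℝ} (h₁ : ∀ c, 0 ≤ ν₁ c) (h₂ : ∀ c, 0 ≤ ν₂ c)
    {G : List C → ℝ} (hG : LinG G) (hP : PermInv G) {b : ℝ}
    (hb : ∀ l c, |G (c :: l) - G l| ≤ b) :
    |PP (fun c => ν₁ c + ν₂ c) G - PP ν₁ G| ≤ b * ∑ c, ν₂ c := by
  have key : ∀ l₁ l₂ : List C, |G (l₁ ++ l₂) - G l₁| ≤ 0 + b * l₂.length := by
    intro l₁ l₂
    rw [hP _ _ List.perm_append_comm]
    induction l₂ with
    | nil => simp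
    | cons c l ih =>
      rw [List.cons_append, List.length_cons]
      push_cast
      linarith [abs_sub_le (G (c :: (l ++ l₁))) (G (l ++ l₁)) (G l₁), hb (l ++ l₁) c]
  rw [PP_add h₁ h₂ hG hP]
  have := abs_PP_sub_le h₁ (hG.inner h₂) hG (a := b * ∑ c, ν₂ c) (b := 0) fun l₁ => by
    have k := abs_PP_sub_le h₂ (hG.append_left l₁) (linG_const (G l₁)) (key l₁)
    rw [PP_const] at k
    linarith
  linarith

/-- One-at-a-time replacement. -/
theorem PP_le_of_step {q₁ q₀ : C → ℝ} (h₁ : IsPr q₁) (h₀ : IsPr q₀) {G : List C → ℝ}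
    (hG : LinG G) (hP : PermInv G) {γ δ : ℝ} (hγ : 0 ≤ γ)
    (h : ∀ l, ∑ c, q₁ c * G (c :: l) ≤ ∑ c, q₀ c * G (c :: l) + δ) :
    PP (fun c => γ * q₁ c) G ≤ PP (fun c => γ * q₀ c) G + γ * δ := by
  have key : ∀ (M : ℕ) (G : List C → ℝ), PermInv G →
      (∀ l, ∑ c, q₁ c * G (c :: l) ≤ ∑ c, q₀ c * G (c :: l) + δ) →
      EL q₁ M G ≤ EL q₀ M G + M * δ := by
    intro M
    induction M with
    | zero => intro G _ _; simp [EL]
    | succ M ih =>
      intro G hP h
      have a1 : EL q₁ (M + 1) G ≤ ∑ c, q₁ c * (EL q₀ M (fun l => G (c :: l)) + M * δ) :=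
        sum_le_sum fun c _ => mul_le_mul_of_nonneg_left (ih _ (fun l l' k => hP _ _ (k.cons c))
          fun l => by
            simp only [fun c' => hP _ _ (List.Perm.swap c' c l)]
            exact h (c :: l)) (h₁.1 c)
      have a2 := poi_EL_mono h₀.1 M fun l _ => h l
      simp only [poi_EL_add, poi_EL_sum, poi_EL_mul, poi_EL_const, h₀.2, one_pow, one_mul] at a2
      simp only [mul_add, sum_add_distrib, ← sum_mul, h₁.2, one_mul] at a1
      rw [EL.eq_2 q₀]
      push_cast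
      linarith
  obtain ⟨a, b, hab⟩ := hG
  have sm : ∀ q : C → ℝ, IsPr q → Summable fun M => poi γ M * EL q M G := fun q hq =>
    summable_poi_mul hγ fun M => by
      simpa [hq.2] using poi_EL_abs hq.1 M (B := a + b * M) fun l hl => hl ▸ hab l
  have s3 := (hasSum_poi_mul γ).mul_right δ
  rw [PP_eq_poi h₁, PP_eq_poi h₀, ← s3.tsum_eq]
  simp only [← EL_eq_Epi]
  rw [← (sm q₀ h₀).tsum_add s3.summable]
  refine (sm q₁ h₁).tsum_le_tsum (fun M => ?_) ((sm q₀ h₀).add s3.summable)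
  rw [mul_assoc, ← mul_add]
  exact mul_le_mul_of_nonneg_left (key M G hP h) (poi_nonneg hγ M)

omit [Fintype C] in
/-- Permuted lists are reindexings of each other. -/
theorem exists_equiv_of_perm {l l' : List C} (h : l.Perm l') :
    ∃ e : Fin l.length ≃ Fin l'.length, ∀ k, l'.get (e k) = l.get k := by
  induction h with
  | nil => exact ⟨Equiv.refl _, fun k => rfl⟩
  | @cons x l₁ l₂ _ ih =>
    obtain ⟨e, he⟩ := ih
    refine ⟨(finSuccEquiv l₁.length).trans (e.optionCongr.trans (finSuccEquiv l₂.length).symm),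
      fun k => ?_⟩
    refine Fin.cases ?_ (fun k => ?_) k
    · simp
    · simpa using he k
  | swap x y l =>
    refine ⟨Equiv.swap (0 : Fin (l.length + 1 + 1)) 1, fun k => ?_⟩
    refine Fin.cases ?_ (fun k => Fin.cases ?_ (fun k => ?_) k) k
    · simp
    · simp
    · rw [Equiv.swap_apply_of_ne_of_ne (Fin.succ_ne_zero _) (Fin.succ_succ_ne_one k)]
      rfl
  | trans _ _ ih₁ ih₂ =>
    obtain ⟨e₁, he₁⟩ := ih₁
    obtain ⟨e₂, he₂⟩ := ih₂
    exact ⟨e₁.trans e₂, fun k => (he₂ _).trans (he₁ k)⟩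

end Vale.Agent.P168
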