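import Vale.Agent.P168MP.BrApx
import Vale.Agent.P168MP.Merge
import Vale.Agent.P168MP.Poi

/-! Helper lemmas for the dependence on the law of the disorder. -/

namespace Vale.Agent.P168

open Finset MeasureTheory

theorem dis_cont {E : Type*} [TopologicalSpace E] {g : E → ℝ} {D : E → E → ℝ}
    (hD : ∀ p', Continuous (fun p => D p p')) (h0 : ∀ p, D p p = 0)
    (h : ∀ p p', |g p - g p'| ≤ D p p') : Continuous g := by
  refine continuous_iff_continuousAt.2 (fun p' => ?_)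
  rw [ContinuousAt, tendsto_iff_norm_sub_tendsto_zero]
  have h1 : Filter.Tendsto (fun p => D p p') (nhds p') (nhds 0) := by
    have := (hD p').tendsto p'
    rwa [h0] at this
  exact squeeze_zero (fun _ => norm_nonneg _) (fun p => h p p') h1

section Single

variable {X : Type*} [MeasurableSpace X] {μ : Measure X}

theorem dis_int {G u : X → ℝ} (hG : Measurable G) (hu : Integrable u μ) (h : ∀ x, |G x| ≤ u x) :
    Integrable G μ :=
  hu.mono' hG.aestronglyMeasurable (Filter.Eventually.of_forall h)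

theorem dis_abs {G u : X → ℝ} (hu : Integrable u μ) (h : ∀ x, |G x| ≤ u x) :
    |∫ x, G x ∂μ| ≤ ∫ x, u x ∂μ :=
  norm_integral_le_of_norm_le (f := G) hu (Filter.Eventually.of_forall h)

theorem dis_sub {G G' s : X → ℝ} (hG : Integrable G μ) (hG' : Integrable G' μ)
    (hs : Integrable s μ) (h : ∀ x, |G x - G' x| ≤ s x) :
    |∫ x, G x ∂μ - ∫ x, G' x ∂μ| ≤ ∫ x, s x ∂μ := by
  rw [← integral_sub hG hG']
  exact dis_abs hs h

end Single

section Double

variable {X Y : Type*} [MeasurableSpace X] [MeasurableSpace Y] {μ : Measure X} {ν : Measure Y}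
  [IsProbabilityMeasure μ] [IsProbabilityMeasure ν]

theorem dis_int_add {u : X → ℝ} {v : Y → ℝ} (hu : Integrable u μ) (hv : Integrable v ν) :
    Integrable (fun z : X × Y => u z.1 + v z.2) (μ.prod ν) :=
  (hu.comp_fst ν).add (hv.comp_snd μ)

theorem dis_integral_add {u : X → ℝ} {v : Y → ℝ} (hu : Integrable u μ) (hv : Integrable v ν) :
    ∫ z : X × Y, (u z.1 + v z.2) ∂(μ.prod ν) = ∫ x, u x ∂μ + ∫ y, v y ∂ν := by
  rw [integral_add (hu.comp_fst ν) (hv.comp_snd μ), integral_fun_fst, integral_fun_snd]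
  simp

theorem dis_abs2 {G : X → Y → ℝ} (hG : Measurable (fun z : X × Y => G z.1 z.2)) {u : X → ℝ}
    {v : Y → ℝ} (hu : Integrable u μ) (hv : Integrable v ν) (h : ∀ x y, |G x y| ≤ u x + v y) :
    |∫ x, ∫ y, G x y ∂ν ∂μ| ≤ ∫ x, u x ∂μ + ∫ y, v y ∂ν := by
  have hi := dis_int hG (dis_int_add hu hv) (fun z => h z.1 z.2)
  rw [← integral_prod _ hi, ← dis_integral_add hu hv]
  exact dis_abs (dis_int_add hu hv) (fun z => h z.1 z.2)

theorem dis_sub2 {G G' : X → Y → ℝ} (hG : Measurable (fun z : X × Y => G z.1 z.2))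
    (hG' : Measurable (fun z : X × Y => G' z.1 z.2)) {u u' s : X → ℝ} {v v' t : Y → ℝ}
    (hu : Integrable u μ) (hv : Integrable v ν) (h : ∀ x y, |G x y| ≤ u x + v y)
    (hu' : Integrable u' μ) (hv' : Integrable v' ν) (h' : ∀ x y, |G' x y| ≤ u' x + v' y)
    (hs : Integrable s μ) (ht : Integrable t ν) (hd : ∀ x y, |G x y - G' x y| ≤ s x + t y) :
    |∫ x, ∫ y, G x y ∂ν ∂μ - ∫ x, ∫ y, G' x y ∂ν ∂μ| ≤ ∫ x, s x ∂μ + ∫ y, t y ∂ν := by
  have hi := dis_int hG (dis_int_add hu hv) (fun z => h z.1 z.2)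
  have hi' := dis_int hG' (dis_int_add hu' hv') (fun z => h' z.1 z.2)
  rw [← integral_prod _ hi, ← integral_prod _ hi', ← dis_integral_add hs ht]
  exact dis_sub hi hi' (dis_int_add hs ht) (fun z => hd z.1 z.2)

end Double

section Sums

variable {Ω : Type*} [MeasurableSpace Ω] {P : Measure Ω} [IsProbabilityMeasure P]

theorem dis_int_sum (M : ℕ) {φ : Ω → ℝ} (hφ : Integrable φ P) :
    Integrable (fun ω : Fin M → Ω => ∑ k, φ (ω k)) (Measure.pi fun _ => P) :=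
  integrable_finsetSum _ (fun k _ => integrable_comp_eval (μ := fun _ : Fin M => P) (i := k) hφ)

theorem dis_integral_sum (M : ℕ) {φ : Ω → ℝ} (hφ : Integrable φ P) :
    ∫ ω : Fin M → Ω, ∑ k, φ (ω k) ∂(Measure.pi fun _ => P) = (∫ ω, φ ω ∂P) * M := by
  rw [integral_finsetSum _
    (fun k _ => integrable_comp_eval (μ := fun _ : Fin M => P) (i := k) hφ)]
  have : ∀ k : Fin M, ∫ ω : Fin M → Ω, φ (ω k) ∂(Measure.pi fun _ => P) = ∫ ω, φ ω ∂P :=
    fun k => integral_comp_eval (μ := fun _ : Fin M => P) (i := k) hφ.aestronglyMeasurable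
  simp only [this]
  simp [mul_comm]

end Sums

theorem dis_tsum {γ : ℝ} (hγ : 0 ≤ γ) {u u' : ℕ → ℝ} {a b a' b' c d : ℝ}
    (hu : ∀ M, |u M| ≤ a + b * M) (hu' : ∀ M, |u' M| ≤ a' + b' * M)
    (h : ∀ M, |u M - u' M| ≤ c + d * M) :
    |∑' M, poi γ M * u M - ∑' M, poi γ M * u' M| ≤ c + d * γ := by
  rw [← (summable_poi_mul hγ hu).tsum_sub (summable_poi_mul hγ hu')]
  simp only [← mul_sub]
  exact abs_tsum_poi_le hγ h

theorem dis_tsum_pow {γ : ℝ} (hγ : 0 ≤ γ) {u u' : ℕ → ℝ} {a b a' b' c d : ℝ}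
    (hu : ∀ M, |u M| ≤ a + b * M) (hu' : ∀ M, |u' M| ≤ a' + b' * M)
    (h : ∀ M, |u M - u' M| ≤ c * d ^ M) :
    |∑' M, poi γ M * u M - ∑' M, poi γ M * u' M| ≤ c * Real.exp (γ * (d - 1)) := by
  rw [← (summable_poi_mul hγ hu).tsum_sub (summable_poi_mul hγ hu')]
  simp only [← mul_sub]
  exact abs_tsum_poi_le_pow hγ h

section Funs

variable {K M : ℕ}

/-- The integrand of the pressure. -/
noncomputable def disZ (N : ℕ) (θ : Fin M → Cl K) (h : Fin N → ℝ) : ℝ :=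
  avg (fun i : Fin M → Fin K → Fin N => logZ θ i h)

theorem disZ_abs (N : ℕ) (θ : Fin M → Cl K) (h : Fin N → ℝ) :
    |disZ N θ h| ≤ ∑ k, ‖θ k‖ + (N + ∑ v, |h v|) := by
  refine abs_avg_le (by positivity) (fun i => ?_)
  have := abs_logZ_le θ i h
  linarith

theorem disZ_sub (N : ℕ) (θ θ' : Fin M → Cl K) (h h' : Fin N → ℝ) :
    |disZ N θ h - disZ N θ' h'| ≤ ∑ k, ‖θ k - θ' k‖ + ∑ v, |h v - h' v| :=
  abs_avg_sub_le (by positivity) (fun i => abs_logZ_sub_le θ θ' i h h')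

theorem disZ_cont (N : ℕ) :
    Continuous (fun p : (Fin M → Cl K) × (Fin N → ℝ) => disZ N p.1 p.2) :=
  dis_cont (D := fun p p' => ∑ k, ‖p.1 k - p'.1 k‖ + ∑ v, |p.2 v - p'.2 v|)
    (fun p' => by fun_prop) (fun p => by simp) (fun p p' => disZ_sub N _ _ _ _)

variable {r : ℕ} {m : Fin r → ℝ} {x x' : (Fin (r + 1) → unitInterval) → ℝ}

theorem dis_hat_abs {J : Type} [Fintype J] [DecidableEq J] (ha : Adm r m x)
    {Y : (J → Bool) → ℝ} {B : ℝ} (hY : ∀ s, 0 < Y s ∧ |Real.log (Y s)| ≤ B) :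
    |Tf r m x (hat Y)| ≤ B :=
  abs_Tf_le ha (continuous_hat Y).measurable
    (fun _ hy => ⟨hat_pos (fun s => (hY s).1) hy, abs_log_hat_le hY hy⟩)

theorem dis_hat_sub {J : Type} [Fintype J] [DecidableEq J] (ha : Adm r m x)
    {Y Y' : (J → Bool) → ℝ} {B B' b : ℝ} (hY : ∀ s, 0 < Y s ∧ |Real.log (Y s)| ≤ B)
    (hY' : ∀ s, 0 < Y' s ∧ |Real.log (Y' s)| ≤ B')
    (hb : ∀ s, |Real.log (Y s) - Real.log (Y' s)| ≤ b) :
    |Tf r m x (hat Y) - Tf r m x (hat Y')| ≤ b :=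
  abs_Tf_sub_le (B := max B B') ha (continuous_hat Y).measurable (continuous_hat Y').measurable
    (fun _ hy => ⟨hat_pos (fun s => (hY s).1) hy,
      (abs_log_hat_le hY hy).trans (le_max_left _ _)⟩)
    (fun _ hy => ⟨hat_pos (fun s => (hY' s).1) hy,
      (abs_log_hat_le hY' hy).trans (le_max_right _ _)⟩)
    (fun _ hy => abs_log_hat_sub_le (fun s => (hY s).1) (fun s => (hY' s).1) hb hy)

/-- The integrand of `TU`. -/
noncomputable def disU (r : ℕ) (m : Fin r → ℝ) (x : (Fin (r + 1) → unitInterval) → ℝ)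
    (θ : Fin M → Cl K) (h : ℝ) : ℝ :=
  avg (fun l : Fin M → Fin K => Tf r m x (Ufun h θ l))

theorem disU_abs (ha : Adm r m x) (θ : Fin M → Cl K) (h : ℝ) :
    |disU r m x θ h| ≤ ∑ k, ‖θ k‖ + (1 + |h|) := by
  refine abs_avg_le (by positivity) (fun l => ?_)
  rw [← hat_YU]
  refine dis_hat_abs ha (fun s => ⟨YU_pos h θ l s, ?_⟩)
  have := abs_log_YU_le h θ l s
  linarith

theorem disU_sub (ha : Adm r m x) (θ θ' : Fin M → Cl K) (h h' : ℝ) :
    |disU r m x θ h - disU r m x θ' h'| ≤ ∑ k, ‖θ k - θ' k‖ + |h - h'| := by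
  refine abs_avg_sub_le (by positivity) (fun l => ?_)
  rw [← hat_YU, ← hat_YU]
  refine dis_hat_sub ha (fun s => ⟨YU_pos h θ l s, abs_log_YU_le h θ l s⟩)
    (fun s => ⟨YU_pos h' θ' l s, abs_log_YU_le h' θ' l s⟩) (fun s => ?_)
  have := abs_log_YU_sub_le h h' θ θ' l s
  linarith

theorem disU_cont (ha : Adm r m x) :
    Continuous (fun p : (Fin M → Cl K) × ℝ => disU r m x p.1 p.2) :=
  dis_cont (D := fun p p' => ∑ k, ‖p.1 k - p'.1 k‖ + |p.2 - p'.2|)
    (fun p' => by fun_prop) (fun p => by simp) (fun p p' => disU_sub ha _ _ _ _)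

theorem disV_abs (ha : Adm r m x) (θ : Fin M → Cl K) : |Tf r m x (Vfun θ)| ≤ ∑ k, ‖θ k‖ := by
  rw [← hat_YV]
  exact dis_hat_abs ha (fun s => ⟨YV_pos θ s, abs_log_YV_le θ s⟩)

theorem disV_sub (ha : Adm r m x) (θ θ' : Fin M → Cl K) :
    |Tf r m x (Vfun θ) - Tf r m x (Vfun θ')| ≤ ∑ k, ‖θ k - θ' k‖ := by
  rw [← hat_YV, ← hat_YV]
  exact dis_hat_sub ha (fun s => ⟨YV_pos θ s, abs_log_YV_le θ s⟩)
    (fun s => ⟨YV_pos θ' s, abs_log_YV_le θ' s⟩) (fun s => abs_log_YV_sub_le θ θ' s)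

theorem disV_cont (ha : Adm r m x) :
    Continuous (fun p : Fin M → Cl K => Tf r m x (Vfun p)) :=
  dis_cont (D := fun p p' => ∑ k, ‖p k - p' k‖)
    (fun p' => by fun_prop) (fun p => by simp) (fun p p' => disV_sub ha _ _)

theorem dis_hat_L1 (ha : Adm r m x) (ha' : Adm r m x')
    {Y : (Fin M × Fin K → Bool) → ℝ} {c d : ℝ}
    (hY : ∀ s, 0 < Y s ∧ |Real.log (Y s)| ≤ c + d * M) :
    |Tf r m x (hat Y) - Tf r m x' (hat Y)| ≤
      (K * Real.exp (2 * c * (r + 1)) * ∫ w, |x w - x' w|) *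
        (2 * Real.exp (2 * d * (r + 1))) ^ M := by
  have h1 := abs_Tf_sub_le_L1 ha ha' (continuous_hat Y).measurable (Real.exp_pos _).le
    (fun _ hy => ⟨hat_pos (fun s => (hY s).1) hy, abs_log_hat_le hY hy⟩)
    (fun _ _ hy hy' => abs_log_hat_lip hY hy hy')
  refine h1.trans ?_
  have hI : 0 ≤ ∫ w, |x w - x' w| := integral_nonneg (fun _ => abs_nonneg _)
  have hM : (M : ℝ) ≤ 2 ^ M := by
    have : M < 2 ^ M := Nat.lt_two_pow_self
    exact_mod_cast this.le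
  have he : Real.exp (2 * (c + d * M) * r) * Real.exp (2 * (c + d * M)) =
      Real.exp (2 * c * (r + 1)) * Real.exp (2 * d * (r + 1)) ^ M := by
    rw [← Real.exp_nat_mul, ← Real.exp_add, ← Real.exp_add]
    congr 1
    ring
  rw [he, mul_pow]
  simp only [Fintype.card_prod, Fintype.card_fin, Nat.cast_mul]
  have h2 : 0 ≤ Real.exp (2 * c * (r + 1)) * Real.exp (2 * d * (r + 1)) ^ M * K *
      ∫ w, |x w - x' w| := by positivity
  have h3 := mul_le_mul_of_nonneg_left hM h2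
  linarith

end Funs

end Vale.Agent.P168
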