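import Vale.Agent.P168MP.Casc

/-! Finite message structures are realised by measurable functions of uniform variables. -/

namespace Vale.Agent.P168

open Finset MeasureTheory

/-- The fibres of `Q` are measurable with volumes `p`. -/
def BrFib {S : Type} (Q : unitInterval → S) (p : S → ℝ) : Prop :=
  ∀ t, MeasurableSet (Q ⁻¹' {t}) ∧ volume.real (Q ⁻¹' {t}) = p t

theorem brmsg_int {S J : Type} [Fintype S] [Fintype J] [DecidableEq J] {Q : J → unitInterval → S}
    {p : J → S → ℝ} (h : ∀ j, BrFib (Q j) (p j)) (g : (J → S) → ℝ) :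
    ∫ η : J → unitInterval, g (fun j => Q j (η j)) = ∑ t : J → S, (∏ j, p j (t j)) * g t := by
  classical
  have e : ∀ η : J → unitInterval, g (fun j => Q j (η j)) = ∑ t : J → S,
      (∏ j, (Q j ⁻¹' {t j}).indicator (fun _ => (1 : ℝ)) (η j)) * g t := by
    intro η
    rw [sum_eq_single (fun j => Q j (η j))]
    · simp
    · intro t _ ht
      obtain ⟨j, hj⟩ := Function.ne_iff.1 ht
      rw [prod_eq_zero (mem_univ j), zero_mul]
      have hn : η j ∉ Q j ⁻¹' {t j} := fun h' => hj (Eq.symm h')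
      exact Set.indicator_of_notMem hn _
    · intro h'
      exact absurd (mem_univ _) h'
  simp only [e]
  rw [integral_finsetSum]
  · refine sum_congr rfl (fun t _ => ?_)
    rw [integral_mul_const, integral_fintype_prod_volume_eq_prod
      (fun j u => (Q j ⁻¹' {t j}).indicator (fun _ => (1 : ℝ)) u)]
    refine congrArg (· * g t) (prod_congr rfl fun j _ => ?_)
    rw [integral_indicator (h j _).1, ← (h j (t j)).2]
    simp
  · intro t _
    refine Integrable.mul_const ?_ _
    exact Integrable.fintype_prod (f := fun j u => (Q j ⁻¹' {t j}).indicator (fun _ => (1 : ℝ)) u)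
      (fun j => (integrable_const _).indicator (h j _).1)

theorem BrFib.nonneg {S : Type} {Q : unitInterval → S} {p : S → ℝ} (h : BrFib Q p) (t : S) :
    0 ≤ p t := by
  rw [← (h t).2]; exact measureReal_nonneg

theorem BrFib.sum {S : Type} [Fintype S] {Q : unitInterval → S} {p : S → ℝ} (h : BrFib Q p) :
    ∑ t, p t = 1 := by
  have := brmsg_int (J := Unit) (Q := fun _ => Q) (p := fun _ => p) (fun _ => h) (fun _ => 1)
  simp only [integral_const, probReal_univ, smul_eq_mul, mul_one, univ_unique, prod_singleton]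
    at this
  rw [this]
  exact ((Equiv.funUnique Unit S).sum_comp p).symm

theorem brmsg_exists {S : Type} [Fintype S] {p : S → ℝ} (h0 : ∀ t, 0 ≤ p t) (h1 : ∑ t, p t = 1) :
    ∃ Q : unitInterval → S, BrFib Q p := by
  have hne : Nonempty S := by
    by_contra h
    rw [not_nonempty_iff] at h
    simp at h1
  let _ : MeasurableSpace S := ⊤
  let P : PMF S := PMF.ofFintype (fun t => ENNReal.ofReal (p t)) (by
    rw [← ENNReal.ofReal_sum_of_nonneg (fun t _ => h0 t), h1, ENNReal.ofReal_one])
  obtain ⟨Q, hQ, hm⟩ := P.toMeasure.exists_measurable_map_eq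
  refine ⟨Q, fun t => ⟨hQ (MeasurableSet.singleton t), ?_⟩⟩
  rw [Measure.real, ← Measure.map_apply hQ (MeasurableSet.singleton t), hm,
    PMF.toMeasure_apply_singleton _ _ (MeasurableSet.singleton t)]
  exact ENNReal.toReal_ofReal (h0 t)

/-- The state reached at the leaves. -/
def brSt {S : Type} (Q0 : unitInterval → S) : (r : ℕ) → (ℕ → S → unitInterval → S) →
    (Fin (r + 1) → unitInterval) → S
  | 0, _, w => Q0 (w 0)
  | r + 1, Q, w => Q 0 (brSt Q0 r (fun d => Q (d + 1)) (Fin.init w)) (w (Fin.last (r + 1)))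

theorem brSt_meas {S : Type} [Fintype S] {Q0 : unitInterval → S}
    (h0 : ∀ t, MeasurableSet (Q0 ⁻¹' {t})) : ∀ (r : ℕ) (Q : ℕ → S → unitInterval → S),
    (∀ d s t, MeasurableSet (Q d s ⁻¹' {t})) → ∀ t, MeasurableSet (brSt Q0 r Q ⁻¹' {t})
  | 0, _, _, t => by
    have := (measurable_pi_apply (X := fun _ : Fin 1 => unitInterval) 0) (h0 t)
    exact this
  | r + 1, Q, hQ, t => by
    have e : brSt Q0 (r + 1) Q ⁻¹' {t} = ⋃ s, (Fin.init ⁻¹' (brSt Q0 r (fun d => Q (d + 1)) ⁻¹' {s}))
        ∩ ((fun w => w (Fin.last (r + 1))) ⁻¹' (Q 0 s ⁻¹' {t})) := by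
      ext w
      simp only [Set.mem_preimage, Set.mem_singleton_iff, Set.mem_iUnion, Set.mem_inter_iff, brSt]
      constructor
      · intro h
        exact ⟨_, rfl, h⟩
      · rintro ⟨s, rfl, h⟩
        exact h
    rw [e]
    refine MeasurableSet.iUnion (fun s => MeasurableSet.inter ?_ ?_)
    · have hi : Measurable (Fin.init : (Fin (r + 2) → unitInterval) → Fin (r + 1) → unitInterval) :=
        measurable_pi_lambda _ (fun p => measurable_pi_apply _)
      exact hi (brSt_meas h0 r _ (fun d => hQ (d + 1)) s)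
    · exact (measurable_pi_apply _) (hQ 0 s t)

theorem brmsg_shift {S : Type} [Fintype S] (κ : ℕ → S → S → ℝ) (μ : ℕ → ℝ) (L : S → ℝ) :
    ∀ r : ℕ, Rec κ μ L (r + 1) = Rec (fun e => κ (e + 1)) (fun e => μ (e + 1)) (Rec κ μ L 1) r
  | 0 => rfl
  | r + 1 => by
    funext s
    rw [Rec_succ, brmsg_shift κ μ L r]
    rfl

theorem brmsg_Y0 {S J : Type} [Fintype S] [Fintype J] [DecidableEq J] (Q0 : unitInterval → S) :
    ∀ (r : ℕ) (Q : ℕ → S → unitInterval → S) (κ : ℕ → S → S → ℝ) (μ : ℕ → ℝ) (mm : Fin r → ℝ)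
      (G : (J → S) → ℝ), (∀ d s, BrFib (Q d s) (κ d s)) → (∀ p : Fin r, mm p = μ (r - 1 - p.val)) →
      (∀ t, 0 < G t) → ∀ u : J → unitInterval,
      Y0 r mm (fun w : Fin (r + 1) → J → unitInterval => G (fun j => brSt Q0 r Q (fun p => w p j))) u =
        Real.exp (Rec (piK J κ) μ (fun t => Real.log (G t)) r (fun j => Q0 (u j)))
  | 0, Q, κ, μ, mm, G, _, _, hG, u => by
    simp only [Y0, brSt, Rec]
    rw [Real.exp_log (hG _)]
  | r + 1, Q, κ, μ, mm, G, hQ, hm, hG, u => by
    have hK : IsK (piK J κ 0) := isK_piK J ⟨fun s t => (hQ 0 s).nonneg t, fun s => (hQ 0 s).sum⟩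
    have hl : mm (Fin.last r) = μ 0 := by rw [hm]; simp
    have IH := brmsg_Y0 Q0 r (fun d => Q (d + 1)) (fun d => κ (d + 1)) (fun d => μ (d + 1))
      (Fin.init mm) (fun s => Real.exp (Rec (piK J κ) μ (fun t => Real.log (G t)) 1 s))
      (fun d => hQ (d + 1)) (fun p => by
        have := p.isLt
        rw [Fin.init, hm]
        refine congrArg μ ?_
        simp only [Fin.val_castSucc]
        omega) (fun t => Real.exp_pos _) u
    simp only [Real.log_exp] at IH
    rw [brmsg_shift]
    refine Eq.trans ?_ IH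
    simp only [Y0]
    refine congrArg (fun Y => Y0 r (Fin.init mm) Y u) (funext fun w => ?_)
    have e : ∀ η : J → unitInterval, (fun j => brSt Q0 (r + 1) Q
        (fun p => Fin.snoc (α := fun _ => J → unitInterval) w η p j)) =
        fun j => Q 0 (brSt Q0 r (fun d => Q (d + 1)) (fun p => w p j)) (η j) := by
      intro η
      funext j
      have e1 : Fin.init (fun p => Fin.snoc (α := fun _ => J → unitInterval) w η p j) =
          fun p => w p j := by
        funext p
        simp [Fin.init]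
      simp only [brSt, e1, Fin.snoc_last]
    simp only [e]
    rw [brmsg_int (fun j => hQ 0 _) (fun t => G t ^ mm (Fin.last r)), hl, Rec_succ]
    have e2 : (∑ t : J → S, (∏ j, κ 0 (brSt Q0 r (fun d => Q (d + 1)) (fun p => w p j)) (t j)) *
        G t ^ μ 0) = Ex (piK J κ 0) (fun t => Real.exp (μ 0 * Rec (piK J κ) μ
          (fun t => Real.log (G t)) 0 t)) (fun j => brSt Q0 r (fun d => Q (d + 1)) (fun p => w p j)) := by
      refine sum_congr rfl (fun t _ => ?_)
      rw [Real.rpow_def_of_pos (hG t), mul_comm (Real.log _)]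
      rfl
    rw [e2, Real.rpow_def_of_pos (hK.Ex_pos (fun t => Real.exp_pos _) _), one_div, mul_comm]

theorem brmsg_Tf {S : Type} [Fintype S] (m : Msg S) (hx : ∀ s, |m.xv s| ≤ 1)
    {Q0 : unitInterval → S} (h0 : BrFib Q0 m.π) {Q : ℕ → S → unitInterval → S}
    (hQ : ∀ d s, BrFib (Q d s) (m.κ d s)) {mm : Fin m.r → ℝ}
    (hm : ∀ p : Fin m.r, mm p = m.μ (m.r - 1 - p.val)) (J : Type) [Fintype J] [DecidableEq J]
    (F : (J → ℝ) → ℝ) (hF : ∀ y, Cube y → 0 < F y) :
    Tf m.r mm (fun w => m.xv (brSt Q0 m.r Q w)) F = Tfin m F := by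
  unfold Tf Tfin
  have := brmsg_Y0 (J := J) Q0 m.r Q m.κ m.μ mm (fun t => F (fun j => m.xv (t j))) hQ hm
    (fun t => hF _ (fun j => hx _))
  simp only [this, Real.log_exp]
  exact brmsg_int (fun _ => h0) _

theorem exists_x_of_msg {S : Type} [Fintype S] {m : Msg S} (hm : m.Good) :
    ∃ (mm : Fin m.r → ℝ) (x : (Fin (m.r + 1) → unitInterval) → ℝ), Adm m.r mm x ∧
      ∀ (J : Type) [Fintype J] [DecidableEq J] (F : (J → ℝ) → ℝ), (∀ y, Cube y → 0 < F y) →
        Tf m.r mm x F = Tfin m F := by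
  obtain ⟨hK, hπ0, hπ1, hx, hμ, hanti⟩ := hm
  obtain ⟨Q0, h0⟩ := brmsg_exists hπ0 hπ1
  choose Q hQ using fun d s => brmsg_exists ((hK d).1 s) ((hK d).2 s)
  have hlt : ∀ k a, a + k + 1 < m.r → m.μ (a + k + 1) < m.μ a := by
    intro k
    induction k with
    | zero => exact fun a h => hanti a h
    | succ k ih => exact fun a h => (hanti (a + k + 1) h).trans (ih a (by omega))
  refine ⟨fun p => m.μ (m.r - 1 - p.val), fun w => m.xv (brSt Q0 m.r Q w),
    ⟨fun a b hab => ?_, fun p => hμ _ (by have := p.isLt; omega), ?_, fun w => hx _⟩,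
    fun J _ _ F hF => brmsg_Tf m hx h0 hQ (fun _ => rfl) J F hF⟩
  · have h1 := b.isLt
    have h2 : a.val < b.val := hab
    have := hlt (b.val - a.val - 1) (m.r - 1 - b.val) (by omega)
    have e : m.r - 1 - b.val + (b.val - a.val - 1) + 1 = m.r - 1 - a.val := by omega
    rwa [e] at this
  · let _ : MeasurableSpace S := ⊤
    exact measurable_from_top.comp (measurable_to_countable'
      (brSt_meas (fun t => (h0 t).1) m.r Q (fun d s t => (hQ d s t).1)))

theorem measurable_cell (n : ℕ) : Measurable (cell n) := by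
  refine measurable_to_countable' (fun c => ?_)
  have hm : Measurable (fun u : unitInterval => min ⌊((n : ℝ) + 1) * (u : ℝ)⌋₊ n) :=
    (Nat.measurable_floor.comp (measurable_subtype_coe.const_mul _)).min measurable_const
  have e : cell n ⁻¹' {c} = (fun u : unitInterval => min ⌊((n : ℝ) + 1) * (u : ℝ)⌋₊ n) ⁻¹' {c.val} := by
    ext u
    simp only [Set.mem_preimage, Set.mem_singleton_iff, cell, Fin.ext_iff]
  rw [e]
  exact hm (MeasurableSet.singleton _)

/-- Grid transitions. -/
noncomputable def brQ (R n a d : ℕ) (s : Fin (R + 1) → Fin (n + 1)) (u : unitInterval) :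
    Fin (R + 1) → Fin (n + 1) := fun p => if p.val + d = a then cell n u else s p

theorem brQ_meas (R n a d : ℕ) (s t : Fin (R + 1) → Fin (n + 1)) :
    MeasurableSet (brQ R n a d s ⁻¹' {t}) := by
  have : Measurable (fun c : Fin (n + 1) => fun p : Fin (R + 1) => if p.val + d = a then c else s p) :=
    measurable_of_finite _
  exact (this.comp (measurable_cell n)) (MeasurableSet.singleton t)

theorem brQ_st (R n : ℕ) : ∀ (k : ℕ) (w : Fin (k + 1) → unitInterval),
    brSt (brQ R n 0 0 (fun _ => 0)) k (brQ R n k) w =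
      fun p => if h : p.val < k + 1 then cell n (w ⟨p.val, h⟩) else 0
  | 0, w => by
    funext p
    simp only [brSt, brQ, add_zero, zero_add, Nat.lt_one_iff]
    split_ifs with h
    · refine congrArg (fun i => cell n (w i)) (Fin.ext ?_)
      simp [h]
    · rfl
  | k + 1, w => by
    have e : (fun d => brQ R n (k + 1) (d + 1)) = brQ R n k := by
      funext d s u p
      simp only [brQ, ← add_assoc, add_left_inj]
    funext p
    simp only [brSt, e, brQ_st R n k, brQ, add_zero]
    by_cases h : p.val = k + 1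
    · rw [if_pos h, dif_pos (by omega)]
      refine congrArg (fun i => cell n (w i)) (Fin.ext ?_)
      simp [h]
    · rw [if_neg h]
      by_cases h' : p.val < k + 1
      · rw [dif_pos h', dif_pos (by omega)]
        rfl
      · rw [dif_neg h', dif_neg (by omega)]

theorem exists_msg_of_grid {r n : ℕ} {mm : Fin r → ℝ} (h1 : StrictMono mm)
    (h2 : ∀ p, 0 < mm p ∧ mm p < 1) (xg : (Fin (r + 1) → Fin (n + 1)) → ℝ)
    (hx : ∀ s, |xg s| ≤ 1) :
    ∃ m : Msg (Fin (r + 1) → Fin (n + 1)), m.Good ∧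
      ∀ (J : Type) [Fintype J] [DecidableEq J] (F : (J → ℝ) → ℝ), (∀ y, Cube y → 0 < F y) →
        Tf r mm (fun w => xg (fun p => cell n (w p))) F = Tfin m F := by
  let m : Msg (Fin (r + 1) → Fin (n + 1)) :=
    { r := r
      μ := fun e => if h : e < r then mm ⟨r - 1 - e, by omega⟩ else 0
      κ := fun d s t => volume.real (brQ r n r d s ⁻¹' {t})
      π := fun t => volume.real (brQ r n 0 0 (fun _ => 0) ⁻¹' {t})
      xv := xg }
  have h0 : BrFib (brQ r n 0 0 (fun _ => 0)) m.π := fun t => ⟨brQ_meas _ _ _ _ _ _, rfl⟩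
  have hQ : ∀ d s, BrFib (brQ r n r d s) (m.κ d s) := fun d s t => ⟨brQ_meas _ _ _ _ _ _, rfl⟩
  refine ⟨m, ⟨fun d => ⟨fun s t => (hQ d s).nonneg t, fun s => (hQ d s).sum⟩, h0.nonneg, h0.sum, hx,
    fun e he => ?_, fun e he => ?_⟩, fun J _ _ F hF => ?_⟩
  · have he' : e < r := he
    simp only [m, dif_pos he']
    exact h2 _
  · have he' : e + 1 < r := he
    have he'' : e < r := by omega
    simp only [m, dif_pos he', dif_pos he'']
    exact h1 (by rw [Fin.mk_lt_mk]; omega)
  · rw [← brmsg_Tf m hx h0 hQ (mm := mm) (fun p => by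
      have hp : p.val < r := p.isLt
      have hp' : r - 1 - p.val < r := by omega
      simp only [m, dif_pos hp']
      refine congrArg mm (Fin.ext ?_)
      simp only
      omega) J F hF]
    refine congrArg (fun x => Tf r mm x F) (funext fun w => congrArg xg ?_)
    have := brQ_st r n r w
    refine Eq.trans ?_ this.symm
    funext p
    rw [dif_pos p.isLt]

end Vale.Agent.P168
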