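import Vale.Agent.P168MP.Law

/-! Shared marks versus independent copies of the cascade. -/

namespace Vale.Agent.P168

open Finset

theorem comp_Fn_avg {ι α : Type} [Fintype α] (Φ : Fn ι) (F : α → (ι → ℝ) → ℝ) :
    Φ (fun g => avg (fun i => F i g)) = avg (fun i => Φ (F i)) := by
  have h : (fun g => avg (fun i => F i g)) = ((Fintype.card α : ℝ)⁻¹) • ∑ i, F i := by
    funext g
    simp only [avg, Pi.smul_apply, Finset.sum_apply, smul_eq_mul]
    rw [div_eq_inv_mul]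
  rw [h, map_smul, map_sum]
  simp only [avg, smul_eq_mul]
  rw [div_eq_inv_mul]

theorem comp_expand {J : Type} [Fintype J] [DecidableEq J] (y : (J → Bool) → ℝ) (t : J → Bool) :
    ∑ A : J → Bool, y A * ∏ j, (if t j = A j then (1 : ℝ) else 0) = y t := by
  rw [Finset.sum_eq_single t]
  · simp
  · intro A _ hA
    obtain ⟨j, hj⟩ := Function.ne_iff.1 hA
    rw [Finset.prod_eq_zero (mem_univ j) (if_neg (Ne.symm hj)), mul_zero]
  · intro h; exact absurd (mem_univ t) h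

section Tree

variable {S J : Type} [Fintype S] [Fintype J] [DecidableEq J] {N n : ℕ}

theorem comp_one (κ : ℕ → S → S → ℝ) (hκ : ∀ d, IsK (κ d)) (σ : S → Fin N → Bool) (D : ℕ)
    (τ : Tr (J → Bool) n D) (s : S) :
    |avg (fun i : J → Fin N => ev κ (fun A t => ∏ j, ind σ (A j) t (i j)) D τ s) -
      avg (fun i : J → Fin N =>
        ev (piK J κ) (fun A t => ∏ j, ind σ (A j) (t j) (i j)) D τ (fun _ => s))| ≤
      ∑ j, Real.sqrt (Vs (law κ (ind σ) D (tmap (fun A => A j) D τ) s)) := by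
  set γ : (J → Bool) → S → J × Fin N → ℝ := fun A t p => ind σ (A p.1) t p.2 with hγ
  have hcube : ∀ A t, Cube (γ A t) := fun A t p => cube_ind σ (A p.1) t p.2
  have hP := isP_law hκ hcube D τ s
  set Φ := law κ γ D τ s with hΦ
  set R : J → (J × Fin N → ℝ) → ℝ := fun j g => avg (fun i => g (j, i)) with hR
  have h1 : avg (fun i : J → Fin N => ev κ (fun A t => ∏ j, ind σ (A j) t (i j)) D τ s) =
      Φ (fun g => ∏ j, R j g) := by
    have e1 : ∀ i : J → Fin N, ev κ (fun A t => ∏ j, ind σ (A j) t (i j)) D τ s =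
        Φ (fun g => ∏ j, g (j, i j)) := by
      intro i
      rw [hΦ, law_char κ γ (fun g => ∏ j, g (j, i j)) (by simp)
        (fun g g' => by simp [Finset.prod_mul_distrib])]
    simp only [e1]
    rw [← comp_Fn_avg]
    have e2 : (fun g : J × Fin N → ℝ => avg (fun i : J → Fin N => ∏ j, g (j, i j))) =
        fun g => ∏ j, R j g := by
      funext g
      exact avg_pi_prod (fun j i => g (j, i))
    rw [e2]
  have h2 : avg (fun i : J → Fin N =>
        ev (piK J κ) (fun A t => ∏ j, ind σ (A j) (t j) (i j)) D τ (fun _ => s)) =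
      ∏ j, Φ (R j) := by
    have e1 : ∀ i : J → Fin N,
        ev (piK J κ) (fun A t => ∏ j, ind σ (A j) (t j) (i j)) D τ (fun _ => s) =
          ∏ j, Φ (fun g => g (j, i j)) := by
      intro i
      rw [ev_piK J κ (fun j (A : J → Bool) t => ind σ (A j) t (i j))]
      refine Finset.prod_congr rfl fun j _ => ?_
      rw [hΦ, law_char κ γ (fun g => g (j, i j)) (by simp) (fun g g' => by simp)]
    simp only [e1]
    rw [avg_pi_prod (fun j i => Φ (fun g => g (j, i)))]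
    refine Finset.prod_congr rfl fun j _ => ?_
    rw [hR, comp_Fn_avg]
  rw [h1, h2]
  refine (hP.prod_conc R fun j g hg => abs_avg_le zero_le_one fun i => hg _).trans ?_
  refine Finset.sum_le_sum fun j _ => Real.sqrt_le_sqrt ?_
  have hPj := isP_law hκ (cube_ind σ) D (tmap (fun A : J → Bool => A j) D τ) s
  have h3 := hPj.var_le_Vs (y := fun _ => 1) (fun _ => by simp)
  refine le_trans (le_of_eq ?_) h3
  have e : ∀ F : (Fin N → ℝ) → ℝ, Φ (fun g => F (fun i => g (j, i))) =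
      law κ (ind σ) D (tmap (fun A : J → Bool => A j) D τ) s F := by
    intro F
    rw [hΦ, law_comp κ γ (fun i => (j, i)), law_tmap]
  have e1 : lin (fun _ : Fin N => (1 : ℝ)) = fun g => avg g := by
    funext g; simp [lin]
  unfold Var
  rw [← e, ← e, e1]

open Classical in
theorem comp_tree (κ : ℕ → S → S → ℝ) (hκ : ∀ d, IsK (κ d)) (σ : S → Fin N → Bool) (D : ℕ)
    {y : (J → Bool) → ℝ} (hy : ∀ A, |y A| ≤ 1) (τ : Tr Unit n D) (s : S) :
    |avg (fun i : J → Fin N => ev κ (fun _ t => y (fun j => σ t (i j))) D τ s) -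
      avg (fun i : J → Fin N =>
        ev (piK J κ) (fun _ t => y (fun j => σ (t j) (i j))) D τ (fun _ => s))| ≤
      ∑ τ' ∈ univ.filter (fun τ' : Tr (J → Bool) n D => tmap (fun _ => ()) D τ' = τ),
        ∑ j, Real.sqrt (Vs (law κ (ind σ) D (tmap (fun A => A j) D τ') s)) := by
  have e1 : ∀ i : J → Fin N, ev κ (fun _ t => y (fun j => σ t (i j))) D τ s =
      ∑ τ' ∈ univ.filter (fun τ' : Tr (J → Bool) n D => tmap (fun _ => ()) D τ' = τ),
        cw y D τ' * ev κ (fun A t => ∏ j, ind σ (A j) t (i j)) D τ' s := by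
    intro i
    rw [← ev_fiber κ (fun _ : J → Bool => ())]
    refine congrArg (fun F => ev κ F D τ s) ?_
    funext l' t
    refine (comp_expand y _).symm.trans (Finset.sum_congr ?_ fun _ _ => rfl)
    ext A; simp
  have e2 : ∀ i : J → Fin N,
      ev (piK J κ) (fun _ t => y (fun j => σ (t j) (i j))) D τ (fun _ => s) =
      ∑ τ' ∈ univ.filter (fun τ' : Tr (J → Bool) n D => tmap (fun _ => ()) D τ' = τ),
        cw y D τ' * ev (piK J κ) (fun A t => ∏ j, ind σ (A j) (t j) (i j)) D τ' (fun _ => s) := by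
    intro i
    rw [← ev_fiber (piK J κ) (fun _ : J → Bool => ())]
    refine congrArg (fun F => ev (piK J κ) F D τ (fun _ => s)) ?_
    funext l' t
    refine (comp_expand y _).symm.trans (Finset.sum_congr ?_ fun _ _ => rfl)
    ext A; simp
  simp only [e1, e2]
  rw [avg_sum, avg_sum, ← Finset.sum_sub_distrib]
  refine (Finset.abs_sum_le_sum_abs _ _).trans (Finset.sum_le_sum fun τ' _ => ?_)
  rw [avg_mul_left, avg_mul_left, ← mul_sub, abs_mul]
  have h1 := abs_cw_le hy D τ'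
  rw [one_pow] at h1
  calc _ ≤ 1 * _ := mul_le_mul h1 (comp_one κ hκ σ D τ' s) (abs_nonneg _) zero_le_one
    _ = _ := one_mul _

open Classical in
theorem comp_fiber_sum {Λ Λ' : Type} [Fintype Λ] [Fintype Λ'] (φ : Λ → Λ') (D : ℕ)
    (F : Tr Λ n D → ℝ) :
    ∑ τ : Tr Λ' n D, ∑ τ' ∈ univ.filter (fun τ' : Tr Λ n D => tmap φ D τ' = τ), F τ' =
      ∑ τ', F τ' :=
  Finset.sum_fiberwise_of_maps_to (fun _ _ => mem_univ _) F

open Classical in
theorem comp_small (r : ℕ) {d₀ n₀ : ℕ} (hJ : Fintype.card J ≤ d₀) (V : Tr Bool n (2 * r) → ℝ)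
    (hV : ∀ τ, 0 ≤ V τ) :
    ∑ τ : Tr Unit n (2 * r), (if size _ τ ≤ n₀ then wt (mu r) _ τ else 0) *
      ∑ τ' ∈ univ.filter (fun τ' : Tr (J → Bool) n (2 * r) => tmap (fun _ => ()) _ τ' = τ),
        ∑ j, V (tmap (fun A => A j) _ τ') ≤
      d₀ * (8 * 2 ^ d₀) ^ n₀ * ∑ τ, wt (mu r) _ τ * (1 / 8) ^ size _ τ * V τ := by
  have e1 : ∑ τ : Tr Unit n (2 * r), (if size _ τ ≤ n₀ then wt (mu r) _ τ else 0) *
      ∑ τ' ∈ univ.filter (fun τ' : Tr (J → Bool) n (2 * r) => tmap (fun _ => ()) _ τ' = τ),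
        ∑ j, V (tmap (fun A => A j) _ τ') =
      ∑ j : J, ∑ τ' : Tr (J → Bool) n (2 * r),
        (if size _ τ' ≤ n₀ then wt (mu r) _ τ' else 0) * V (tmap (fun A => A j) _ τ') := by
    rw [Finset.sum_comm, ← comp_fiber_sum (fun _ : J → Bool => ())]
    refine Finset.sum_congr rfl fun τ _ => ?_
    rw [Finset.mul_sum]
    refine Finset.sum_congr rfl fun τ' hτ' => ?_
    rw [← (mem_filter.1 hτ').2, size_tmap, wt_tmap, Finset.mul_sum]
  have hS : 0 ≤ ∑ τ, wt (mu r) _ τ * (1 / 8) ^ size _ τ * V τ :=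
    Finset.sum_nonneg fun τ _ => mul_nonneg (mul_nonneg (wt_mu_nonneg _ _ _) (by positivity)) (hV τ)
  have e2 : ∀ j : J, ∑ τ' : Tr (J → Bool) n (2 * r),
        (if size _ τ' ≤ n₀ then wt (mu r) _ τ' else 0) * V (tmap (fun A => A j) _ τ') ≤
      (8 * 2 ^ d₀) ^ n₀ * ∑ τ, wt (mu r) _ τ * (1 / 8) ^ size _ τ * V τ := by
    intro j
    rw [← comp_fiber_sum (fun A : J → Bool => A j), Finset.mul_sum]
    refine Finset.sum_le_sum fun τ _ => ?_
    have e3 : ∑ τ' ∈ univ.filter (fun τ' : Tr (J → Bool) n (2 * r) =>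
          tmap (fun A => A j) _ τ' = τ),
        (if size _ τ' ≤ n₀ then wt (mu r) _ τ' else 0) * V (tmap (fun A => A j) _ τ') =
        ((univ.filter (fun τ' : Tr (J → Bool) n (2 * r) =>
          tmap (fun A => A j) _ τ' = τ)).card : ℝ) *
          ((if size _ τ ≤ n₀ then wt (mu r) _ τ else 0) * V τ) := by
      rw [← nsmul_eq_mul, ← Finset.sum_const]
      refine Finset.sum_congr rfl fun τ' hτ' => ?_
      rw [← (mem_filter.1 hτ').2, size_tmap, wt_tmap]
    rw [e3]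
    have hw := wt_mu_nonneg r _ τ
    have hv := hV τ
    split_ifs with hs
    · have h1 := card_fiber_le (fun A : J → Bool => A j) _ τ
      have h2 : (Fintype.card (J → Bool) : ℝ) ≤ 2 ^ d₀ := by
        rw [Fintype.card_fun, Fintype.card_bool]
        push_cast
        exact pow_le_pow_right₀ (by norm_num) hJ
      have h3 : (1 : ℝ) ≤ 2 ^ d₀ := one_le_pow₀ (by norm_num)
      have h4 : (Fintype.card (J → Bool) : ℝ) ^ size _ τ ≤ (2 ^ d₀) ^ n₀ :=
        (pow_le_pow_left₀ (by positivity) h2 _).trans (pow_le_pow_right₀ h3 hs)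
      have h5 : (1 : ℝ) ≤ 8 ^ n₀ * (1 / 8) ^ size _ τ := by
        have h6 : ((1 : ℝ) / 8) ^ n₀ ≤ (1 / 8) ^ size _ τ :=
          pow_le_pow_of_le_one (by norm_num) (by norm_num) hs
        calc (1 : ℝ) = 8 ^ n₀ * (1 / 8) ^ n₀ := by rw [← mul_pow]; norm_num
          _ ≤ _ := by gcongr
      calc _ ≤ (2 ^ d₀) ^ n₀ * (wt (mu r) _ τ * V τ) :=
            mul_le_mul_of_nonneg_right (h1.trans h4) (mul_nonneg hw hv)
        _ = (2 ^ d₀) ^ n₀ * (wt (mu r) _ τ * V τ) * 1 := (mul_one _).symm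
        _ ≤ (2 ^ d₀) ^ n₀ * (wt (mu r) _ τ * V τ) * (8 ^ n₀ * (1 / 8) ^ size _ τ) := by
            gcongr
        _ = _ := by rw [mul_pow]; ring
    · rw [zero_mul, mul_zero]; positivity
  rw [e1]
  refine (Finset.sum_le_sum fun j _ => e2 j).trans ?_
  rw [Finset.sum_const, nsmul_eq_mul, mul_assoc]
  refine mul_le_mul_of_nonneg_right ?_ (by positivity)
  exact_mod_cast hJ

theorem comp_sqrt_le {v η : ℝ} (hv : 0 ≤ v) (hη : 0 < η) : Real.sqrt v ≤ η + v / η := by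
  have h1 := Real.sq_sqrt hv
  have h2 := Real.sqrt_nonneg v
  rw [← sub_nonneg]
  have : η + v / η - Real.sqrt v = (η ^ 2 - η * Real.sqrt v + Real.sqrt v ^ 2) / η := by
    rw [h1]; field_simp; ring
  rw [this]
  exact div_nonneg (by nlinarith [sq_nonneg (η - Real.sqrt v)]) hη.le

open Classical in
/-- Comparison of the two tree sums. -/
theorem comp_sum (r : ℕ) {d₀ : ℕ} (n₀ : ℕ) (hJ : Fintype.card J ≤ d₀) (κ : ℕ → S → S → ℝ)
    (hκ : ∀ d, IsK (κ d)) (σ : S → Fin N → Bool) (s₀ : S) {y : (J → Bool) → ℝ} {ρ ρ' η : ℝ}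
    (hρ : 0 ≤ ρ) (hρρ : ρ < ρ') (hρ' : ρ' < 1) (hη : 0 < η) (hy : ∀ A, |y A| ≤ ρ) :
    Ex (κ (2 * r)) (fun s => |∑ τ : Tr Unit n (2 * r), wt (mu r) _ τ *
      (avg (fun i : J → Fin N => ev κ (fun _ t => y (fun j => σ t (i j))) _ τ s) -
        avg (fun i : J → Fin N =>
          ev (piK J κ) (fun _ t => y (fun j => σ (t j) (i j))) _ τ (fun _ => s)))|) s₀ ≤
      2 * (ρ / ρ') ^ n₀ * (ρ' / (1 - ρ')) +
        d₀ * (8 * 2 ^ d₀) ^ n₀ * (η + totVar r n κ σ s₀ / η) := by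
  have hρ'0 : 0 < ρ' := hρ.trans_lt hρρ
  set W : Tr Bool n (2 * r) → S → ℝ := fun τ s => Vs (law κ (ind σ) (2 * r) τ s) with hW
  have hW0 : ∀ τ s, 0 ≤ W τ s := fun τ s => (isP_law hκ (cube_ind σ) _ τ s).Vs_nonneg
  have hbig : ∑ τ : Tr Unit n (2 * r), wt (mu r) _ τ * ρ' ^ size _ τ ≤ ρ' / (1 - ρ') := by
    have := sum_wt_le (Λ := Unit) (n := n) (2 * r) (mu_zero r) (fun e _ => mu_pos r e)
      (fun e _ => mu_succ_le r e) hρ'0.le (by simpa using hρ')
    simpa using this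
  have hsm : ∑ τ : Tr Bool n (2 * r), wt (mu r) _ τ * (1 / 8) ^ size _ τ ≤ 1 := by
    have := sum_wt_le (Λ := Bool) (n := n) (2 * r) (mu_zero r) (fun e _ => mu_pos r e)
      (fun e _ => mu_succ_le r e) (x := 1 / 8) (by norm_num) (by simp; norm_num)
    refine this.trans ?_
    simp; norm_num
  have hpt : ∀ s, |∑ τ : Tr Unit n (2 * r), wt (mu r) _ τ *
      (avg (fun i : J → Fin N => ev κ (fun _ t => y (fun j => σ t (i j))) _ τ s) -
        avg (fun i : J → Fin N =>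
          ev (piK J κ) (fun _ t => y (fun j => σ (t j) (i j))) _ τ (fun _ => s)))| ≤
      (2 * (ρ / ρ') ^ n₀ * (ρ' / (1 - ρ')) + d₀ * (8 * 2 ^ d₀) ^ n₀ * η) +
        (d₀ * (8 * 2 ^ d₀) ^ n₀ / η) * ∑ τ, wt (mu r) _ τ * (1 / 8) ^ size _ τ * W τ s := by
    intro s
    have h1 := comp_small (J := J) (n := n) (n₀ := n₀) r hJ (fun τ => Real.sqrt (W τ s))
      (fun τ => Real.sqrt_nonneg _)
    have h2 : ∑ τ : Tr Bool n (2 * r), wt (mu r) _ τ * (1 / 8) ^ size _ τ * Real.sqrt (W τ s) ≤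
        η + (∑ τ, wt (mu r) _ τ * (1 / 8) ^ size _ τ * W τ s) / η := by
      calc _ ≤ ∑ τ : Tr Bool n (2 * r), wt (mu r) _ τ * (1 / 8) ^ size _ τ * (η + W τ s / η) :=
            Finset.sum_le_sum fun τ _ => mul_le_mul_of_nonneg_left (comp_sqrt_le (hW0 τ s) hη)
              (mul_nonneg (wt_mu_nonneg _ _ _) (by positivity))
        _ = (∑ τ : Tr Bool n (2 * r), wt (mu r) _ τ * (1 / 8) ^ size _ τ) * η +
            (∑ τ, wt (mu r) _ τ * (1 / 8) ^ size _ τ * W τ s) / η := by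
            rw [Finset.sum_mul, Finset.sum_div, ← Finset.sum_add_distrib]
            refine Finset.sum_congr rfl fun τ _ => ?_
            ring
        _ ≤ _ := by nlinarith
    calc _ ≤ ∑ τ : Tr Unit n (2 * r), (2 * (ρ / ρ') ^ n₀ * (wt (mu r) _ τ * ρ' ^ size _ τ) +
          (if size _ τ ≤ n₀ then wt (mu r) _ τ else 0) *
          ∑ τ' ∈ univ.filter (fun τ' : Tr (J → Bool) n (2 * r) => tmap (fun _ => ()) _ τ' = τ),
            ∑ j, Real.sqrt (W (tmap (fun A => A j) _ τ') s)) := by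
          refine (Finset.abs_sum_le_sum_abs _ _).trans (Finset.sum_le_sum fun τ _ => ?_)
          have hw := wt_mu_nonneg r _ τ
          rw [abs_mul, abs_of_nonneg hw]
          split_ifs with hs
          · have h3 := comp_tree κ hκ σ (2 * r)
              (fun A => (hy A).trans (hρρ.trans hρ').le) τ s
            refine le_trans (mul_le_mul_of_nonneg_left h3 hw) (le_add_of_nonneg_left ?_)
            positivity
          · rw [zero_mul, add_zero]
            have h3 : |avg (fun i : J → Fin N =>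
                ev κ (fun _ t => y (fun j => σ t (i j))) _ τ s)| ≤ ρ ^ size _ τ :=
              abs_avg_le (by positivity) fun i => abs_ev_le hκ (fun _ t => hy _) _ τ s
            have h4 : |avg (fun i : J → Fin N => ev (piK J κ)
                (fun _ t => y (fun j => σ (t j) (i j))) _ τ (fun _ => s))| ≤ ρ ^ size _ τ :=
              abs_avg_le (by positivity) fun i =>
                abs_ev_le (fun d => isK_piK J (hκ d)) (fun _ t => hy _) _ τ _
            have h5 : ρ ^ size _ τ ≤ (ρ / ρ') ^ n₀ * ρ' ^ size _ τ := by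
              have h6 : (ρ / ρ') ^ size _ τ ≤ (ρ / ρ') ^ n₀ :=
                pow_le_pow_of_le_one (by positivity) ((div_le_one hρ'0).2 hρρ.le)
                  (not_le.1 hs).le
              calc ρ ^ size _ τ = (ρ / ρ') ^ size _ τ * ρ' ^ size _ τ := by
                    rw [← mul_pow, div_mul_cancel₀ _ hρ'0.ne']
                _ ≤ _ := by gcongr
            have h7 := (abs_sub _ _).trans (add_le_add h3 h4)
            calc _ ≤ wt (mu r) _ τ * (2 * ((ρ / ρ') ^ n₀ * ρ' ^ size _ τ)) :=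
                  mul_le_mul_of_nonneg_left (by linarith) hw
              _ = _ := by ring
      _ ≤ 2 * (ρ / ρ') ^ n₀ * (ρ' / (1 - ρ')) + d₀ * (8 * 2 ^ d₀) ^ n₀ *
          (η + (∑ τ, wt (mu r) _ τ * (1 / 8) ^ size _ τ * W τ s) / η) := by
          rw [Finset.sum_add_distrib, ← Finset.mul_sum]
          refine add_le_add (mul_le_mul_of_nonneg_left hbig (by positivity)) (h1.trans ?_)
          exact mul_le_mul_of_nonneg_left h2 (by positivity)
      _ = _ := by ring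
  refine ((hκ _).Ex_mono hpt s₀).trans (le_of_eq ?_)
  rw [Ex_add, (hκ _).Ex_const, Ex_mul_left, Ex_sum]
  simp only [Ex_mul_left]
  unfold totVar
  ring

end Tree

theorem comp_Nt {S : Type} [Fintype S] {κ : ℕ → S → S → ℝ} (hκ : ∀ d, IsK (κ d)) (r n : ℕ)
    {y : S → ℝ} {ρ B : ℝ} (hρ : ρ < 1) (hy : ∀ s, |y s| ≤ ρ)
    (hB : ∀ s, |Real.log (1 - y s)| ≤ B) (s : S) :
    |Rec κ (mu r) (fun t => Real.log (1 - y t)) (2 * r) s +
        ∑ τ : Tr Unit n (2 * r), wt (mu r) _ τ * ev κ (fun _ => y) _ τ s| ≤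
      1 / ((r : ℝ) + 1) * (B ^ 2 * Real.exp B) +
        (2 * r : ℕ) * ρ ^ (n + 1) / (1 / ((r : ℝ) + 1) * (1 - ρ) ^ (2 * r)) := by
  have h1 := Nt_expansion (n := n) hκ (2 * r) (mu_zero r) (by positivity)
    (fun e _ => mu_ge r e) (fun e _ => mu_succ_le r e) hρ hy s
  have h2 := abs_Nt_add_le (mu_pos r (2 * r)) (mu_le_one r (2 * r))
    (abs_Rec_le hκ (2 * r) (fun e _ => mu_pos r e) hB s)
  have h3 : Nt κ (mu r) (fun t => Real.log (1 - y t)) (2 * r) s =
      (1 - Real.exp (mu r (2 * r) * Rec κ (mu r) (fun t => Real.log (1 - y t)) (2 * r) s)) /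
        mu r (2 * r) := rfl
  rw [← h3] at h2
  rw [mu_top] at h2
  rw [abs_le] at h1 h2 ⊢
  constructor <;> linarith [h1.1, h1.2, h2.1, h2.2]

theorem comp_shared_indep {ε : ℝ} (hε : 0 < ε) (B : ℝ) (d₀ : ℕ) :
    ∃ r n : ℕ, 1 ≤ r ∧ 1 ≤ n ∧
      ∀ (N : ℕ) (S : Type) [Fintype S] (κ : ℕ → S → S → ℝ) (σ : S → Fin N → Bool) (s₀ : S),
        1 ≤ N → (∀ d, IsK (κ d)) → totVar r n κ σ s₀ ≤ 12 / ((r : ℝ) + 1) →
        ∀ (J : Type) [Fintype J] [DecidableEq J], Fintype.card J ≤ d₀ →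
        ∀ Y : (J → Bool) → ℝ, (∀ s, 0 < Y s ∧ |Real.log (Y s)| ≤ B) →
          |avg (fun i : J → Fin N =>
              Rec κ (mu r) (fun s => Real.log (Y (fun j => σ s (i j)))) (2 * r + 1) s₀) -
            Ex (κ (2 * r)) (fun s => avg (fun i : J → Fin N =>
              Rec (piK J κ) (mu r) (fun t => Real.log (Y (fun j => σ (t j) (i j)))) (2 * r)
                (fun _ => s))) s₀| ≤ ε := by
  obtain ⟨A, hA0, hBA⟩ : ∃ A : ℝ, 0 ≤ A ∧ B ≤ A := ⟨|B|, abs_nonneg _, le_abs_self _⟩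
  obtain ⟨ρ, hρdef⟩ : ∃ ρ : ℝ, ρ = 1 - Real.exp (-(2 * A)) := ⟨_, rfl⟩
  have hρ0 : 0 ≤ ρ := by
    have : Real.exp (-(2 * A)) ≤ 1 := Real.exp_le_one_iff.2 (by linarith)
    linarith
  have hρ1 : ρ < 1 := by have := Real.exp_pos (-(2 * A)); linarith
  obtain ⟨ρ', hρρ, hρ'⟩ : ∃ ρ' : ℝ, ρ < ρ' ∧ ρ' < 1 := ⟨(1 + ρ) / 2, by linarith, by linarith⟩
  have hρ'0 : 0 < ρ' := hρ0.trans_lt hρρ
  have hq : 0 < ρ' / (1 - ρ') := div_pos hρ'0 (by linarith)
  obtain ⟨n₀, hn₀⟩ := exists_pow_lt_of_lt_one (x := ε / 5 / (2 * (ρ' / (1 - ρ'))))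
    (by positivity) ((div_lt_one hρ'0).2 hρρ)
  have e1 : 2 * (ρ / ρ') ^ n₀ * (ρ' / (1 - ρ')) ≤ ε / 5 := by
    rw [lt_div_iff₀ (by positivity)] at hn₀
    linarith
  obtain ⟨C, hC0, hCdef⟩ : ∃ C : ℝ, 0 ≤ C ∧ C = d₀ * (8 * 2 ^ d₀) ^ n₀ :=
    ⟨_, by positivity, rfl⟩
  obtain ⟨η, hη, e2⟩ : ∃ η : ℝ, 0 < η ∧ C * η ≤ ε / 5 := by
    refine ⟨ε / 5 / (C + 1), by positivity, ?_⟩
    rw [← mul_div_assoc, div_le_iff₀ (by positivity)]
    nlinarith
  obtain ⟨E, hE0, hE⟩ : ∃ E : ℝ, 0 ≤ E ∧ E = C * 12 / η + 4 * (2 * A) ^ 2 * Real.exp (2 * (2 * A)) +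
      2 * ((2 * A) ^ 2 * Real.exp (2 * A)) := ⟨_, by positivity, rfl⟩
  obtain ⟨r, hr⟩ := exists_nat_gt (E / (ε / 5) + 1)
  have hr1 : 1 ≤ r := by
    have : 0 ≤ E / (ε / 5) := by positivity
    exact_mod_cast (by linarith : (1 : ℝ) ≤ r)
  have e3 : 1 / ((r : ℝ) + 1) * E ≤ ε / 5 := by
    have h1 : E / (ε / 5) ≤ r + 1 := by linarith
    rw [div_le_iff₀ (by positivity)] at h1
    rw [one_div_mul_eq_div, div_le_iff₀ (by positivity)]
    linarith
  obtain ⟨G, hG⟩ : ∃ G : ℝ, G = 1 / ((r : ℝ) + 1) * (1 - ρ) ^ (2 * r) := ⟨_, rfl⟩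
  have hG0 : 0 < G := by
    rw [hG]; exact mul_pos (by positivity) (pow_pos (by linarith) _)
  obtain ⟨n, hn⟩ := exists_pow_lt_of_lt_one (x := ε / 5 * G / (2 * r : ℕ))
    (by have : (0 : ℝ) < (2 * r : ℕ) := by exact_mod_cast (by omega : 0 < 2 * r)
        positivity) hρ1
  have e4 : ((2 * r : ℕ) : ℝ) * ρ ^ (n + 1 + 1) / G ≤ ε / 5 := by
    have h0 : (0 : ℝ) < (2 * r : ℕ) := by exact_mod_cast (by omega : 0 < 2 * r)
    have h1 : ρ ^ (n + 1 + 1) ≤ ρ ^ n := pow_le_pow_of_le_one hρ0 hρ1.le (by omega)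
    rw [lt_div_iff₀ h0] at hn
    rw [div_le_iff₀ hG0]
    nlinarith
  refine ⟨r, n + 1, hr1, by omega, ?_⟩
  intro N S _ κ σ s₀ hN hκ htv J _ _ hJ Y hY
  haveI : Nonempty (Fin N) := ⟨⟨0, hN⟩⟩
  set y : (J → Bool) → ℝ := fun t => 1 - Y t * Real.exp (-A) with hy
  have hlog : ∀ t, Real.log (1 - y t) = Real.log (Y t) - A := by
    intro t
    have : 1 - y t = Y t * Real.exp (-A) := by simp [hy]
    rw [this, Real.log_mul (hY t).1.ne' (Real.exp_pos _).ne', Real.log_exp]; ring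
  have hlog' : ∀ t, Real.log (Y t) = Real.log (1 - y t) + A := fun t => by rw [hlog]; ring
  have hlb : ∀ t, |Real.log (1 - y t)| ≤ 2 * A := by
    intro t
    have := abs_le.1 (hY t).2
    rw [hlog, abs_le]; constructor <;> linarith [this.1, this.2]
  have hyρ : ∀ t, |y t| ≤ ρ := by
    intro t
    have h1 := abs_le.1 (hY t).2
    have h2 : Y t * Real.exp (-A) = Real.exp (Real.log (Y t) - A) := by
      rw [sub_eq_add_neg, Real.exp_add, Real.exp_log (hY t).1]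
    have h3 : Real.exp (Real.log (Y t) - A) ≤ 1 := Real.exp_le_one_iff.2 (by linarith [h1.2])
    have h4 : Real.exp (-(2 * A)) ≤ Real.exp (Real.log (Y t) - A) :=
      Real.exp_le_exp.2 (by linarith [h1.1])
    rw [abs_le, hy]
    simp only [h2]
    constructor <;> linarith
  have hκJ : ∀ d, IsK (piK J κ d) := fun d => isK_piK J (hκ d)
  have hμ : ∀ d e, e < d → mu r e ≠ 0 := fun _ e _ => (mu_pos r e).ne'
  set a : (J → Fin N) → S → ℝ := fun i =>
    Rec κ (mu r) (fun t => Real.log (1 - y (fun j => σ t (i j)))) (2 * r) with ha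
  set b : (J → Fin N) → S → ℝ := fun i s =>
    Rec (piK J κ) (mu r) (fun t => Real.log (1 - y (fun j => σ (t j) (i j)))) (2 * r)
      (fun _ => s) with hb
  have f1 : |avg (fun i : J → Fin N =>
        Rec κ (mu r) (fun s => Real.log (Y (fun j => σ s (i j)))) (2 * r + 1) s₀) -
      avg (fun i => Ex (κ (2 * r)) (a i) s₀ + A)| ≤
      1 / ((r : ℝ) + 1) * (4 * (2 * A) ^ 2 * Real.exp (2 * (2 * A))) := by
    refine abs_avg_sub_le (by positivity) fun i => ?_
    simp only [hlog']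
    rw [Rec_add_const hκ _ _ _ (hμ _), add_sub_add_right_eq_sub, Rec_succ, ← mu_top r]
    exact abs_step_sub_Ex_le (hκ _) (mu_pos _ _) (mu_le_one _ _)
      (fun t => abs_Rec_le hκ _ (fun e _ => mu_pos r e) (fun t => hlb _) t) s₀
  have f2 : Ex (κ (2 * r)) (fun s => avg (fun i : J → Fin N =>
        Rec (piK J κ) (mu r) (fun t => Real.log (Y (fun j => σ (t j) (i j)))) (2 * r)
          (fun _ => s))) s₀ = Ex (κ (2 * r)) (fun s => avg (fun i => b i s)) s₀ + A := by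
    simp only [hlog', Rec_add_const hκJ _ _ _ (hμ _)]
    simp only [avg_add, avg_const]
    rw [Ex_add, (hκ _).Ex_const]
  have f3 : avg (fun i => Ex (κ (2 * r)) (a i) s₀ + A) =
      Ex (κ (2 * r)) (fun s => avg (fun i => a i s)) s₀ + A := by
    rw [avg_add, avg_const, Ex_avg]
  have f4 := comp_sum (n := n + 1) r n₀ hJ κ hκ σ s₀ hρ0 hρρ hρ' hη hyρ
  set T : S → ℝ := fun s => |∑ τ : Tr Unit (n + 1) (2 * r), wt (mu r) _ τ *
      (avg (fun i : J → Fin N => ev κ (fun _ t => y (fun j => σ t (i j))) _ τ s) -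
        avg (fun i : J → Fin N =>
          ev (piK J κ) (fun _ t => y (fun j => σ (t j) (i j))) _ τ (fun _ => s)))| with hT
  obtain ⟨e, he⟩ : ∃ e : ℝ, e = 1 / ((r : ℝ) + 1) * ((2 * A) ^ 2 * Real.exp (2 * A)) +
      (2 * r : ℕ) * ρ ^ (n + 1 + 1) / G := ⟨_, rfl⟩
  have he0 : 0 ≤ e := by rw [he]; positivity
  have f5 : ∀ s, |avg (fun i => a i s) - avg (fun i => b i s)| ≤ T s + 2 * e := by
    intro s
    have g1 : |avg (fun i : J → Fin N => a i s + ∑ τ : Tr Unit (n + 1) (2 * r), wt (mu r) _ τ *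
        ev κ (fun _ t => y (fun j => σ t (i j))) _ τ s)| ≤ e := by
      refine abs_avg_le he0 fun i => ?_
      rw [he, hG]
      exact comp_Nt hκ r (n + 1) hρ1 (fun t => hyρ _) (fun t => hlb _) s
    have g2 : |avg (fun i : J → Fin N => b i s + ∑ τ : Tr Unit (n + 1) (2 * r), wt (mu r) _ τ *
        ev (piK J κ) (fun _ t => y (fun j => σ (t j) (i j))) _ τ (fun _ => s))| ≤ e := by
      refine abs_avg_le he0 fun i => ?_
      rw [he, hG]
      exact comp_Nt hκJ r (n + 1) hρ1 (fun t => hyρ _) (fun t => hlb _) _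
    rw [avg_add, avg_sum] at g1 g2
    simp only [avg_mul_left] at g1 g2
    have g3 : T s = |∑ τ : Tr Unit (n + 1) (2 * r), wt (mu r) _ τ *
        avg (fun i : J → Fin N => ev κ (fun _ t => y (fun j => σ t (i j))) _ τ s) -
        ∑ τ : Tr Unit (n + 1) (2 * r), wt (mu r) _ τ * avg (fun i : J → Fin N =>
          ev (piK J κ) (fun _ t => y (fun j => σ (t j) (i j))) _ τ (fun _ => s))| := by
      rw [hT, ← Finset.sum_sub_distrib]
      simp only [mul_sub]
    rw [g3]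
    have g4 := le_abs_self (∑ τ : Tr Unit (n + 1) (2 * r), wt (mu r) _ τ *
        avg (fun i : J → Fin N => ev κ (fun _ t => y (fun j => σ t (i j))) _ τ s) -
        ∑ τ : Tr Unit (n + 1) (2 * r), wt (mu r) _ τ * avg (fun i : J → Fin N =>
          ev (piK J κ) (fun _ t => y (fun j => σ (t j) (i j))) _ τ (fun _ => s)))
    have g5 := neg_abs_le (∑ τ : Tr Unit (n + 1) (2 * r), wt (mu r) _ τ *
        avg (fun i : J → Fin N => ev κ (fun _ t => y (fun j => σ t (i j))) _ τ s) -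
        ∑ τ : Tr Unit (n + 1) (2 * r), wt (mu r) _ τ * avg (fun i : J → Fin N =>
          ev (piK J κ) (fun _ t => y (fun j => σ (t j) (i j))) _ τ (fun _ => s)))
    rw [abs_le] at g1 g2 ⊢
    constructor <;> linarith [g1.1, g1.2, g2.1, g2.2]
  have f6 : |Ex (κ (2 * r)) (fun s => avg (fun i => a i s)) s₀ -
      Ex (κ (2 * r)) (fun s => avg (fun i => b i s)) s₀| ≤ Ex (κ (2 * r)) T s₀ + 2 * e := by
    rw [← Ex_sub]
    refine ((hκ _).abs_Ex_le_Ex_abs _ _).trans (((hκ _).Ex_mono f5 s₀).trans (le_of_eq ?_))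
    rw [Ex_add, (hκ _).Ex_const]
  have f7 : C * (totVar r (n + 1) κ σ s₀ / η) ≤ 1 / ((r : ℝ) + 1) * (C * 12 / η) := by
    calc _ ≤ C * (12 / ((r : ℝ) + 1) / η) := by gcongr
      _ = _ := by ring
  rw [← hCdef, mul_add] at f4
  rw [f3] at f1
  rw [f2]
  rw [hE, mul_add, mul_add] at e3
  rw [abs_le] at f1 f6 ⊢
  constructor <;> linarith [f1.1, f1.2, f6.1, f6.2]

end Vale.Agent.P168
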