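import Vale.Agent.P168MP.Defs

/-! Finite objects used in the proof of P168 (definitions only). -/

namespace Vale.Agent.P168

open Finset

/-! ### Finite cascades. Heights count steps above the leaves; `κ d`, `μ d` belong to the
step from height `d+1` to height `d`. -/

section Casc

variable {S S' : Type} [Fintype S] [Fintype S']

def Ex (κ : S → S → ℝ) (f : S → ℝ) (s : S) : ℝ := ∑ t, κ s t * f t

def IsK (κ : S → S → ℝ) : Prop := (∀ s t, 0 ≤ κ s t) ∧ ∀ s, ∑ t, κ s t = 1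

noncomputable def Rec (κ : ℕ → S → S → ℝ) (μ : ℕ → ℝ) (L : S → ℝ) : ℕ → S → ℝ
  | 0 => L
  | d + 1 => fun s =>
      (μ d)⁻¹ * Real.log (Ex (κ d) (fun t => Real.exp (μ d * Rec κ μ L d t)) s)

noncomputable def tilt (κ : ℕ → S → S → ℝ) (μ : ℕ → ℝ) (L : S → ℝ) : ℕ → S → S → ℝ :=
  fun d s t => κ d s t * Real.exp (μ d * (Rec κ μ L d t - Rec κ μ L (d + 1) s))

/-- Expectation, seen from height `d + n`, of a function of the state at height `d`. -/
def Pr (κ : ℕ → S → S → ℝ) (d : ℕ) : ℕ → (S → ℝ) → S → ℝ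
  | 0, f => f
  | n + 1, f => Ex (κ (d + n)) (Pr κ d n f)

def prodK (κ : ℕ → S → S → ℝ) (κ' : ℕ → S' → S' → ℝ) : ℕ → S × S' → S × S' → ℝ :=
  fun d s t => κ d s.1 t.1 * κ' d s.2 t.2

def piK (J : Type) [Fintype J] (κ : ℕ → S → S → ℝ) : ℕ → (J → S) → (J → S) → ℝ :=
  fun d s t => ∏ j, κ d (s j) (t j)

def IsMor (φ : S' → S) (κ' : S' → S' → ℝ) (κ : S → S → ℝ) : Prop :=
  ∀ (f : S → ℝ) (s : S'), Ex κ' (fun t => f (φ t)) s = Ex κ f (φ s)

/-- Kernel composition and identity kernel. -/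
def compK (κ κ' : S → S → ℝ) : S → S → ℝ := fun s u => ∑ t, κ s t * κ' t u

def idK [DecidableEq S] : S → S → ℝ := fun s t => if s = t then 1 else 0

/-- Resample uniformly the Boolean coordinates `i` with `lev i = d`. -/
noncomputable def crdK {ι : Type} [Fintype ι] [DecidableEq ι] (lev : ι → ℕ) :
    ℕ → (ι → Bool) → (ι → Bool) → ℝ :=
  fun d s t => avg (fun u : ι → Bool =>
    if t = (fun i => if lev i = d then u i else s i) then (1 : ℝ) else 0)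

noncomputable def Nt (κ : ℕ → S → S → ℝ) (μ : ℕ → ℝ) (L : S → ℝ) (d : ℕ) (s : S) : ℝ :=
  (1 - Real.exp (μ d * Rec κ μ L d s)) / μ d

end Casc

/-- The parameters of the planted cascade: `1, m_r, m_r, m_{r-1}, m_{r-1}, …`. -/
noncomputable def mu (r : ℕ) (d : ℕ) : ℝ := 1 - (min ((d + 1) / 2) r : ℕ) / ((r : ℝ) + 1)

/-! ### Finite message structures and the finite model -/

structure Msg (S : Type) where
  r : ℕ
  μ : ℕ → ℝ
  κ : ℕ → S → S → ℝ
  π : S → ℝ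
  xv : S → ℝ

def Msg.Good {S : Type} [Fintype S] (m : Msg S) : Prop :=
  (∀ d, IsK (m.κ d)) ∧ (∀ s, 0 ≤ m.π s) ∧ (∑ s, m.π s = 1) ∧ (∀ s, |m.xv s| ≤ 1) ∧
    (∀ e, e < m.r → 0 < m.μ e ∧ m.μ e < 1) ∧ (∀ e, e + 1 < m.r → m.μ (e + 1) < m.μ e)

noncomputable def Tfin {S : Type} [Fintype S] (m : Msg S) {J : Type} [Fintype J] [DecidableEq J]
    (F : (J → ℝ) → ℝ) : ℝ :=
  ∑ t : J → S, (∏ j, m.π (t j)) *
    Rec (piK J m.κ) m.μ (fun t => Real.log (F (fun j => m.xv (t j)))) m.r t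

def Epi {Θ : Type} [Fintype Θ] (q : Θ → ℝ) {ι : Type} [Fintype ι] [DecidableEq ι]
    (G : (ι → Θ) → ℝ) : ℝ :=
  ∑ ω : ι → Θ, (∏ k, q (ω k)) * G ω

def IsPr {Θ : Type} [Fintype Θ] (q : Θ → ℝ) : Prop := (∀ a, 0 ≤ q a) ∧ ∑ a, q a = 1

/-- `E log Z_N` for the finite model. -/
noncomputable def Ffin {Θ : Type} [Fintype Θ] {K : ℕ} (q : Θ → ℝ) (th : Θ → Cl K) (hv : Θ → ℝ)
    (lam : ℝ) (N : ℕ) : ℝ :=
  ∑' M : ℕ, poi (lam * N) M * Epi q (fun ω : Fin M → Θ => Epi q (fun ω' : Fin N → Θ =>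
    avg (fun i : Fin M → Fin K → Fin N => logZ (fun k => th (ω k)) i (fun v => hv (ω' v)))))

noncomputable def TUfin {Θ S : Type} [Fintype Θ] [Fintype S] {K : ℕ} (q : Θ → ℝ)
    (th : Θ → Cl K) (hv : Θ → ℝ) (lam : ℝ) (m : Msg S) : ℝ :=
  ∑' M : ℕ, poi (K * lam) M * Epi q (fun ω : Fin M → Θ => ∑ a, q a *
    avg (fun l : Fin M → Fin K => Tfin m (Ufun (hv a) (fun k => th (ω k)) l)))

noncomputable def TVfin {Θ S : Type} [Fintype Θ] [Fintype S] {K : ℕ} (q : Θ → ℝ)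
    (th : Θ → Cl K) (lam : ℝ) (m : Msg S) : ℝ :=
  ∑' M : ℕ, poi ((K - 1) * lam) M * Epi q (fun ω : Fin M → Θ =>
    Tfin m (Vfun (fun k => th (ω k))))

/-- The structure of the finite model needed for the upper bound. -/
def FinStruct {Θ Φ : Type} [Fintype Θ] [Fintype Φ] {K : ℕ} (q : Θ → ℝ) (th : Θ → Cl K)
    (p : Φ → ℝ) (fv : Φ → Bool → ℝ) (a b : Θ → ℝ) (φ : Θ → Fin K → Φ) (ρ ρ' δ : ℝ) : Prop :=
  IsPr p ∧ (∀ f s, |fv f s| ≤ 1) ∧ (∀ c, 0 < a c) ∧ (∀ c, |b c| ≤ ρ) ∧ 0 ≤ ρ ∧ ρ < 1 ∧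
    0 ≤ ρ' ∧ ρ' < 1 ∧ 0 ≤ δ ∧
    (∀ c s, Real.exp (th c s) = a c * (1 + b c * ∏ j, fv (φ c j) (s j))) ∧
    (∀ (n : ℕ) (g : Fin K → Φ → ℝ), ∑ c, q c * ((-b c) ^ n * ∏ j, g j (φ c j)) =
      (∑ c, q c * (-b c) ^ n) * ∏ j, ∑ f, p f * g j f) ∧
    (∀ n : ℕ, 1 ≤ n → -(δ * ρ' ^ n) ≤ ∑ c, q c * (-b c) ^ n)

/-- Average of `Y` over independent spins with means `y j`. -/
noncomputable def hat {J : Type} [Fintype J] [DecidableEq J] (Y : (J → Bool) → ℝ)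
    (y : J → ℝ) : ℝ :=
  ∑ s : J → Bool, Y s * ∏ j, (1 + y j * spin (s j)) / 2

/-! ### Trees -/

/-- Ordered trees of height `d`, at most `n` children per node, leaves labelled by `Λ`. -/
def Tr (Λ : Type) (n : ℕ) : ℕ → Type
  | 0 => Λ
  | d + 1 => Σ c : Fin n, (Fin (c.val + 1) → Tr Λ n d)

noncomputable instance instFintypeTr (Λ : Type) [Fintype Λ] (n : ℕ) :
    (d : ℕ) → Fintype (Tr Λ n d)
  | 0 => (inferInstance : Fintype Λ)
  | d + 1 =>
      haveI := instFintypeTr Λ n d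
      (inferInstance : Fintype (Σ c : Fin n, (Fin (c.val + 1) → Tr Λ n d)))

section Trees

variable {Λ Λ' : Type} {n : ℕ}

def Tr.leaf (l : Λ) : Tr Λ n 0 := l

def Tr.lab (τ : Tr Λ n 0) : Λ := τ

def Tr.node {d : ℕ} (c : Fin n) (f : Fin (c.val + 1) → Tr Λ n d) : Tr Λ n (d + 1) :=
  (⟨c, f⟩ : Σ c : Fin n, (Fin (c.val + 1) → Tr Λ n d))

/-- Number of children minus one. -/
def Tr.ar {d : ℕ} (τ : Tr Λ n (d + 1)) : Fin n :=
  Sigma.fst (β := fun c : Fin n => Fin (c.val + 1) → Tr Λ n d) τ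

def Tr.ch {d : ℕ} (τ : Tr Λ n (d + 1)) : Fin (τ.ar.val + 1) → Tr Λ n d :=
  Sigma.snd (β := fun c : Fin n => Fin (c.val + 1) → Tr Λ n d) τ

def size : (d : ℕ) → Tr Λ n d → ℕ
  | 0, _ => 1
  | d + 1, τ => ∑ b, size d (τ.ch b)

/-- Coefficient of a node with `c + 1` children. -/
noncomputable def bco (m m' : ℝ) (c : ℕ) : ℝ :=
  (∏ i ∈ range c, (((i : ℝ) + 1) * m' - m)) / ((c + 1).factorial : ℝ)

noncomputable def wt (μ : ℕ → ℝ) : (d : ℕ) → Tr Λ n d → ℝ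
  | 0, _ => 1
  | d + 1, τ => bco (μ (d + 1)) (μ d) τ.ar.val * ∏ b, wt μ d (τ.ch b)

def cw (c : Λ → ℝ) : (d : ℕ) → Tr Λ n d → ℝ
  | 0, τ => c τ.lab
  | d + 1, τ => ∏ b, cw c d (τ.ch b)

def ev {S : Type} [Fintype S] (κ : ℕ → S → S → ℝ) (g : Λ → S → ℝ) :
    (d : ℕ) → Tr Λ n d → S → ℝ
  | 0, τ => g τ.lab
  | d + 1, τ => fun s => ∏ b, Ex (κ d) (ev κ g d (τ.ch b)) s

def tmap (φ : Λ → Λ') : (d : ℕ) → Tr Λ n d → Tr Λ' n d
  | 0, τ => Tr.leaf (φ τ.lab)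
  | d + 1, τ => Tr.node τ.ar (fun b => tmap φ d (τ.ch b))

/-- The root is a leaf or has a single child. -/
def Single : (d : ℕ) → Tr Λ n d → Prop
  | 0, _ => True
  | _ + 1, τ => τ.ar.val = 0

end Trees

/-! ### Laws of products over the leaves, as positive functionals -/

abbrev Fn (ι : Type) : Type := ((ι → ℝ) → ℝ) →ₗ[ℝ] ℝ

section Law

variable {ι : Type}

def dlt (g : ι → ℝ) : Fn ι := LinearMap.proj g

def conv (Φ Ψ : Fn ι) : Fn ι where
  toFun F := Φ (fun g => Ψ (fun g' => F (g * g')))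
  map_add' F F' := by
    rw [← map_add]
    congr 1
    funext g
    simp only [Pi.add_apply]
    rw [← map_add]
    rfl
  map_smul' a F := by
    rw [RingHom.id_apply, ← map_smul]
    congr 1
    funext g
    simp only [Pi.smul_apply]
    rw [← map_smul]
    rfl

def convF : (c : ℕ) → (Fin c → Fn ι) → Fn ι
  | 0, _ => dlt 1
  | c + 1, Φ => conv (Φ 0) (convF c (fun b => Φ b.succ))

def mix {S : Type} [Fintype S] (p : S → ℝ) (Φ : S → Fn ι) : Fn ι := ∑ t, p t • Φ t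

def law {S Λ : Type} [Fintype S] {n : ℕ} (κ : ℕ → S → S → ℝ) (γ : Λ → S → ι → ℝ) :
    (d : ℕ) → Tr Λ n d → S → Fn ι
  | 0, τ, s => dlt (γ τ.lab s)
  | d + 1, τ, s => convF (τ.ar.val + 1) (fun b => mix (κ d s) (law κ γ d (τ.ch b)))

def Cube (g : ι → ℝ) : Prop := ∀ i, |g i| ≤ 1

def IsP (Φ : Fn ι) : Prop :=
  Φ (fun _ => 1) = 1 ∧ ∀ F : (ι → ℝ) → ℝ, (∀ g, Cube g → 0 ≤ F g) → 0 ≤ Φ F

def Var (Φ : Fn ι) (F : (ι → ℝ) → ℝ) : ℝ := Φ (fun g => F g ^ 2) - Φ F ^ 2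

noncomputable def lin [Fintype ι] (y g : ι → ℝ) : ℝ := avg (fun i => y i * g i)

noncomputable def Vs [Fintype ι] (Φ : Fn ι) : ℝ :=
  ⨆ y : {y : ι → ℝ // Cube y}, Var Φ (lin y.1)

/-- Vector of means. -/
def mean (Φ : Fn ι) : ι → ℝ := fun i => Φ (fun g => g i)

end Law

/-- Indicator leaf vectors. -/
def ind {S : Type} {N : ℕ} (σ : S → Fin N → Bool) (b : Bool) (s : S) (i : Fin N) : ℝ :=
  if σ s i = b then 1 else 0

/-- The mean vector of the product over the leaves of the indicators. -/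
def Mv {S : Type} [Fintype S] {N n : ℕ} (κ : ℕ → S → S → ℝ) (σ : S → Fin N → Bool)
    (d : ℕ) (τ : Tr Bool n d) (s : S) : Fin N → ℝ :=
  fun i => ev κ (fun b t => ind σ b t i) d τ s

/-- Two step variance of `lin y (Mv τ)` seen from height `d + 2`. -/
noncomputable def var2 {S : Type} [Fintype S] {N n : ℕ} (κ : ℕ → S → S → ℝ)
    (σ : S → Fin N → Bool) (d : ℕ) (τ : Tr Bool n d) (y : Fin N → ℝ) (s : S) : ℝ :=
  Pr κ d 2 (fun t => lin y (Mv κ σ d τ t) ^ 2) s - Pr κ d 2 (fun t => lin y (Mv κ σ d τ t)) s ^ 2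

/-- Decorrelation across each block of two steps. -/
def Dec {S : Type} [Fintype S] {N : ℕ} (r n : ℕ) (κ : ℕ → S → S → ℝ) (σ : S → Fin N → Bool)
    (s₀ : S) (ε : ℝ) : Prop :=
  ∀ e, e < r → ∀ τ : Tr Bool n (2 * e), wt (mu r) (2 * e) τ ≠ 0 →
    ∃ w : S → ℝ, (∀ s y, Cube y → var2 κ σ (2 * e) τ y s ≤ w s) ∧
      Pr κ (2 * e + 2) (2 * (r - e) - 1) w s₀ ≤ ε

/-- The weighted total variance at height `2 r`. -/
noncomputable def totVar {S : Type} [Fintype S] {N : ℕ} (r n : ℕ) (κ : ℕ → S → S → ℝ)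
    (σ : S → Fin N → Bool) (s₀ : S) : ℝ :=
  ∑ τ : Tr Bool n (2 * r), wt (mu r) (2 * r) τ * (1 / 8) ^ size (2 * r) τ *
    Ex (κ (2 * r)) (fun s => Vs (law κ (ind σ) (2 * r) τ s)) s₀

/-! ### Probes -/

/-- Marks of one probe at one height. -/
abbrev Mk (n : ℕ) : Type := Fin n ⊕ Fin n → Bool

/-- All own marks of a probe. -/
abbrev Own (D n : ℕ) : Type := Fin D × (Fin n ⊕ Fin n) → Bool

noncomputable def ownK (D n : ℕ) : ℕ → Own D n → Own D n → ℝ := crdK (fun i => i.1.val)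

def marks {D n : ℕ} (o : Own D n) (e : ℕ) : Mk n :=
  fun j => if h : e < D then o (⟨e, h⟩, j) else false

/-- Choice of a child. -/
def chc {n : ℕ} (c : ℕ) (u : Mk n) : Fin (c + 1) :=
  if h : (univ.filter (fun j : Fin n => u (Sum.inl j) = true)).card < c + 1 then ⟨_, h⟩ else 0

/-- Sign passed to the child `b` when the incoming sign is `z`. -/
def lock {n : ℕ} (c : Fin n) (u : Mk n) (z : ℝ) (b : Fin (c.val + 1)) : ℝ :=
  if b = 0 then
    z * ∏ b' ∈ univ.erase (0 : Fin (c.val + 1)),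
      spin (u (Sum.inr ⟨b'.val, lt_of_lt_of_le b'.isLt c.isLt⟩))
  else spin (u (Sum.inr ⟨b.val, lt_of_lt_of_le b.isLt c.isLt⟩))

/-- Walk down the tree: the label of the leaf reached and the final sign. -/
def nav {n : ℕ} (ω : ℕ → Mk n) : (d : ℕ) → Tr Bool n d → ℝ → Bool × ℝ
  | 0, τ, z => (τ.lab, z)
  | d + 1, τ, z => nav ω d (τ.ch (chc τ.ar.val (ω d)))
      (lock τ.ar (ω (d + 1)) z (chc τ.ar.val (ω d)))

/-- Probe types: trees rooted at some height below `D`. -/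
abbrev PT (D n : ℕ) : Type := Σ e : Fin D, Tr Bool n e.val

/-- Log weight of a probe acting on a spin `b`. -/
noncomputable def probe {D n : ℕ} (h : ℝ) (ρ : PT D n) (z : Bool) (o : Own D n) (b : Bool) : ℝ :=
  Real.log (1 + h * ((nav (marks o) ρ.1.val ρ.2 (spin z)).2 *
    (if b = (nav (marks o) ρ.1.val ρ.2 (spin z)).1 then 1 else 0)))

/-- Recursion value with two probes, signs `z`, `z'`, acting on spins `σ`, `σ'`. -/
noncomputable def twoP {S : Type} [Fintype S] (r n : ℕ) (κ : ℕ → S → S → ℝ) (σ σ' : S → Bool)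
    (h : ℝ) (ρ ρ' : PT (2 * r + 1) n) (z z' : Bool) (d : ℕ) :
    (S × Own (2 * r + 1) n) × Own (2 * r + 1) n → ℝ :=
  Rec (prodK (prodK κ (ownK (2 * r + 1) n)) (ownK (2 * r + 1) n)) (mu r)
    (fun x => probe h ρ z x.1.2 (σ x.1.1) + probe h ρ' z' x.2 (σ' x.1.1)) d

/-- Second difference in the two signs. -/
noncomputable def sdiff {S : Type} [Fintype S] (r n : ℕ) (κ : ℕ → S → S → ℝ) (σ σ' : S → Bool)
    (h : ℝ) (ρ ρ' : PT (2 * r + 1) n) (d : ℕ)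
    (x : (S × Own (2 * r + 1) n) × Own (2 * r + 1) n) : ℝ :=
  twoP r n κ σ σ' h ρ ρ' true true d x - twoP r n κ σ σ' h ρ ρ' true false d x -
    twoP r n κ σ σ' h ρ ρ' false true d x + twoP r n κ σ σ' h ρ ρ' false false d x

/-- The pinned quantity at height `2 e + 2`. -/
noncomputable def pinq {S : Type} [Fintype S] {N : ℕ} (r n : ℕ) (κ : ℕ → S → S → ℝ)
    (σ : S → Fin N → Bool) (s₀ : S) (h : ℝ) (e : ℕ) (ρ ρ' : PT (2 * r + 1) n) : ℝ :=
  avg (fun ii : Fin N × Fin N =>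
    Pr (prodK (prodK κ (ownK (2 * r + 1) n)) (ownK (2 * r + 1) n)) (2 * e + 2) (2 * (r - e) - 1)
      (fun x => |sdiff r n κ (fun s => σ s ii.1) (fun s => σ s ii.2) h ρ ρ' (2 * e + 2) x|)
      ((s₀, fun _ => false), fun _ => false))

/-! ### The perturbed system -/

abbrev Slot (r T : ℕ) : Type := Fin r × Fin (T + 2)

abbrev MI (r T n : ℕ) : Type := Slot r T ⊕ Slot r T × (Fin (2 * r + 1) × (Fin n ⊕ Fin n))

abbrev St (r T n N : ℕ) : Type := (MI r T n → Bool) × (Fin N → Bool)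

abbrev Data (r T n N : ℕ) : Type := Slot r T → PT (2 * r + 1) n × Fin N

def mlev {r T n : ℕ} (t : Fin r → Fin (T + 1)) : MI r T n → ℕ
  | Sum.inl k => if k.2.val < (t k.1).val then 2 * k.1.val + 2 else 2 * k.1.val + 1
  | Sum.inr k => k.2.1.val

noncomputable def priorK {r T : ℕ} (n N : ℕ) (t : Fin r → Fin (T + 1)) :
    ℕ → St r T n N → St r T n N → ℝ :=
  prodK (crdK (mlev t)) (crdK (fun _ => 0))

def active {r T : ℕ} (t : Fin r → Fin (T + 1)) (k : Slot r T) : Prop :=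
  k.2.val ≠ (t k.1).val ∧ k.2.val ≠ T + 1

instance {r T : ℕ} (t : Fin r → Fin (T + 1)) : DecidablePred (active t) := fun k => by
  unfold active; infer_instance

noncomputable def slotW {r T n N : ℕ} (h : ℝ) (a : Data r T n N) (k : Slot r T)
    (s : St r T n N) : ℝ :=
  probe h (a k).1 (s.1 (Sum.inl k)) (fun j => s.1 (Sum.inr (k, j))) (s.2 (a k).2)

noncomputable def pertL {r T n N : ℕ} (h : ℝ) (H : (Fin N → Bool) → ℝ) (t : Fin r → Fin (T + 1))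
    (a : Data r T n N) (s : St r T n N) : ℝ :=
  H s.2 + ∑ k ∈ univ.filter (active t), slotW h a k s

def root (r T n N : ℕ) : St r T n N := (fun _ => false, fun _ => false)

/-- Kernels of the perturbed system. -/
noncomputable def sysK {r T n N : ℕ} (h : ℝ) (H : (Fin N → Bool) → ℝ) (t : Fin r → Fin (T + 1))
    (a : Data r T n N) : ℕ → St r T n N → St r T n N → ℝ :=
  tilt (priorK n N t) (mu r) (pertL h H t a)

/-- The message structure read off a cascade below a state at height `2 r`. -/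
noncomputable def msgOf {S : Type} [Fintype S] [DecidableEq S] {N : ℕ} (r : ℕ)
    (κ : ℕ → S → S → ℝ) (σ : S → Fin N → Bool) (s : S) : Msg (S × Fin N) where
  r := r
  μ := fun e => mu r (2 * e + 1)
  κ := prodK (fun e => if e + 1 = r then κ (2 * e + 1) else compK (κ (2 * e + 2)) (κ (2 * e + 1)))
    (fun _ => idK)
  π := fun x => if x.1 = s then 1 / (N : ℝ) else 0
  xv := fun x => Ex (κ 0) (fun t => spin (σ t x.2)) x.1

/-- Interface of the perturbed free energy used by the cavity argument. -/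
def PertSpec (ε B : ℝ) (d₀ : ℕ) (A : (N : ℕ) → ((Fin N → Bool) → ℝ) → ℝ) (C : ℝ)
    (δ : ℕ → ℝ) : Prop :=
  (∀ N, 1 ≤ N → ∀ H : (Fin N → Bool) → ℝ, |A N H - Real.log (∑ s, Real.exp (H s))| ≤ C) ∧
  (∀ N, 1 ≤ N → ∀ (H H' : (Fin N → Bool) → ℝ) (b : ℝ), (∀ s, |H s - H' s| ≤ b) →
    |A N H - A N H'| ≤ b) ∧
  Filter.Tendsto δ Filter.atTop (nhds 0) ∧
  (∀ N, 1 ≤ N → ∀ H : (Fin (N + 1) → Bool) → ℝ,
    |A (N + 1) H - A N (fun s => Real.log (∑ u : Bool,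
      Real.exp (H (Fin.snoc (α := fun _ => Bool) s u))))| ≤ δ N) ∧
  (∀ N, 1 ≤ N → ∀ H : (Fin N → Bool) → ℝ,
    ∃ (S Ξ : Type) (_ : Fintype S) (_ : Fintype Ξ) (p : Ξ → ℝ) (m : Ξ → Msg S),
      IsPr p ∧ (∀ ξ, (m ξ).Good) ∧
      ∀ (J : Type) [Fintype J] [DecidableEq J], Fintype.card J ≤ d₀ →
        ∀ Y : (J → Bool) → ℝ, (∀ s, 0 < Y s ∧ |Real.log (Y s)| ≤ B) →
          |avg (fun i : J → Fin N => A N (fun s => H s + Real.log (Y (fun j => s (i j))))) -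
            A N H - ∑ ξ, p ξ * Tfin (m ξ) (hat Y)| ≤ ε)

/-! ### Poisson expectations over lists -/

section Poi

variable {C : Type} [Fintype C]

/-- Sum over lists of length `M` with product weights. -/
def EL (ν : C → ℝ) : ℕ → (List C → ℝ) → ℝ
  | 0, G => G []
  | M + 1, G => ∑ c, ν c * EL ν M (fun l => G (c :: l))

/-- Expectation under the Poisson process with intensity `ν`. -/
noncomputable def PP (ν : C → ℝ) (G : List C → ℝ) : ℝ :=
  ∑' M : ℕ, Real.exp (-(∑ c, ν c)) / (M.factorial : ℝ) * EL ν M G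

def LinG (G : List C → ℝ) : Prop := ∃ a b : ℝ, ∀ l, |G l| ≤ a + b * l.length

def PermInv (G : List C → ℝ) : Prop := ∀ l l', l.Perm l' → G l = G l'

end Poi

/-! ### The interpolating system of the upper bound -/

/-- Slot kinds: a true clause, a cavity clause, a `V` clause. -/
abbrev Kind (K N : ℕ) : Type := (Fin K → Fin N) ⊕ (Fin K × Fin N) ⊕ Unit

/-- Weight of a slot. -/
noncomputable def slotF {K N : ℕ} (θ : Cl K) (k : Kind K N) (s : Fin N → Bool)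
    (y : Fin K → ℝ) : ℝ :=
  match k with
  | Sum.inl i => Real.exp (θ (fun j => s (i j)))
  | Sum.inr (Sum.inl li) =>
      ∑ σ ∈ univ.filter (fun σ : Fin K → Bool => σ li.1 = s li.2),
        Real.exp (θ σ) * ∏ j ∈ univ.erase li.1, (1 + y j * spin (σ j)) / 2
  | Sum.inr (Sum.inr _) => ∑ σ : Fin K → Bool, Real.exp (θ σ) * ∏ j, (1 + y j * spin (σ j)) / 2

/-- Free energy of the interpolating system with slots indexed by `ι`. -/
noncomputable def Xs {S ι : Type} [Fintype S] [Fintype ι] [DecidableEq ι] {K N : ℕ} (m : Msg S)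
    (h : Fin N → ℝ) (c : ι → Cl K × Kind K N) : ℝ :=
  Tfin m (fun y : ι × Fin K → ℝ => ∑ s : Fin N → Bool, Real.exp (∑ v, h v * spin (s v)) *
    ∏ k, slotF (c k).1 (c k).2 s (fun j => y (k, j)))

/-! ### Objects of the cavity argument -/

section Cav

variable {Θ : Type} [Fintype Θ] {K : ℕ}

/-- Probability weights on placed clauses. -/
noncomputable def qN (q : Θ → ℝ) (K N : ℕ) : Θ × (Fin K → Fin N) → ℝ :=
  fun c => q c.1 / (N : ℝ) ^ K

def Ham {N : ℕ} (th : Θ → Cl K) (l : List (Θ × (Fin K → Fin N))) (s : Fin N → Bool) : ℝ :=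
  (l.map (fun c => th c.1 (fun j => s (c.2 j)))).sum

def fld {N : ℕ} (hv : Θ → ℝ) (ω : Fin N → Θ) (s : Fin N → Bool) : ℝ :=
  ∑ v, hv (ω v) * spin (s v)

/-- Average of a functional of the Hamiltonian with `Poisson(γ)` clauses. -/
noncomputable def EH (q : Θ → ℝ) (th : Θ → Cl K) (hv : Θ → ℝ) (N : ℕ) (γ : ℝ)
    (G : ((Fin N → Bool) → ℝ) → ℝ) : ℝ :=
  Epi q (fun ω : Fin N → Θ => PP (fun c => γ * qN q K N c)
    (fun l => G (fun s => Ham th l s + fld hv ω s)))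

/-- Weight of a new spin with its clauses. -/
noncomputable def YU {M : ℕ} (h : ℝ) (θ : Fin M → Cl K) (l : Fin M → Fin K)
    (s : Fin M × Fin K → Bool) : ℝ :=
  ∑ ε : Bool, Real.exp (h * spin ε) *
    ∏ k, Real.exp (θ k (fun j => if j = l k then ε else s (k, j)))

/-- Weight of extra clauses. -/
noncomputable def YV {M : ℕ} (θ : Fin M → Cl K) (s : Fin M × Fin K → Bool) : ℝ :=
  ∏ k, Real.exp (θ k (fun j => s (k, j)))

noncomputable def cavU (q : Θ → ℝ) (th : Θ → Cl K) (hv : Θ → ℝ) (lam : ℝ) {N : ℕ}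
    (A : ((Fin N → Bool) → ℝ) → ℝ) (H : (Fin N → Bool) → ℝ) : ℝ :=
  ∑' M : ℕ, poi (K * lam) M * Epi q (fun ω : Fin M → Θ => ∑ a, q a *
    avg (fun l : Fin M → Fin K => avg (fun i : Fin M × Fin K → Fin N =>
      A (fun s => H s + Real.log (YU (hv a) (fun k => th (ω k)) l (fun j => s (i j)))))))

noncomputable def cavV (q : Θ → ℝ) (th : Θ → Cl K) (lam : ℝ) {N : ℕ}
    (A : ((Fin N → Bool) → ℝ) → ℝ) (H : (Fin N → Bool) → ℝ) : ℝ :=
  ∑' M : ℕ, poi ((K - 1) * lam) M * Epi q (fun ω : Fin M → Θ =>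
    avg (fun i : Fin M × Fin K → Fin N =>
      A (fun s => H s + Real.log (YV (fun k => th (ω k)) (fun j => s (i j))))))

/-- Rate of the clauses of the `(N+1)`-system avoiding the new site. -/
noncomputable def gam0 (K : ℕ) (lam : ℝ) (N : ℕ) : ℝ :=
  lam * ((N : ℝ) + 1) * ((N : ℝ) / ((N : ℝ) + 1)) ^ K

/-- Finite disorder, general messages. -/
noncomputable def TUmid (q : Θ → ℝ) (th : Θ → Cl K) (hv : Θ → ℝ) (lam : ℝ) (r : ℕ)
    (m : Fin r → ℝ) (x : (Fin (r + 1) → unitInterval) → ℝ) : ℝ :=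
  ∑' M : ℕ, poi (K * lam) M * Epi q (fun ω : Fin M → Θ => ∑ a, q a *
    avg (fun l : Fin M → Fin K => Tf r m x (Ufun (hv a) (fun k => th (ω k)) l)))

noncomputable def TVmid (q : Θ → ℝ) (th : Θ → Cl K) (lam : ℝ) (r : ℕ)
    (m : Fin r → ℝ) (x : (Fin (r + 1) → unitInterval) → ℝ) : ℝ :=
  ∑' M : ℕ, poi ((K - 1) * lam) M * Epi q (fun ω : Fin M → Θ =>
    Tf r m x (Vfun (fun k => th (ω k))))

end Cav

/-- Admissible parameters of the trial functional. -/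
def Adm (r : ℕ) (m : Fin r → ℝ) (x : (Fin (r + 1) → unitInterval) → ℝ) : Prop :=
  StrictMono m ∧ (∀ p, 0 < m p ∧ m p < 1) ∧ Measurable x ∧ ∀ w, |x w| ≤ 1

/-- The cell of `u ∈ [0,1]` in the uniform grid with `n + 1` cells. -/
noncomputable def cell (n : ℕ) (u : unitInterval) : Fin (n + 1) :=
  ⟨min ⌊((n : ℝ) + 1) * (u : ℝ)⌋₊ n, Nat.lt_succ_of_le (min_le_right _ _)⟩

end Vale.Agent.P168
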