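import Vale.Agent.P168MP.Tree

/-! Laws of leaf products as positive functionals; variances. -/

namespace Vale.Agent.P168

open Finset

variable {ι ι' S Λ Λ' : Type} [Fintype S] {n : ℕ}

lemma law_add (Φ : Fn ι) (F G : (ι → ℝ) → ℝ) : Φ (fun g => F g + G g) = Φ F + Φ G :=
  map_add Φ F G
lemma law_sub (Φ : Fn ι) (F G : (ι → ℝ) → ℝ) : Φ (fun g => F g - G g) = Φ F - Φ G :=
  map_sub Φ F G
lemma law_mul (Φ : Fn ι) (c : ℝ) (F : (ι → ℝ) → ℝ) : Φ (fun g => c * F g) = c * Φ F :=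
  map_smul Φ c F
lemma law_sum {α : Type} (Φ : Fn ι) (A : Finset α) (F : α → (ι → ℝ) → ℝ) :
    Φ (fun g => ∑ a ∈ A, F a g) = ∑ a ∈ A, Φ (F a) := by
  rw [← map_sum]
  congr 1
  funext g
  rw [Finset.sum_apply]
lemma law_cube_mul {g g' : ι → ℝ} (h : Cube g) (h' : Cube g') : Cube (g * g') := fun i => by
  rw [Pi.mul_apply, abs_mul]
  exact mul_le_one₀ (h i) (abs_nonneg _) (h' i)
lemma law_cube_one : Cube (1 : ι → ℝ) := fun i => by simp

theorem dlt_apply (g : ι → ℝ) (F : (ι → ℝ) → ℝ) : dlt g F = F g := rfl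
theorem conv_apply (Φ Ψ : Fn ι) (F : (ι → ℝ) → ℝ) :
    conv Φ Ψ F = Φ (fun g => Ψ (fun g' => F (g * g'))) := rfl
theorem mix_apply (p : S → ℝ) (Φ : S → Fn ι) (F : (ι → ℝ) → ℝ) :
    mix p Φ F = ∑ t, p t * Φ t F := by
  simp only [mix, LinearMap.coe_sum, Finset.sum_apply, LinearMap.smul_apply, smul_eq_mul]
theorem conv_dlt_one (Φ : Fn ι) : conv Φ (dlt 1) = Φ := by
  refine LinearMap.ext fun F => ?_
  simp only [conv_apply, dlt_apply, mul_one]
theorem convF_one (Φ : Fin 1 → Fn ι) : convF 1 Φ = Φ 0 := conv_dlt_one _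

theorem isP_dlt {g : ι → ℝ} (h : Cube g) : IsP (dlt g) := ⟨rfl, fun _ hF => hF g h⟩
theorem IsP.conv {Φ Ψ : Fn ι} (h : IsP Φ) (h' : IsP Ψ) : IsP (conv Φ Ψ) := by
  refine ⟨?_, fun F hF => h.2 _ fun g hg => h'.2 _ fun g' hg' => hF _ (law_cube_mul hg hg')⟩
  rw [conv_apply]
  simp only [h'.1, h.1]
theorem isP_convF (c : ℕ) {Φ : Fin c → Fn ι} (h : ∀ b, IsP (Φ b)) : IsP (convF c Φ) := by
  induction c with
  | zero => exact isP_dlt law_cube_one
  | succ c ih => exact (h 0).conv (ih fun b => h b.succ)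
theorem isP_mix {p : S → ℝ} (hp : IsPr p) {Φ : S → Fn ι} (h : ∀ t, IsP (Φ t)) :
    IsP (mix p Φ) := by
  refine ⟨?_, fun F hF => ?_⟩
  · rw [mix_apply]
    simp only [fun t => (h t).1, mul_one, hp.2]
  · rw [mix_apply]
    exact Finset.sum_nonneg fun t _ => mul_nonneg (hp.1 t) ((h t).2 F hF)
theorem IsK.isPr {κ : S → S → ℝ} (h : IsK κ) (s : S) : IsPr (κ s) := ⟨h.1 s, h.2 s⟩
theorem isP_law {κ : ℕ → S → S → ℝ} (hκ : ∀ d, IsK (κ d)) {γ : Λ → S → ι → ℝ}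
    (hγ : ∀ l s, Cube (γ l s)) (d : ℕ) (τ : Tr Λ n d) (s : S) : IsP (law κ γ d τ s) := by
  induction d generalizing s with
  | zero => exact isP_dlt (hγ _ _)
  | succ d ih => exact isP_convF _ fun b => isP_mix ((hκ d).isPr s) fun t => ih _ t
theorem cube_ind {N : ℕ} (σ : S → Fin N → Bool) (b : Bool) (s : S) : Cube (ind σ b s) := fun i => by
  unfold ind
  split_ifs <;> simp

theorem IsP.const {Φ : Fn ι} (h : IsP Φ) (c : ℝ) : Φ (fun _ => c) = c := by
  have := law_mul Φ c fun _ => 1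
  rwa [h.1, mul_one] at this
theorem IsP.mono {Φ : Fn ι} (h : IsP Φ) {F G : (ι → ℝ) → ℝ} (hFG : ∀ g, Cube g → F g ≤ G g) :
    Φ F ≤ Φ G := by
  have := h.2 (fun g => G g - F g) fun g hg => sub_nonneg.2 (hFG g hg)
  rwa [law_sub, sub_nonneg] at this
theorem IsP.abs_le {Φ : Fn ι} (h : IsP Φ) {F : (ι → ℝ) → ℝ} {B : ℝ}
    (hF : ∀ g, Cube g → |F g| ≤ B) : |Φ F| ≤ B := by
  refine _root_.abs_le.2 ⟨?_, ?_⟩
  · rw [← h.const (-B)]
    exact h.mono fun g hg => (_root_.abs_le.1 (hF g hg)).1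
  · rw [← h.const B]
    exact h.mono fun g hg => (_root_.abs_le.1 (hF g hg)).2
lemma IsP.law_var {Φ : Fn ι} (h : IsP Φ) (F : (ι → ℝ) → ℝ) :
    Φ (fun g => (F g - Φ F) ^ 2) = Var Φ F := by
  have e : (fun g => (F g - Φ F) ^ 2) = fun g => F g ^ 2 - 2 * Φ F * F g + Φ F ^ 2 :=
    funext fun g => by ring
  rw [e, law_add, law_sub, law_mul, h.const, Var]
  ring
theorem IsP.sq_le {Φ : Fn ι} (h : IsP Φ) (F : (ι → ℝ) → ℝ) :
    Φ F ^ 2 ≤ Φ (fun g => F g ^ 2) := by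
  have := h.2 (fun g => (F g - Φ F) ^ 2) fun g _ => sq_nonneg _
  rwa [h.law_var, Var, sub_nonneg] at this
theorem IsP.var_nonneg {Φ : Fn ι} (h : IsP Φ) (F : (ι → ℝ) → ℝ) : 0 ≤ Var Φ F := sub_nonneg.2 (h.sq_le F)
theorem IsP.cube_mean {Φ : Fn ι} (h : IsP Φ) : Cube (mean Φ) := fun i => h.abs_le fun _ hg => hg i

lemma law_convF_char (χ : (ι → ℝ) → ℝ) (h1 : χ 1 = 1) (hmul : ∀ g g', χ (g * g') = χ g * χ g')
    (c : ℕ) (Φ : Fin c → Fn ι) : convF c Φ χ = ∏ b, Φ b χ := by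
  induction c with
  | zero => simpa [convF, dlt_apply] using h1
  | succ c ih =>
    rw [Fin.prod_univ_succ, ← ih, convF, conv_apply]
    simp only [hmul, law_mul]
    rw [mul_comm, ← law_mul]
    simp only [mul_comm]

/-- Multiplicative functions are evaluated by `ev`. -/
theorem law_char (κ : ℕ → S → S → ℝ) (γ : Λ → S → ι → ℝ) (χ : (ι → ℝ) → ℝ) (h1 : χ 1 = 1)
    (hmul : ∀ g g', χ (g * g') = χ g * χ g') (d : ℕ) (τ : Tr Λ n d) (s : S) :
    law κ γ d τ s χ = ev κ (fun l t => χ (γ l t)) d τ s := by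
  induction d generalizing s with
  | zero => rfl
  | succ d ih =>
    rw [law, law_convF_char χ h1 hmul]
    simp only [mix_apply, ih]
    rfl
theorem mean_law_ind {N : ℕ} (κ : ℕ → S → S → ℝ) (σ : S → Fin N → Bool) (d : ℕ)
    (τ : Tr Bool n d) (s : S) : mean (law κ (ind σ) d τ s) = Mv κ σ d τ s := funext fun i =>
  law_char κ (ind σ) (fun g => g i) rfl (fun _ _ => rfl) d τ s
lemma law_convF_comp (π : ι' → ι) (c : ℕ) {Φ : Fin c → Fn ι} {Φ' : Fin c → Fn ι'}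
    (h : ∀ b F, Φ b (fun g => F (fun i => g (π i))) = Φ' b F) (F : (ι' → ℝ) → ℝ) :
    convF c Φ (fun g => F (fun i => g (π i))) = convF c Φ' F := by
  induction c generalizing F with
  | zero => rfl
  | succ c ih =>
    rw [convF, convF, conv_apply, conv_apply, ← h]
    congr 1
    funext g
    exact ih (fun b => h b.succ) fun g' => F ((fun i => g (π i)) * g')
theorem law_comp (κ : ℕ → S → S → ℝ) (γ : Λ → S → ι → ℝ) (π : ι' → ι) (d : ℕ) (τ : Tr Λ n d)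
    (s : S) (F : (ι' → ℝ) → ℝ) :
    law κ γ d τ s (fun g => F (fun i => g (π i))) =
      law κ (fun l t i => γ l t (π i)) d τ s F := by
  induction d generalizing s F with
  | zero => rfl
  | succ d ih =>
    refine law_convF_comp π _ (fun b F => ?_) F
    simp only [mix_apply, ih]
theorem law_tmap (κ : ℕ → S → S → ℝ) (γ : Λ' → S → ι → ℝ) (φ : Λ → Λ') (d : ℕ) (τ : Tr Λ n d)
    (s : S) : law κ γ d (tmap φ d τ) s = law κ (fun l => γ (φ l)) d τ s := by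
  induction d generalizing s with
  | zero => rfl
  | succ d ih =>
    show convF (τ.ar.val + 1) (fun b => mix (κ d s) (law κ γ d (tmap φ d (τ.ch b)))) = _
    rw [law]
    congr 1
    funext b
    congr 1
    funext t
    exact ih _ t

section Var

variable [Fintype ι]

theorem apply_lin (Φ : Fn ι) (y : ι → ℝ) : Φ (lin y) = lin y (mean Φ) := by
  have e : lin y = fun g => (Fintype.card ι : ℝ)⁻¹ * ∑ i, y i * g i :=
    funext fun g => by rw [lin, avg, div_eq_inv_mul]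
  rw [e, law_mul, law_sum]
  simp only [law_mul, mean]
theorem abs_lin_le {y g : ι → ℝ} (hy : Cube y) (hg : Cube g) : |lin y g| ≤ 1 := 
  abs_avg_le zero_le_one (law_cube_mul hy hg)
theorem lin_sq_le {y : ι → ℝ} (hy : Cube y) (g : ι → ℝ) :
    lin y g ^ 2 ≤ avg (fun i => g i ^ 2) := by
  refine (avg_sq_le _).trans (avg_mono fun i => ?_)
  rw [mul_pow]
  exact mul_le_of_le_one_left (sq_nonneg _) (by rw [sq_le_one_iff_abs_le_one]; exact hy i)
lemma IsP.law_var_le_one {Φ : Fn ι} (h : IsP Φ) {y : ι → ℝ} (hy : Cube y) :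
    Var Φ (lin y) ≤ 1 := by
  have h1 : Φ (fun g => lin y g ^ 2) ≤ Φ fun _ => 1 :=
    h.mono fun g hg => by rw [sq_le_one_iff_abs_le_one]; exact abs_lin_le hy hg
  rw [h.1] at h1
  rw [Var]
  linarith [sq_nonneg (Φ (lin y))]
theorem IsP.var_le_Vs {Φ : Fn ι} (h : IsP Φ) {y : ι → ℝ} (hy : Cube y) :
    Var Φ (lin y) ≤ Vs Φ := 
  le_ciSup (f := fun y : {y : ι → ℝ // Cube y} => Var Φ (lin y.1))
    ⟨1, by rintro _ ⟨z, rfl⟩; exact h.law_var_le_one z.2⟩ ⟨y, hy⟩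
theorem Vs_le {Φ : Fn ι} {v : ℝ} (h : ∀ y, Cube y → Var Φ (lin y) ≤ v) : Vs Φ ≤ v := 
  haveI : Nonempty {y : ι → ℝ // Cube y} := ⟨⟨1, law_cube_one⟩⟩
  ciSup_le fun y => h y.1 y.2
theorem IsP.Vs_nonneg {Φ : Fn ι} (h : IsP Φ) : 0 ≤ Vs Φ := 
  (h.var_nonneg _).trans (h.var_le_Vs law_cube_one)
theorem IsP.Vs_le_one {Φ : Fn ι} (h : IsP Φ) : Vs Φ ≤ 1 := Vs_le fun _ hy => h.law_var_le_one hy
theorem Vs_dlt (g : ι → ℝ) : Vs (dlt g) = 0 := by
  simp [Vs, Var, dlt_apply]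
theorem Vs_conv {Φ Ψ : Fn ι} (h : IsP Φ) (h' : IsP Ψ) : Vs (conv Φ Ψ) ≤ Vs Φ + Vs Ψ := by
  refine Vs_le fun y hy => ?_
  have e1 : ∀ g g' : ι → ℝ, lin y (g * g') = lin (y * g) g' := fun g g' => by
    simp only [lin, Pi.mul_apply, mul_assoc]
  have e2 : ∀ g : ι → ℝ, Ψ (lin (y * g)) = lin (y * mean Ψ) g := fun g => by
    rw [apply_lin]
    simp only [lin, Pi.mul_apply, mul_right_comm]
  have h1 : Φ (fun g => Var Ψ (lin (y * g))) ≤ Vs Ψ := by
    rw [← h.const (Vs Ψ)]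
    exact h.mono fun g hg => h'.var_le_Vs (law_cube_mul hy hg)
  have h2 := h.var_le_Vs (law_cube_mul hy h'.cube_mean)
  simp only [Var, law_sub, e2] at h1
  simp only [Var, conv_apply, e1, e2] at h2 ⊢
  linarith
theorem Vs_convF (c : ℕ) {Φ : Fin c → Fn ι} (h : ∀ b, IsP (Φ b)) :
    Vs (convF c Φ) ≤ ∑ b, Vs (Φ b) := by
  induction c with
  | zero => simp [convF, Vs_dlt]
  | succ c ih =>
    rw [Fin.sum_univ_succ]
    exact (Vs_conv (h 0) (isP_convF c fun b => h b.succ)).trans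
      (add_le_add le_rfl (ih fun b => h b.succ))
theorem mean_mix (p : S → ℝ) (Φ : S → Fn ι) (i : ι) :
    mean (mix p Φ) i = ∑ t, p t * mean (Φ t) i := mix_apply p Φ _
/-- Law of total variance. -/
theorem Var_mix (p : S → ℝ) (Φ : S → Fn ι) (F : (ι → ℝ) → ℝ) :
    Var (mix p Φ) F = ∑ t, p t * Var (Φ t) F +
      (∑ t, p t * Φ t F ^ 2 - (∑ t, p t * Φ t F) ^ 2) := by
  simp only [Var, mix_apply, mul_sub, Finset.sum_sub_distrib]
  ring
lemma law_bracket {p : S → ℝ} (hp : IsPr p) (a : S → ℝ) :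
    ∑ t, p t * a t ^ 2 - (∑ t, p t * a t) ^ 2 = ∑ t, p t * (a t - ∑ u, p u * a u) ^ 2 := by
  have e : ∀ t, p t * (a t - ∑ u, p u * a u) ^ 2 = p t * a t ^ 2 -
      2 * (∑ u, p u * a u) * (p t * a t) + p t * (∑ u, p u * a u) ^ 2 := fun t => by ring
  simp only [e]
  rw [Finset.sum_add_distrib, Finset.sum_sub_distrib, ← Finset.mul_sum, ← Finset.sum_mul, hp.2]
  ring
theorem Vs_mix {p : S → ℝ} (hp : IsPr p) {Φ : S → Fn ι} (h : ∀ t, IsP (Φ t)) :
    Vs (mix p Φ) ≤ ∑ t, p t * Vs (Φ t) +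
      (∑ t, p t * avg (fun i => mean (Φ t) i ^ 2) -
        avg (fun i => (∑ t, p t * mean (Φ t) i) ^ 2)) := by
  refine Vs_le fun y hy => ?_
  rw [Var_mix]
  refine add_le_add (Finset.sum_le_sum fun t _ =>
    mul_le_mul_of_nonneg_left ((h t).var_le_Vs hy) (hp.1 t)) ?_
  have e1 : ∀ t, Φ t (lin y) - ∑ u, p u * Φ u (lin y) =
      lin y (fun i => mean (Φ t) i - ∑ u, p u * mean (Φ u) i) := fun t => by
    simp only [apply_lin, lin, mul_sub, avg_sub, Finset.mul_sum, avg_sum, mul_left_comm (y _),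
      avg_mul_left]
  have e2 : ∑ t, p t * avg (fun i => mean (Φ t) i ^ 2) -
      avg (fun i => (∑ t, p t * mean (Φ t) i) ^ 2) =
      ∑ t, p t * avg (fun i => (mean (Φ t) i - ∑ u, p u * mean (Φ u) i) ^ 2) := by
    simp only [← avg_mul_left, ← avg_sum, ← avg_sub, law_bracket hp]
  rw [law_bracket hp, e2]
  refine Finset.sum_le_sum fun t _ => mul_le_mul_of_nonneg_left ?_ (hp.1 t)
  rw [e1]
  exact lin_sq_le hy _

end Var

/-- Concentration of each factor gives factorisation of the product. -/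
theorem IsP.prod_conc {Φ : Fn ι} (h : IsP Φ) {J : Type} [Fintype J] (R : J → (ι → ℝ) → ℝ)
    (hR : ∀ j g, Cube g → |R j g| ≤ 1) :
    |Φ (fun g => ∏ j, R j g) - ∏ j, Φ (R j)| ≤ ∑ j, Real.sqrt (Var Φ (R j)) := by
  classical
  have key : ∀ A : Finset J, |Φ (fun g => ∏ j ∈ A, R j g) - ∏ j ∈ A, Φ (R j)| ≤
      ∑ j ∈ A, Real.sqrt (Var Φ (R j)) := by
    intro A
    induction A using Finset.induction_on with
    | empty => simp [h.1]
    | insert j A hj ih =>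
      simp only [Finset.prod_insert hj, Finset.sum_insert hj]
      have hQ : ∀ g, Cube g → |∏ j ∈ A, R j g| ≤ 1 := fun g hg => by
        rw [Finset.abs_prod]
        exact Finset.prod_le_one (fun _ _ => abs_nonneg _) fun k _ => hR k g hg
      have h1 : |Φ (fun g => (R j g - Φ (R j)) * ∏ j ∈ A, R j g)| ≤ Real.sqrt (Var Φ (R j)) := by
        refine Real.abs_le_sqrt ((h.sq_le _).trans ?_)
        rw [← h.law_var]
        refine h.mono fun g hg => ?_
        rw [mul_pow]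
        exact mul_le_of_le_one_right (sq_nonneg _)
          (by rw [sq_le_one_iff_abs_le_one]; exact hQ g hg)
      simp only [sub_mul, law_sub, law_mul] at h1
      have h2 : |Φ (R j) * (Φ (fun g => ∏ j ∈ A, R j g) - ∏ j ∈ A, Φ (R j))| ≤
          ∑ j ∈ A, Real.sqrt (Var Φ (R j)) := by
        rw [abs_mul]
        exact (mul_le_of_le_one_left (abs_nonneg _) (h.abs_le (hR j))).trans ih
      refine le_trans (le_of_eq ?_) ((abs_add_le _ _).trans (add_le_add h1 h2))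
      congr 1
      ring
  exact key Finset.univ

end Vale.Agent.P168
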