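import Vale.Agent.P168MP.Casc

/-! One step of the recursion acting on first and second differences. -/

namespace Vale.Agent.P168

open Finset

noncomputable def step {S : Type} [Fintype S] (κ : S → S → ℝ) (m : ℝ) (f : S → ℝ) (s : S) : ℝ :=
  m⁻¹ * Real.log (Ex κ (fun t => Real.exp (m * f t)) s)

theorem Rec_succ_step {S : Type} [Fintype S] (κ : ℕ → S → S → ℝ) (μ : ℕ → ℝ) (L : S → ℝ)
    (d : ℕ) : Rec κ μ L (d + 1) = step (κ d) (μ d) (Rec κ μ L d) := rfl

section Aux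

private theorem tl_exp1 {x : ℝ} (hx : |x| ≤ 6) : |Real.exp x - 1| ≤ Real.exp 6 * |x| := by
  have hK : 1 ≤ Real.exp 6 := Real.one_le_exp (by norm_num)
  rcases le_total 0 x with h | h
  · rw [abs_of_nonneg h] at hx ⊢
    have h1 : 1 ≤ Real.exp x := Real.one_le_exp h
    have h2 := Real.add_one_le_exp (-x)
    have h3 : Real.exp x * Real.exp (-x) = 1 := by rw [← Real.exp_add]; simp
    have h4 : Real.exp x ≤ Real.exp 6 := Real.exp_le_exp.2 hx
    rw [abs_of_nonneg (by linarith)]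
    nlinarith
  · rw [abs_of_nonpos h] at hx ⊢
    have h1 : Real.exp x ≤ 1 := Real.exp_le_one_iff.2 h
    have h2 := Real.add_one_le_exp x
    rw [abs_of_nonpos (by linarith)]
    nlinarith

private theorem tl_exp2 {x : ℝ} (hx : |x| ≤ 2) : Real.exp x ≤ 1 + x + 2 * x ^ 2 := by
  have hy : |x / 2| ≤ 1 := by rw [abs_div, abs_two]; linarith
  have h1 := Real.abs_exp_sub_one_le hy
  have h2 := Real.abs_exp_sub_one_sub_id_le hy
  have h3 : Real.exp x = Real.exp (x / 2) * Real.exp (x / 2) := by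
    rw [← Real.exp_add]; ring_nf
  have h4 : (Real.exp (x / 2) - 1) ^ 2 ≤ (2 * |x / 2|) ^ 2 := by
    rw [← sq_abs]; exact pow_le_pow_left₀ (abs_nonneg _) h1 2
  rw [mul_pow, sq_abs] at h4
  have h5 := (abs_le.1 h2).2
  nlinarith [sq_nonneg x]

variable {S : Type} [Fintype S]

private noncomputable def tl (κ : S → S → ℝ) (f : S → ℝ) : S → S → ℝ :=
  fun s t => κ s t * Real.exp (f t) / Ex κ (fun t => Real.exp (f t)) s

private theorem tl_Ex (κ : S → S → ℝ) (f g : S → ℝ) (s : S) :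
    Ex (tl κ f) g s =
      Ex κ (fun t => Real.exp (f t) * g t) s / Ex κ (fun t => Real.exp (f t)) s := by
  simp only [Ex, tl, sum_div]
  exact sum_congr rfl fun t _ => by ring

private theorem tl_isK {κ : S → S → ℝ} (hκ : IsK κ) (f : S → ℝ) : IsK (tl κ f) := by
  have hZ : ∀ s, 0 < Ex κ (fun t => Real.exp (f t)) s := fun s =>
    hκ.Ex_pos (fun t => Real.exp_pos _) s
  refine ⟨fun s t => div_nonneg (mul_nonneg (hκ.1 s t) (Real.exp_pos _).le) (hZ s).le,
    fun s => ?_⟩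
  simp only [tl, ← sum_div]
  exact div_self (hZ s).ne'

private theorem tl_bounds {κ : S → S → ℝ} (hκ : IsK κ) {f : S → ℝ} {β : ℝ}
    (hf : ∀ t, |f t| ≤ β) (s : S) :
    Real.exp (-β) ≤ Ex κ (fun t => Real.exp (f t)) s ∧
      Ex κ (fun t => Real.exp (f t)) s ≤ Real.exp β := by
  constructor
  · rw [← hκ.Ex_const (Real.exp (-β)) s]
    exact hκ.Ex_mono (fun t => Real.exp_le_exp.2 (abs_le.1 (hf t)).1) s
  · rw [← hκ.Ex_const (Real.exp β) s]
    exact hκ.Ex_mono (fun t => Real.exp_le_exp.2 (abs_le.1 (hf t)).2) s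

private theorem tl_cmp {κ : S → S → ℝ} (hκ : IsK κ) {f : S → ℝ} {β : ℝ}
    (hf : ∀ t, |f t| ≤ β) (hβ : β ≤ 3) (g : S → ℝ) (s : S) :
    |Ex (tl κ f) g s - Ex κ g s| ≤ 2 * Real.exp 6 * β * Ex κ (fun t => |g t|) s := by
  obtain ⟨h1, h2⟩ := tl_bounds hκ hf s
  set Z := Ex κ (fun t => Real.exp (f t)) s with hZ
  have hZ0 : 0 < Z := (Real.exp_pos _).trans_le h1
  have hl1 : -β ≤ Real.log Z := (Real.le_log_iff_exp_le hZ0).2 h1
  have hl2 : Real.log Z ≤ β := (Real.log_le_iff_le_exp hZ0).2 h2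
  have e : Ex (tl κ f) g s - Ex κ g s =
      Ex κ (fun t => (Real.exp (f t - Real.log Z) - 1) * g t) s := by
    rw [tl_Ex, ← hZ, div_eq_mul_inv, ← Ex_mul_right, ← Ex_sub]
    congr 1
    funext t
    rw [Real.exp_sub, Real.exp_log hZ0]
    ring
  rw [e, ← Ex_mul_left]
  refine (hκ.abs_Ex_le_Ex_abs _ s).trans (hκ.Ex_mono (fun t => ?_) s)
  have h3 : |f t - Real.log Z| ≤ 2 * β := by
    have := abs_le.1 (hf t)
    rw [abs_le]; constructor <;> linarith
  have h4 := tl_exp1 (x := f t - Real.log Z) (by linarith)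
  rw [abs_mul]
  refine mul_le_mul_of_nonneg_right (h4.trans ?_) (abs_nonneg _)
  nlinarith [Real.exp_pos 6]

private theorem tl_step {κ : S → S → ℝ} (hκ : IsK κ) (m : ℝ) (x y : S → ℝ) (s : S) :
    step κ m y s - step κ m x s =
      m⁻¹ * Real.log (Ex (tl κ (fun t => m * x t)) (fun t => Real.exp (m * (y t - x t))) s) := by
  rw [tl_Ex, step, step, ← mul_sub]
  have e : (fun t => Real.exp (m * x t) * Real.exp (m * (y t - x t))) =
      fun t => Real.exp (m * y t) := funext fun t => by rw [← Real.exp_add]; ring_nf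
  rw [e, Real.log_div (hκ.Ex_pos (fun t => Real.exp_pos _) s).ne'
    (hκ.Ex_pos (fun t => Real.exp_pos _) s).ne']

private theorem tl_jensen {κ : S → S → ℝ} (hκ : IsK κ) {m : ℝ} (hm : 0 < m) (hm1 : m ≤ 1)
    {X : S → ℝ} (hX : ∀ t, |X t| ≤ 2) (s : S) :
    |m⁻¹ * Real.log (Ex κ (fun t => Real.exp (m * X t)) s) - Ex κ X s| ≤
      2 * Ex κ (fun t => X t ^ 2) s := by
  set Z := Ex κ (fun t => Real.exp (m * X t)) s with hZ
  have hZ0 : 0 < Z := hκ.Ex_pos (fun t => Real.exp_pos _) s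
  set a := Ex κ X s with ha
  set q := Ex κ (fun t => X t ^ 2) s with hq
  have hq0 : 0 ≤ q := hκ.Ex_nonneg (fun t => sq_nonneg _) s
  have h1 : m * a ≤ Real.log Z := by
    rw [Real.le_log_iff_exp_le hZ0]
    have : Ex κ (fun t => Real.exp (m * a) * (m * X t) + Real.exp (m * a) * (1 - m * a)) s ≤ Z :=
      hκ.Ex_mono (fun t => by
        have h := Real.add_one_le_exp (m * X t - m * a)
        have e : Real.exp (m * X t) = Real.exp (m * a) * Real.exp (m * X t - m * a) := by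
          rw [← Real.exp_add]; ring_nf
        rw [e]
        nlinarith [Real.exp_pos (m * a)]) s
    rw [Ex_add, Ex_mul_left, Ex_mul_left, hκ.Ex_const, ← ha] at this
    linarith
  have h2 : Real.log Z ≤ m * a + 2 * m ^ 2 * q := by
    have h3 : Z ≤ Ex κ (fun t => 1 + m * X t + 2 * m ^ 2 * X t ^ 2) s :=
      hκ.Ex_mono (fun t => by
        have := tl_exp2 (x := m * X t) (by
          rw [abs_mul, abs_of_pos hm]
          nlinarith [hX t, abs_nonneg (X t)])
        nlinarith) s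
    rw [Ex_add, Ex_add, Ex_mul_left, Ex_mul_left, hκ.Ex_const, ← ha, ← hq] at h3
    have := Real.log_le_sub_one_of_pos hZ0
    linarith
  have e : m⁻¹ * Real.log Z - a = (Real.log Z - m * a) / m := by field_simp
  rw [e, abs_div, abs_of_pos hm, div_le_iff₀ hm, abs_of_nonneg (by linarith)]
  nlinarith [mul_nonneg hm.le hq0]

private theorem tl_first {κ : S → S → ℝ} (hκ : IsK κ) {m η H : ℝ} (hm : 0 < m) (hm1 : m ≤ 1)
    (hH : 0 ≤ H) (hHη : H ≤ η) (hη : η ≤ 1) {x y : S → ℝ} (hx : ∀ t, |x t| ≤ η)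
    (hd : ∀ t, |y t - x t| ≤ H) (s : S) :
    |step κ m y s - step κ m x s - Ex κ (fun t => y t - x t) s| ≤
      (2 + 2 * Real.exp 6) * η * H := by
  have hmx : ∀ t, |m * x t| ≤ η := fun t => by
    rw [abs_mul, abs_of_pos hm]
    nlinarith [hx t, abs_nonneg (x t)]
  have hK := tl_isK hκ (fun t => m * x t)
  have h1 := tl_jensen hK hm hm1 (X := fun t => y t - x t) (fun t => by linarith [hd t]) s
  have h2 := tl_cmp hκ hmx (by linarith) (fun t => y t - x t) s
  have h3 : Ex (tl κ fun t => m * x t) (fun t => (y t - x t) ^ 2) s ≤ η * H := by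
    rw [← hK.Ex_const (η * H) s]
    refine hK.Ex_mono (fun t => ?_) s
    rw [← sq_abs]
    nlinarith [hd t, abs_nonneg (y t - x t)]
  have h4 : Ex κ (fun t => |y t - x t|) s ≤ H := by
    rw [← hκ.Ex_const H s]; exact hκ.Ex_mono hd s
  have h5 : 2 * Real.exp 6 * η * Ex κ (fun t => |y t - x t|) s ≤ 2 * Real.exp 6 * η * H :=
    mul_le_mul_of_nonneg_left h4 (by have := Real.exp_pos 6; have : 0 ≤ η := hH.trans hHη; positivity)
  rw [tl_step hκ]
  have := abs_le.1 h1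
  have := abs_le.1 h2
  rw [abs_le]
  constructor <;> nlinarith

private theorem tl_part1 {κ : S → S → ℝ} (hκ : IsK κ) {m η H : ℝ} (hm : 0 < m) (hm1 : m ≤ 1)
    (hH : 0 ≤ H) (hHη : H ≤ η) (hη : η ≤ 1) {x y : S → ℝ} (hx : ∀ t, |x t| ≤ 3 * η)
    (hd : ∀ t, |y t - x t| ≤ 2 * H) (s : S) :
    |step κ m y s - step κ m x s - Ex κ (fun t => y t - x t) s| ≤
      (4 + 30 * Real.exp 6) * η * Ex κ (fun t => |y t - x t|) s := by
  have hmx : ∀ t, |m * x t| ≤ 3 * η := fun t => by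
    rw [abs_mul, abs_of_pos hm]
    nlinarith [hx t, abs_nonneg (x t)]
  have hη0 : 0 ≤ η := hH.trans hHη
  have hK := tl_isK hκ (fun t => m * x t)
  have h1 := tl_jensen hK hm hm1 (X := fun t => y t - x t) (fun t => by linarith [hd t]) s
  have h2 := tl_cmp hκ hmx (by linarith) (fun t => y t - x t) s
  have h2' := tl_cmp hκ hmx (by linarith) (fun t => |y t - x t|) s
  simp only [abs_abs] at h2'
  have h3 : Ex (tl κ fun t => m * x t) (fun t => (y t - x t) ^ 2) s ≤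
      2 * η * Ex (tl κ fun t => m * x t) (fun t => |y t - x t|) s := by
    rw [← Ex_mul_left]
    refine hK.Ex_mono (fun t => ?_) s
    rw [← sq_abs]
    nlinarith [hd t, abs_nonneg (y t - x t)]
  set A := Ex κ (fun t => |y t - x t|) s with hA
  have hA0 : 0 ≤ A := hκ.Ex_nonneg (fun t => abs_nonneg _) s
  have hKA : 0 ≤ Real.exp 6 * A := mul_nonneg (Real.exp_pos 6).le hA0
  have h4 : Ex (tl κ fun t => m * x t) (fun t => |y t - x t|) s ≤ A + 6 * (Real.exp 6 * A) := by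
    have := (abs_le.1 h2').2
    nlinarith
  have h5 := mul_le_mul_of_nonneg_left h4 (by positivity : 0 ≤ 2 * η)
  rw [tl_step hκ]
  have := abs_le.1 h1
  have := abs_le.1 h2
  rw [abs_le]
  constructor <;> nlinarith

private theorem tl_log {a b c v e K : ℝ} (hK : 1 ≤ K) (he : 0 ≤ e) (he1 : e ≤ 1) (ha : 0 < a)
    (hb : 0 < b) (hc : 0 < c) (hab : 1 ≤ K * (a * b)) (hcab : a * b ≤ K * c)
    (hv : c = a * b + v) (hv1 : |v| ≤ 8 * e ^ 2) (h1 : |a * b - 1| ≤ 8 * e) :
    |Real.log c - Real.log a - Real.log b - v| ≤ 128 * K ^ 3 * e ^ 3 := by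
  have hp : 0 < a * b := mul_pos ha hb
  set w := v / (a * b) with hw
  have hw1 : 1 + w = c / (a * b) := by rw [hw, hv]; field_simp
  have hw0 : 0 < 1 + w := by rw [hw1]; positivity
  have e1 : Real.log c - Real.log a - Real.log b = Real.log (1 + w) := by
    rw [hw1, Real.log_div hc.ne' hp.ne', Real.log_mul ha.ne' hb.ne']; ring
  have hi : (a * b)⁻¹ ≤ K := by
    rw [inv_le_iff_one_le_mul₀ hp]; linarith
  have hi2 : (1 + w)⁻¹ ≤ K := by
    rw [hw1, inv_div, div_le_iff₀ hc]; exact hcab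
  have hwb : |w| ≤ K * (8 * e ^ 2) := by
    rw [hw, div_eq_mul_inv, abs_mul, abs_of_pos (inv_pos.2 hp), mul_comm]
    exact mul_le_mul hi hv1 (abs_nonneg _) (by linarith)
  have hu : Real.log (1 + w) ≤ w := by
    have := Real.log_le_sub_one_of_pos hw0
    linarith
  have hl : w - w ^ 2 * (1 + w)⁻¹ ≤ Real.log (1 + w) := by
    have h := Real.one_sub_inv_le_log_of_pos hw0
    have : w - w ^ 2 * (1 + w)⁻¹ = 1 - (1 + w)⁻¹ := by field_simp; ring
    linarith
  have hw2 : w ^ 2 ≤ (K * (8 * e ^ 2)) ^ 2 := by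
    rw [← sq_abs]; exact pow_le_pow_left₀ (abs_nonneg _) hwb 2
  have h2 : w ^ 2 * (1 + w)⁻¹ ≤ 64 * K ^ 3 * e ^ 3 := by
    have h3 : w ^ 2 * (1 + w)⁻¹ ≤ (K * (8 * e ^ 2)) ^ 2 * K :=
      mul_le_mul hw2 hi2 (inv_pos.2 hw0).le (sq_nonneg _)
    have h4 : e ^ 4 ≤ e ^ 3 := pow_le_pow_of_le_one he he1 (by norm_num)
    have h5 : 0 ≤ K ^ 3 := by positivity
    nlinarith
  have h6 : |w - v| ≤ 64 * K ^ 3 * e ^ 3 := by
    have e2 : w - v = v * (a * b)⁻¹ * (1 - a * b) := by rw [hw]; field_simp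
    rw [e2, abs_mul, abs_mul, abs_of_pos (inv_pos.2 hp), abs_sub_comm]
    have h7 : |v| * (a * b)⁻¹ ≤ 8 * e ^ 2 * K :=
      mul_le_mul hv1 hi (inv_pos.2 hp).le (by positivity)
    have h8 : |v| * (a * b)⁻¹ * |a * b - 1| ≤ 8 * e ^ 2 * K * (8 * e) :=
      mul_le_mul h7 h1 (abs_nonneg _) (by positivity)
    have h9 : K ≤ K ^ 3 := le_self_pow₀ hK (by norm_num)
    have h10 : 0 ≤ e ^ 3 := by positivity
    nlinarith
  rw [e1]
  have := abs_le.1 h6
  rw [abs_le]
  constructor <;> nlinarith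

private theorem tl_mul {p q p' q' e r : ℝ} (hp : |p| ≤ 2 * e) (hq' : |q'| ≤ e)
    (h1 : |p - p'| ≤ r) (h2 : |q - q'| ≤ r) : |p * q - p' * q'| ≤ 3 * e * r := by
  have e1 : p * q - p' * q' = p * (q - q') + (p - p') * q' := by ring
  have he : 0 ≤ e := (abs_nonneg _).trans hq'
  have hr : 0 ≤ r := (abs_nonneg _).trans h1
  rw [e1]
  refine (abs_add_le _ _).trans ?_
  rw [abs_mul, abs_mul]
  have := mul_le_mul hp h2 (abs_nonneg _) (by linarith)
  have := mul_le_mul h1 hq' (abs_nonneg _) hr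
  nlinarith

private theorem tl_real {a b c P D D' e : ℝ} (he : 0 ≤ e) (he1 : e ≤ 1)
    (a1 : Real.exp (-1) ≤ a) (a2 : a ≤ Real.exp 1) (b1 : Real.exp (-1) ≤ b) (b2 : b ≤ Real.exp 1)
    (c1 : Real.exp (-2) ≤ c) (ha1 : |a - 1| ≤ 2 * e) (hb1 : |b - 1| ≤ 2 * e)
    (hc1 : |c - a - b + 1| ≤ 4 * e ^ 2) (m1 : |c - a - b + 1 - P| ≤ 3 * e * e ^ 2)
    (m2 : |(a - 1) * (b - 1) - D * D'| ≤ 3 * e * e ^ 2) :
    |Real.log c - Real.log a - Real.log b - (P - D * D')| ≤
      (128 * Real.exp 6 ^ 3 + 6) * e ^ 3 := by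
  have hK : 1 ≤ Real.exp 6 := Real.one_le_exp (by norm_num)
  have hab1 : |(a - 1) * (b - 1)| ≤ 4 * e ^ 2 := by
    rw [abs_mul]
    have := mul_le_mul ha1 hb1 (abs_nonneg _) (by linarith)
    linarith
  have ha0 : 0 < a := (Real.exp_pos _).trans_le a1
  have hb0 : 0 < b := (Real.exp_pos _).trans_le b1
  have hc0 : 0 < c := (Real.exp_pos _).trans_le c1
  have k1 : 1 ≤ Real.exp 6 * (a * b) := by
    have h1 : Real.exp (-1) * Real.exp (-1) ≤ a * b :=
      mul_le_mul a1 b1 (Real.exp_pos _).le ha0.le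
    have h2 : 1 ≤ Real.exp 6 * (Real.exp (-1) * Real.exp (-1)) := by
      rw [← Real.exp_add, ← Real.exp_add]; exact Real.one_le_exp (by norm_num)
    exact h2.trans (mul_le_mul_of_nonneg_left h1 (Real.exp_pos 6).le)
  have k2 : a * b ≤ Real.exp 6 * c := by
    have h1 : a * b ≤ Real.exp 1 * Real.exp 1 := mul_le_mul a2 b2 hb0.le (Real.exp_pos _).le
    have h2 : Real.exp 1 * Real.exp 1 ≤ Real.exp 6 * Real.exp (-2) := by
      rw [← Real.exp_add, ← Real.exp_add]; exact Real.exp_le_exp.2 (by norm_num)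
    exact (h1.trans h2).trans (mul_le_mul_of_nonneg_left c1 (Real.exp_pos 6).le)
  have e0 : (a - 1) * (b - 1) = a * b - a - b + 1 := by ring
  have hee : e ^ 2 ≤ e := by nlinarith
  rw [e0] at hab1 m2
  have key := tl_log (v := c - a * b) hK he he1 ha0 hb0 hc0 k1 k2 (by ring) (by
      have := abs_le.1 hc1
      have := abs_le.1 hab1
      rw [abs_le]; constructor <;> linarith) (by
      have := abs_le.1 ha1
      have := abs_le.1 hb1
      have := abs_le.1 hab1
      rw [abs_le]; constructor <;> linarith)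
  have := abs_le.1 key
  have := abs_le.1 m1
  have := abs_le.1 m2
  rw [abs_le]
  constructor <;> linarith

private theorem tl_cov {κ : S → S → ℝ} (hκ : IsK κ) {e : ℝ} (he : 0 ≤ e) (he1 : e ≤ 1)
    {d d' : S → ℝ} (hd : ∀ t, |d t| ≤ e) (hd' : ∀ t, |d' t| ≤ e) (s : S) :
    |Real.log (Ex κ (fun t => Real.exp (d t + d' t)) s) -
        Real.log (Ex κ (fun t => Real.exp (d t)) s) -
        Real.log (Ex κ (fun t => Real.exp (d' t)) s) -
        (Ex κ (fun t => d t * d' t) s - Ex κ d s * Ex κ d' s)| ≤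
      (128 * Real.exp 6 ^ 3 + 6) * e ^ 3 := by
  have u1 : ∀ x : ℝ, |x| ≤ e → |Real.exp x - 1| ≤ 2 * e := fun x hx =>
    (Real.abs_exp_sub_one_le (hx.trans he1)).trans (by linarith)
  have u2 : ∀ x : ℝ, |x| ≤ e → |Real.exp x - 1 - x| ≤ e ^ 2 := fun x hx =>
    (Real.abs_exp_sub_one_sub_id_le (hx.trans he1)).trans (by
      rw [← sq_abs]; exact pow_le_pow_left₀ (abs_nonneg _) hx 2)
  obtain ⟨a1, a2⟩ := tl_bounds hκ (β := 1) (fun t => (hd t).trans he1) s
  obtain ⟨b1, b2⟩ := tl_bounds hκ (β := 1) (fun t => (hd' t).trans he1) s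
  obtain ⟨c1, -⟩ := tl_bounds hκ (f := fun t => d t + d' t) (β := 2)
    (fun t => (abs_add_le _ _).trans (by linarith [hd t, hd' t])) s
  have ea : Ex κ (fun t => Real.exp (d t) - 1) s = Ex κ (fun t => Real.exp (d t)) s - 1 := by
    rw [Ex_sub, hκ.Ex_const]
  have eb : Ex κ (fun t => Real.exp (d' t) - 1) s = Ex κ (fun t => Real.exp (d' t)) s - 1 := by
    rw [Ex_sub, hκ.Ex_const]
  have ec : Ex κ (fun t => (Real.exp (d t) - 1) * (Real.exp (d' t) - 1)) s =
      Ex κ (fun t => Real.exp (d t + d' t)) s - Ex κ (fun t => Real.exp (d t)) s -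
        Ex κ (fun t => Real.exp (d' t)) s + 1 := by
    have : (fun t => (Real.exp (d t) - 1) * (Real.exp (d' t) - 1)) =
        fun t => Real.exp (d t + d' t) - Real.exp (d t) - Real.exp (d' t) + 1 :=
      funext fun t => by rw [Real.exp_add]; ring
    rw [this, Ex_add, Ex_sub, Ex_sub, hκ.Ex_const]
  have ha1 := hκ.abs_Ex_le (fun t => u1 _ (hd t)) s
  have hb1 := hκ.abs_Ex_le (fun t => u1 _ (hd' t)) s
  have hc1 := hκ.abs_Ex_le (f := fun t => (Real.exp (d t) - 1) * (Real.exp (d' t) - 1))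
    (B := 4 * e ^ 2) (fun t => by
      rw [abs_mul]
      have := mul_le_mul (u1 _ (hd t)) (u1 _ (hd' t)) (abs_nonneg _) (by linarith)
      linarith) s
  have m1 := hκ.abs_Ex_le
    (fun t => tl_mul (u1 _ (hd t)) (hd' t) (u2 _ (hd t)) (u2 _ (hd' t))) s
  have n1 := hκ.abs_Ex_le (fun t => u2 _ (hd t)) s
  have n2 := hκ.abs_Ex_le (fun t => u2 _ (hd' t)) s
  rw [Ex_sub, ec] at m1
  rw [Ex_sub, ea] at n1
  rw [Ex_sub, eb] at n2
  rw [ea] at ha1
  rw [eb] at hb1
  rw [ec] at hc1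
  exact tl_real he he1 a1 a2 b1 b2 c1 ha1 hb1 hc1 m1 (tl_mul ha1 (hκ.abs_Ex_le hd' s) n1 n2)

private theorem tl_part2 {κ : S → S → ℝ} (hκ : IsK κ) {m η H : ℝ} (hm : 0 < m) (hm1 : m ≤ 1)
    (hH : 0 ≤ H) (hHη : H ≤ η) (hη : η ≤ 1) {x y y' : S → ℝ} (hx : ∀ t, |x t| ≤ η)
    (hd : ∀ t, |y t - x t| ≤ H) (hd' : ∀ t, |y' t - x t| ≤ H) (s : S) :
    |step κ m (fun t => y t + y' t - x t) s - step κ m y s - step κ m y' s + step κ m x s -
        m * (Ex κ (fun t => (y t - x t) * (y' t - x t)) s -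
          Ex κ (fun t => y t - x t) s * Ex κ (fun t => y' t - x t) s)| ≤
      (128 * Real.exp 6 ^ 3 + 6 + 8 * Real.exp 6) * η * H ^ 2 := by
  have hmx : ∀ t, |m * x t| ≤ η := fun t => by
    rw [abs_mul, abs_of_pos hm]
    nlinarith [hx t, abs_nonneg (x t)]
  have hη0 : 0 ≤ η := hH.trans hHη
  have hK := tl_isK hκ (fun t => m * x t)
  set κ' := tl κ (fun t => m * x t) with hκ'
  have hmd : ∀ z : ℝ, |z| ≤ H → |m * z| ≤ m * H := fun z hz => by
    rw [abs_mul, abs_of_pos hm]; exact mul_le_mul_of_nonneg_left hz hm.le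
  have hmH : m * H ≤ 1 := by nlinarith
  have key := tl_cov hK (e := m * H) (by positivity) hmH (d := fun t => m * (y t - x t))
    (d' := fun t => m * (y' t - x t)) (fun t => hmd _ (hd t)) (fun t => hmd _ (hd' t)) s
  have s1 := tl_step hκ m x (fun t => y t + y' t - x t) s
  have s2 := tl_step hκ m x y s
  have s3 := tl_step hκ m x y' s
  rw [← hκ'] at s1 s2 s3
  have e1 : (fun t => Real.exp (m * (y t + y' t - x t - x t))) =
      fun t => Real.exp (m * (y t - x t) + m * (y' t - x t)) := funext fun t => by ring_nf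
  have e2 : (fun t => m * (y t - x t) * (m * (y' t - x t))) =
      fun t => m ^ 2 * ((y t - x t) * (y' t - x t)) := funext fun t => by ring
  rw [e1] at s1
  rw [e2, Ex_mul_left, Ex_mul_left, Ex_mul_left] at key
  have c1 := tl_cmp hκ hmx (by linarith) (fun t => (y t - x t) * (y' t - x t)) s
  have c2 := tl_cmp hκ hmx (by linarith) (fun t => y t - x t) s
  have c3 := tl_cmp hκ hmx (by linarith) (fun t => y' t - x t) s
  rw [← hκ'] at c1 c2 c3
  have hKη : 0 ≤ 2 * Real.exp 6 * η := by have := Real.exp_pos 6; positivity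
  have b1 : Ex κ (fun t => |(y t - x t) * (y' t - x t)|) s ≤ H ^ 2 := by
    rw [← hκ.Ex_const (H ^ 2) s]
    refine hκ.Ex_mono (fun t => ?_) s
    rw [abs_mul, sq]
    exact mul_le_mul (hd t) (hd' t) (abs_nonneg _) hH
  have b2 : Ex κ (fun t => |y t - x t|) s ≤ H := by
    rw [← hκ.Ex_const H s]; exact hκ.Ex_mono hd s
  have b3 : Ex κ (fun t => |y' t - x t|) s ≤ H := by
    rw [← hκ.Ex_const H s]; exact hκ.Ex_mono hd' s
  replace c1 := c1.trans (mul_le_mul_of_nonneg_left b1 hKη)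
  replace c2 := c2.trans (mul_le_mul_of_nonneg_left b2 hKη)
  replace c3 := c3.trans (mul_le_mul_of_nonneg_left b3 hKη)
  have c4 := tl_mul (e := H) ((hK.abs_Ex_le hd s).trans (by linarith)) (hκ.abs_Ex_le hd' s) c2 c3
  set L1 := Real.log (Ex κ' (fun t => Real.exp (m * (y t - x t) + m * (y' t - x t))) s)
  set L2 := Real.log (Ex κ' (fun t => Real.exp (m * (y t - x t))) s)
  set L3 := Real.log (Ex κ' (fun t => Real.exp (m * (y' t - x t))) s)
  set P' := Ex κ' (fun t => (y t - x t) * (y' t - x t)) s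
  set D' := Ex κ' (fun t => y t - x t) s
  set E' := Ex κ' (fun t => y' t - x t) s
  set P := Ex κ (fun t => (y t - x t) * (y' t - x t)) s
  set D := Ex κ (fun t => y t - x t) s
  set E := Ex κ (fun t => y' t - x t) s
  set K := Real.exp 6
  have hK0 : 0 < K := Real.exp_pos 6
  have e3 : step κ m (fun t => y t + y' t - x t) s - step κ m y s - step κ m y' s +
      step κ m x s - m * (P - D * E) =
      m⁻¹ * (L1 - L2 - L3 - (m ^ 2 * P' - m * D' * (m * E'))) +
        m * ((P' - P) - (D' * E' - D * E)) := by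
    have : step κ m (fun t => y t + y' t - x t) s - step κ m y s - step κ m y' s +
        step κ m x s = m⁻¹ * L1 - m⁻¹ * L2 - m⁻¹ * L3 := by linarith
    rw [this]
    field_simp
    ring
  rw [e3]
  refine (abs_add_le _ _).trans ?_
  rw [abs_mul, abs_mul, abs_of_pos hm, abs_of_pos (inv_pos.2 hm)]
  have f1 : m⁻¹ * |L1 - L2 - L3 - (m ^ 2 * P' - m * D' * (m * E'))| ≤
      (128 * K ^ 3 + 6) * η * H ^ 2 := by
    refine (mul_le_mul_of_nonneg_left key (inv_pos.2 hm).le).trans ?_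
    have e4 : m⁻¹ * ((128 * K ^ 3 + 6) * (m * H) ^ 3) =
        (128 * K ^ 3 + 6) * (m ^ 2 * H) * H ^ 2 := by field_simp
    rw [e4]
    have : m ^ 2 * H ≤ η := by nlinarith [pow_le_one₀ (n := 2) hm.le hm1]
    gcongr
  have f2 : |(P' - P) - (D' * E' - D * E)| ≤ 8 * K * η * H ^ 2 := by
    refine (abs_sub _ _).trans ?_
    nlinarith
  have f3 : m * |(P' - P) - (D' * E' - D * E)| ≤ 8 * K * η * H ^ 2 := by
    nlinarith [abs_nonneg ((P' - P) - (D' * E' - D * E))]
  nlinarith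

end Aux

theorem step_second : ∃ C : ℝ, 0 ≤ C ∧
    ∀ (S : Type) [Fintype S] (κ : S → S → ℝ) (m η H : ℝ) (x00 x10 x01 x11 : S → ℝ),
      IsK κ → 0 < m → m ≤ 1 → 0 ≤ H → H ≤ η → η ≤ 1 → (∀ t, |x00 t| ≤ η) →
      (∀ t, |x10 t - x00 t| ≤ H) → (∀ t, |x01 t - x00 t| ≤ H) → (∀ t, |x11 t - x01 t| ≤ H) →
      ∀ s,
        |step κ m x10 s - step κ m x00 s - Ex κ (fun t => x10 t - x00 t) s| ≤ C * η * H ∧
        |step κ m x01 s - step κ m x00 s - Ex κ (fun t => x01 t - x00 t) s| ≤ C * η * H ∧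
        |(step κ m x11 s - step κ m x10 s - step κ m x01 s + step κ m x00 s) -
            m * (Ex κ (fun t => (x10 t - x00 t) * (x01 t - x00 t)) s -
              Ex κ (fun t => x10 t - x00 t) s * Ex κ (fun t => x01 t - x00 t) s) -
            Ex κ (fun t => x11 t - x10 t - x01 t + x00 t) s| ≤
          C * η * (H ^ 2 + Ex κ (fun t => |x11 t - x10 t - x01 t + x00 t|) s) := by
  have hK := Real.exp_pos 6
  have hK3 : 0 < Real.exp 6 ^ 3 := by positivity
  refine ⟨128 * Real.exp 6 ^ 3 + 6 + 30 * Real.exp 6, by positivity, ?_⟩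
  intro S _ κ m η H x00 x10 x01 x11 hκ hm hm1 hH hHη hη h0 h10 h01 h11 s
  have hη0 : 0 ≤ η := hH.trans hHη
  have hηH : 0 ≤ η * H := mul_nonneg hη0 hH
  refine ⟨(tl_first hκ hm hm1 hH hHη hη h0 h10 s).trans (by nlinarith),
    (tl_first hκ hm hm1 hH hHη hη h0 h01 s).trans (by nlinarith), ?_⟩
  have p1 := tl_part1 hκ hm hm1 hH hHη hη (x := fun t => x10 t + x01 t - x00 t) (y := x11)
    (fun t => by
      have := abs_le.1 (h0 t)
      have := abs_le.1 (h10 t)
      have := abs_le.1 (h01 t)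
      rw [abs_le]; constructor <;> linarith)
    (fun t => by
      have := abs_le.1 (h11 t)
      have := abs_le.1 (h10 t)
      rw [abs_le]; constructor <;> linarith) s
  have p2 := tl_part2 hκ hm hm1 hH hHη hη h0 h10 h01 s
  have e1 : (fun t => x11 t - (x10 t + x01 t - x00 t)) =
      fun t => x11 t - x10 t - x01 t + x00 t := funext fun t => by ring
  have e2 : (fun t => |x11 t - (x10 t + x01 t - x00 t)|) =
      fun t => |x11 t - x10 t - x01 t + x00 t| := funext fun t => by ring_nf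
  rw [e1, e2] at p1
  have hA : 0 ≤ η * Ex κ (fun t => |x11 t - x10 t - x01 t + x00 t|) s :=
    mul_nonneg hη0 (hκ.Ex_nonneg (fun t => abs_nonneg _) s)
  have hB : 0 ≤ η * H ^ 2 := by positivity
  have := abs_le.1 p1
  have := abs_le.1 p2
  rw [abs_le]
  constructor <;> nlinarith [mul_nonneg hK.le hA, mul_nonneg hK3.le hA, mul_nonneg hK.le hB]

end Vale.Agent.P168
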