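import Mathlib

/-! Definitions used in the statement of the Mezard-Parisi formula (P168). -/

open MeasureTheory

namespace Vale.Agent.P168

/-- The value `±1` of a spin. -/
def spin (b : Bool) : ℝ := if b then 1 else -1

/-- Poisson probability of the value `n` for mean `γ`. -/
noncomputable def poi (γ : ℝ) (n : ℕ) : ℝ := Real.exp (-γ) * γ ^ n / (n.factorial : ℝ)

/-- Expectation under the uniform law on a finite type. -/
noncomputable def avg {ι : Type} [Fintype ι] (g : ι → ℝ) : ℝ :=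
  (∑ i, g i) / (Fintype.card ι : ℝ)

/-- Real functions on `{-1,1}^K`. -/
abbrev Cl (K : ℕ) : Type := (Fin K → Bool) → ℝ

/-- `log ∑_σ exp H(σ)` for `M` clauses `θ k` placed at the sites `i k j`, and fields `h v`. -/
noncomputable def logZ {K N M : ℕ} (θ : Fin M → Cl K) (i : Fin M → Fin K → Fin N)
    (h : Fin N → ℝ) : ℝ :=
  Real.log (∑ σ : Fin N → Bool,
    Real.exp (∑ k, θ k (fun j => σ (i k j)) + ∑ v, h v * spin (σ v)))

/-- The pressure `F_N`: Poisson number of clauses, i.i.d. copies of `θ` and of `h`,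
i.i.d. uniform indices, all independent. -/
noncomputable def pressure {Ω : Type*} [MeasurableSpace Ω] {K : ℕ} (P : Measure Ω)
    (θ : Ω → Cl K) (h : Ω → ℝ) (lam : ℝ) (N : ℕ) : ℝ :=
  (1 / (N : ℝ)) * ∑' M : ℕ, poi (lam * N) M *
    ∫ ω : Fin M → Ω, ∫ ω' : Fin N → Ω,
      avg (fun i : Fin M → Fin K → Fin N => logZ (fun k => θ (ω k)) i (fun v => h (ω' v)))
      ∂(Measure.pi fun _ => P) ∂(Measure.pi fun _ => P)

/-- `Y_0` as a function of the level-`0` variables: `Y_r = Y` and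
`Y_{p-1} = (E_p Y_p^{m_p})^{1/m_p}`, where `E_p` integrates the level-`p` variable. -/
noncomputable def Y0 {Λ : Type} [MeasureSpace Λ] :
    (r : ℕ) → (Fin r → ℝ) → ((Fin (r + 1) → Λ) → ℝ) → Λ → ℝ
  | 0, _, Y => fun u => Y (fun _ => u)
  | r + 1, m, Y => Y0 r (Fin.init m) (fun w : Fin (r + 1) → Λ =>
      (∫ η : Λ, Y (Fin.snoc (α := fun _ => Λ) w η) ^ m (Fin.last r)) ^ (1 / m (Fin.last r)))

/-- `E log Y_0` for `Y = F(messages)`; the message with index `j` is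
`x (w 0 j, …, w r j)` with i.i.d. uniform `w p j ∈ [0,1]`. -/
noncomputable def Tf {J : Type} [Fintype J] (r : ℕ) (m : Fin r → ℝ)
    (x : (Fin (r + 1) → unitInterval) → ℝ) (F : (J → ℝ) → ℝ) : ℝ :=
  ∫ u : J → unitInterval,
    Real.log (Y0 r m (fun w : Fin (r + 1) → J → unitInterval => F (fun j => x (fun p => w p j))) u)

/-- The variable `U` as a function of the messages `y (k, j)`. -/
noncomputable def Ufun {K M : ℕ} (h : ℝ) (θ : Fin M → Cl K) (l : Fin M → Fin K)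
    (y : Fin M × Fin K → ℝ) : ℝ :=
  ∑ ε : Bool, Real.exp (h * spin ε) *
    ∏ k, ∑ σ ∈ Finset.univ.filter (fun σ : Fin K → Bool => σ (l k) = ε),
      Real.exp (θ k σ) * ∏ j ∈ Finset.univ.erase (l k), (1 + y (k, j) * spin (σ j)) / 2

/-- The variable `V` as a function of the messages `y (k, j)`. -/
noncomputable def Vfun {K M : ℕ} (θ : Fin M → Cl K) (y : Fin M × Fin K → ℝ) : ℝ :=
  ∏ k, ∑ σ : Fin K → Bool, Real.exp (θ k σ) * ∏ j, (1 + y (k, j) * spin (σ j)) / 2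

/-- `𝒯U`. -/
noncomputable def TU {Ω : Type*} [MeasurableSpace Ω] {K : ℕ} (P : Measure Ω)
    (θ : Ω → Cl K) (h : Ω → ℝ) (lam : ℝ) (r : ℕ) (m : Fin r → ℝ)
    (x : (Fin (r + 1) → unitInterval) → ℝ) : ℝ :=
  ∑' M : ℕ, poi (K * lam) M *
    ∫ ω : Fin M → Ω, ∫ ω' : Ω,
      avg (fun l : Fin M → Fin K => Tf r m x (Ufun (h ω') (fun k => θ (ω k)) l))
      ∂P ∂(Measure.pi fun _ => P)

/-- `𝒯V`. -/
noncomputable def TV {Ω : Type*} [MeasurableSpace Ω] {K : ℕ} (P : Measure Ω)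
    (θ : Ω → Cl K) (lam : ℝ) (r : ℕ) (m : Fin r → ℝ) (x : (Fin (r + 1) → unitInterval) → ℝ) : ℝ :=
  ∑' M : ℕ, poi ((K - 1) * lam) M *
    ∫ ω : Fin M → Ω, Tf r m x (Vfun (fun k => θ (ω k))) ∂(Measure.pi fun _ => P)

/-- The values `𝒯U - 𝒯V` over all admissible `0 < m_1 < … < m_r < 1` and measurable
`x : [0,1]^{r+1} → [-1,1]`. -/
def trialValues {Ω : Type*} [MeasurableSpace Ω] {K : ℕ} (P : Measure Ω)
    (θ : Ω → Cl K) (h : Ω → ℝ) (lam : ℝ) (r : ℕ) : Set ℝ :=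
  {t | ∃ (m : Fin r → ℝ) (x : (Fin (r + 1) → unitInterval) → ℝ), StrictMono m ∧
    (∀ p, 0 < m p ∧ m p < 1) ∧ Measurable x ∧ (∀ w, |x w| ≤ 1) ∧
    t = TU P θ h lam r m x - TV P θ lam r m x}

/-- `Φ_r`. -/
noncomputable def Phi {Ω : Type*} [MeasurableSpace Ω] {K : ℕ} (P : Measure Ω)
    (θ : Ω → Cl K) (h : Ω → ℝ) (lam : ℝ) (r : ℕ) : ℝ :=
  sInf (trialValues P θ h lam r)

end Vale.Agent.P168
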