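import Vale.Agent.P168MP.BrDis

/-! Analytic helper lemmas for the discretisation of the disorder. -/

namespace Vale.Agent.P168

open Finset MeasureTheory Filter Topology

theorem dsc_round : ∃ rd : ℕ → ℝ → ℝ, (∀ n, Measurable (rd n)) ∧
    (∀ n, (Set.range (rd n)).Finite) ∧ (∀ x, Tendsto (fun n => rd n x) atTop (𝓝 x)) ∧
    ∀ n x, |rd n x| ≤ 2 * |x| := by
  refine ⟨fun n => SimpleFunc.approxOn (id : ℝ → ℝ) measurable_id Set.univ 0 (Set.mem_univ _) n,
    fun n => SimpleFunc.measurable _, fun n => SimpleFunc.finite_range _, fun x => ?_,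
    fun n x => ?_⟩
  · exact SimpleFunc.tendsto_approxOn (f := (id : ℝ → ℝ)) measurable_id (Set.mem_univ (0 : ℝ))
      (by simp)
  · have := SimpleFunc.norm_approxOn_zero_le (f := (id : ℝ → ℝ)) measurable_id
      (Set.mem_univ (0 : ℝ)) x n
    simp only [Real.norm_eq_abs, id] at this
    linarith

/-- Clamping to `[-1, 1]`. -/
noncomputable def dcl (y : ℝ) : ℝ := max (-1) (min 1 y)

theorem dcl_abs (y : ℝ) : |dcl y| ≤ 1 := by
  unfold dcl
  rw [abs_le]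
  exact ⟨le_max_left _ _, max_le (by norm_num) (min_le_left _ _)⟩

theorem dcl_eq {y : ℝ} (h : |y| ≤ 1) : dcl y = y := by
  unfold dcl
  rw [abs_le] at h
  rw [min_eq_right h.2, max_eq_right h.1]

theorem dcl_cont : Continuous dcl := by
  unfold dcl
  fun_prop

variable {K : ℕ}

/-- The product term. -/
noncomputable def dpr (ρ β : ℝ) (F : Fin K → Bool → ℝ) (s : Fin K → Bool) : ℝ :=
  ρ * β * ∏ j, F j (s j)

/-- The clause rebuilt from its value at the all-true configuration. -/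
noncomputable def dtr (ρ α β : ℝ) (F : Fin K → Bool → ℝ) : Cl K := fun s =>
  α + (Real.log (1 + dpr ρ β F s) - Real.log (1 + dpr ρ β F (fun _ => true)))

theorem dsc_prod_abs {F : Fin K → Bool → ℝ} (hF : ∀ j t, |F j t| ≤ 1) (s : Fin K → Bool) :
    |∏ j, F j (s j)| ≤ 1 := by
  rw [Finset.abs_prod]
  exact Finset.prod_le_one (fun _ _ => abs_nonneg _) (fun j _ => hF j _)

theorem dpr_abs {ρ β : ℝ} (hρ : 0 ≤ ρ) {F : Fin K → Bool → ℝ} (hF : ∀ j t, |F j t| ≤ 1)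
    (s : Fin K → Bool) : |dpr ρ β F s| ≤ ρ * |β| := by
  unfold dpr
  rw [abs_mul, abs_mul, abs_of_nonneg hρ]
  exact mul_le_of_le_one_right (by positivity) (dsc_prod_abs hF s)

theorem dpr_abs' {ρ β : ℝ} (hρ : 0 ≤ ρ) (hβ : |β| ≤ 1) {F : Fin K → Bool → ℝ}
    (hF : ∀ j t, |F j t| ≤ 1) (s : Fin K → Bool) : |dpr ρ β F s| ≤ ρ :=
  (dpr_abs hρ hF s).trans (mul_le_of_le_one_right hρ hβ)

theorem dtr_tendsto {ρn αn βn : ℕ → ℝ} {Fn : ℕ → Fin K → Bool → ℝ} {ρ α β : ℝ}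
    {F : Fin K → Bool → ℝ} (hρ : Tendsto ρn atTop (𝓝 ρ)) (hα : Tendsto αn atTop (𝓝 α))
    (hβ : Tendsto βn atTop (𝓝 β)) (hF : ∀ j t, Tendsto (fun n => Fn n j t) atTop (𝓝 (F j t)))
    (h : ∀ s, 1 + dpr ρ β F s ≠ 0) :
    Tendsto (fun n => dtr (ρn n) (αn n) (βn n) (Fn n)) atTop (𝓝 (dtr ρ α β F)) := by
  have h1 : ∀ s, Tendsto (fun n => Real.log (1 + dpr (ρn n) (βn n) (Fn n) s)) atTop
      (𝓝 (Real.log (1 + dpr ρ β F s))) := by
    intro s
    refine Tendsto.log (tendsto_const_nhds.add ?_) (h s)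
    exact (hρ.mul hβ).mul (tendsto_finsetProd _ (fun j _ => hF j (s j)))
  exact tendsto_pi_nhds.2 (fun s => hα.add ((h1 s).sub (h1 _)))

theorem dsc_log_le {ρ u v : ℝ} (h0 : 0 ≤ ρ) (h1 : ρ ≤ 1) (hv : -1 < v) (huv : v ≤ u) :
    0 ≤ Real.log (1 + ρ * u) - Real.log (1 + ρ * v) ∧
      Real.log (1 + ρ * u) - Real.log (1 + ρ * v) ≤ Real.log (1 + u) - Real.log (1 + v) := by
  have a1 : 0 < 1 + v := by linarith
  have a2 : 0 < 1 + u := by linarith
  have a3 : 0 < 1 + ρ * v := by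
    rcases le_total 0 v with h | h
    · positivity
    · nlinarith [mul_nonneg (sub_nonneg.2 h1) (neg_nonneg.2 h)]
  have a5 : ρ * v ≤ ρ * u := mul_le_mul_of_nonneg_left huv h0
  have a4 : 0 < 1 + ρ * u := by linarith
  constructor
  · have := Real.log_le_log a3 (by linarith : 1 + ρ * v ≤ 1 + ρ * u)
    linarith
  · have h2 : (1 + ρ * u) * (1 + v) ≤ (1 + u) * (1 + ρ * v) := by
      nlinarith [mul_nonneg (sub_nonneg.2 h1) (sub_nonneg.2 huv)]
    have h3 := Real.log_le_log (mul_pos a4 a1) h2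
    rw [Real.log_mul a4.ne' a1.ne', Real.log_mul a2.ne' a3.ne'] at h3
    linarith

theorem dsc_log_abs {ρ u v : ℝ} (h0 : 0 ≤ ρ) (h1 : ρ ≤ 1) (hu : -1 < u) (hv : -1 < v) :
    |Real.log (1 + ρ * u) - Real.log (1 + ρ * v)| ≤ |Real.log (1 + u) - Real.log (1 + v)| := by
  rcases le_total v u with h | h
  · obtain ⟨a, b⟩ := dsc_log_le h0 h1 hv h
    rw [abs_of_nonneg a]
    exact b.trans (le_abs_self _)
  · obtain ⟨a, b⟩ := dsc_log_le h0 h1 hu h
    rw [abs_sub_comm, abs_of_nonneg a, abs_sub_comm]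
    exact b.trans (le_abs_self _)

theorem dsc_log_bd {ρ u : ℝ} (h1 : ρ < 1) (hu : |u| ≤ ρ) : |Real.log (1 + u)| ≤ 1 / (1 - ρ) := by
  rw [abs_le] at hu
  have a0 : 0 < 1 - ρ := by linarith
  have a1 : 0 < 1 + u := by linarith
  have a2 : 1 ≤ 1 / (1 - ρ) := by
    rw [le_div_iff₀ a0]; linarith
  rw [abs_le]
  constructor
  · have h2 := Real.log_le_sub_one_of_pos (inv_pos.2 a1)
    rw [Real.log_inv] at h2
    have h3 : (1 + u)⁻¹ ≤ 1 / (1 - ρ) := by
      rw [one_div]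
      exact inv_anti₀ a0 (by linarith)
    linarith
  · have h2 := Real.log_le_sub_one_of_pos a1
    linarith

theorem dtr_norm {ρ α β : ℝ} (h0 : 0 ≤ ρ) (h1 : ρ < 1) (hβ : |β| ≤ 1) {F : Fin K → Bool → ℝ}
    (hF : ∀ j t, |F j t| ≤ 1) : ‖dtr ρ α β F‖ ≤ |α| + 2 * (1 / (1 - ρ)) := by
  have a0 : 0 < 1 - ρ := by linarith
  refine (pi_norm_le_iff_of_nonneg (by positivity)).2 (fun s => ?_)
  have b1 := dsc_log_bd h1 (dpr_abs' h0 hβ hF s)
  have b2 := dsc_log_bd h1 (dpr_abs' h0 hβ hF (fun _ => true))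
  rw [Real.norm_eq_abs]
  unfold dtr
  refine (abs_add_le _ _).trans ?_
  have := abs_sub (Real.log (1 + dpr ρ β F s)) (Real.log (1 + dpr ρ β F (fun _ => true)))
  linarith

theorem dtr_norm_one {ρ α β : ℝ} (h0 : 0 ≤ ρ) (h1 : ρ ≤ 1) (hβ : |β| < 1)
    {F : Fin K → Bool → ℝ} (hF : ∀ j t, |F j t| ≤ 1) :
    ‖dtr ρ α β F‖ ≤ 2 * |α| + ‖dtr 1 α β F‖ := by
  refine (pi_norm_le_iff_of_nonneg (by positivity)).2 (fun s => ?_)
  have hb : ∀ s, -1 < dpr 1 β F s := by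
    intro s
    have := dpr_abs (β := β) zero_le_one hF s
    rw [abs_le] at this
    linarith [this.1]
  have he : ∀ s, dpr ρ β F s = ρ * dpr 1 β F s := by
    intro s
    unfold dpr
    ring
  have b1 := dsc_log_abs h0 h1 (hb s) (hb (fun _ => true))
  have b2 : |dtr 1 α β F s| ≤ ‖dtr 1 α β F‖ := norm_le_pi_norm (dtr 1 α β F) s
  rw [Real.norm_eq_abs]
  have b3 : |Real.log (1 + dpr 1 β F s) - Real.log (1 + dpr 1 β F (fun _ => true))| ≤
      |dtr 1 α β F s| + |α| := by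
    have : Real.log (1 + dpr 1 β F s) - Real.log (1 + dpr 1 β F (fun _ => true)) =
        dtr 1 α β F s - α := by
      unfold dtr
      ring
    rw [this]
    exact abs_sub _ _
  have b4 : |dtr ρ α β F s| ≤ |α| +
      |Real.log (1 + ρ * dpr 1 β F s) - Real.log (1 + ρ * dpr 1 β F (fun _ => true))| := by
    unfold dtr
    rw [he, he]
    exact abs_add_le _ _
  linarith

theorem dtr_exp {ρ α β : ℝ} {F : Fin K → Bool → ℝ} (h : ∀ s, 0 < 1 + dpr ρ β F s)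
    (s : Fin K → Bool) : Real.exp (dtr ρ α β F s) =
      Real.exp α / (1 + dpr ρ β F (fun _ => true)) * (1 + dpr ρ β F s) := by
  unfold dtr
  rw [Real.exp_add, Real.exp_sub, Real.exp_log (h _), Real.exp_log (h _)]
  ring

theorem dtr_meas {Ω : Type*} [MeasurableSpace Ω] (ρ : ℝ) {α β : Ω → ℝ}
    {F : Ω → Fin K → Bool → ℝ} (hα : Measurable α) (hβ : Measurable β)
    (hF : ∀ j t, Measurable (fun ω => F ω j t)) :
    Measurable (fun ω => dtr ρ (α ω) (β ω) (F ω)) := by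
  have h1 : ∀ s, Measurable (fun ω => Real.log (1 + dpr ρ (β ω) (F ω) s)) := by
    intro s
    refine Measurable.log (measurable_const.add ?_)
    exact (measurable_const.mul hβ).mul (Finset.measurable_prod _ (fun j _ => hF j (s j)))
  exact measurable_pi_lambda _ (fun s => hα.add ((h1 s).sub (h1 _)))

theorem dsc_dct {Ω : Type*} [MeasurableSpace Ω] {P : Measure Ω} {G : ℕ → Ω → ℝ} {u : Ω → ℝ}
    (hG : ∀ n, Measurable (G n)) (hu : Integrable u P) (h : ∀ n ω, |G n ω| ≤ u ω)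
    (hl : ∀ ω, Tendsto (fun n => G n ω) atTop (𝓝 0)) {ε : ℝ} (hε : 0 < ε) :
    ∀ᶠ n in atTop, ∫ ω, G n ω ∂P ≤ ε := by
  have := tendsto_integral_of_dominated_convergence (μ := P) (F := G) (f := fun _ => 0) u
    (fun n => (hG n).aestronglyMeasurable) hu (fun n => Eventually.of_forall (h n))
    (Eventually.of_forall hl)
  rw [integral_zero] at this
  exact this.eventually (ge_mem_nhds hε)

theorem dsc_geom {t : ℝ} (h0 : 0 ≤ t) (h1 : t ≤ 1) (k : ℕ) :
    (k : ℝ) * t ^ k * (1 - t) ≤ 1 - t ^ k := by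
  induction k with
  | zero => simp
  | succ k ih =>
    have a1 : 0 ≤ t ^ k := pow_nonneg h0 k
    have a2 : 0 ≤ ((k : ℝ) + 1) * t ^ k * (1 - t) * (1 - t) := by
      have : 0 ≤ 1 - t := by linarith
      positivity
    push_cast
    rw [pow_succ]
    nlinarith

theorem dsc_pos {Ω : Type*} [MeasurableSpace Ω] {P : Measure Ω} [IsProbabilityMeasure P]
    {b b' : Ω → ℝ} (hb : Measurable b) (hb' : Measurable b') (h1 : ∀ ω, |b ω| ≤ 1)
    (h1' : ∀ ω, |b' ω| ≤ 1) {k : ℕ} (hpos : 0 ≤ ∫ ω, (-b ω) ^ k ∂P) {t : ℝ} (ht0 : 0 ≤ t)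
    (ht1 : t < 1) :
    -((∫ ω, |b ω - b' ω| ∂P) / (1 - t) * t ^ k) ≤ ∫ ω, (-(t ^ 2 * b' ω)) ^ k ∂P := by
  have i1 : Integrable (fun ω => (-b ω) ^ k) P :=
    dis_int (hb.neg.pow_const k) (integrable_const 1) (fun ω => by
      rw [abs_pow, abs_neg]; exact pow_le_one₀ (abs_nonneg _) (h1 ω))
  have i2 : Integrable (fun ω => (-b' ω) ^ k) P :=
    dis_int (hb'.neg.pow_const k) (integrable_const 1) (fun ω => by
      rw [abs_pow, abs_neg]; exact pow_le_one₀ (abs_nonneg _) (h1' ω))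
  have i3 : Integrable (fun ω => |b ω - b' ω|) P :=
    dis_int (hb.sub hb').abs (integrable_const 2) (fun ω => by
      rw [abs_abs]
      have := abs_sub (b ω) (b' ω)
      linarith [h1 ω, h1' ω])
  have h2 := dis_sub i1 i2 (i3.mul_const (k : ℝ)) (fun ω => by
    refine (abs_pow_sub_pow_le _ _ _).trans ?_
    rw [show -b ω - -b' ω = -(b ω - b' ω) by ring, abs_neg, abs_neg, abs_neg]
    exact mul_le_of_le_one_right (by positivity)
      (pow_le_one₀ (by positivity) (max_le (h1 ω) (h1' ω))))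
  rw [integral_mul_const] at h2
  have h3 : ∀ ω, (-(t ^ 2 * b' ω)) ^ k = t ^ k * t ^ k * (-b' ω) ^ k := by
    intro ω
    rw [← mul_pow, ← mul_pow]
    congr 1
    ring
  simp only [h3]
  rw [integral_const_mul]
  obtain ⟨η, hη⟩ : ∃ η, η = ∫ ω, |b ω - b' ω| ∂P := ⟨_, rfl⟩
  have hη0 : 0 ≤ η := by rw [hη]; exact integral_nonneg (fun _ => abs_nonneg _)
  rw [← hη] at h2 ⊢
  have h4 : -(η * k) ≤ ∫ ω, (-b' ω) ^ k ∂P := by
    have := (abs_le.1 h2).2
    linarith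
  have a0 : 0 < 1 - t := by linarith
  have a1 : 0 ≤ t ^ k := pow_nonneg ht0 k
  have h5 : (k : ℝ) * t ^ k ≤ 1 / (1 - t) := by
    rw [le_div_iff₀ a0]
    linarith [dsc_geom ht0 ht1.le k]
  have h6 := mul_le_mul_of_nonneg_left h4 (mul_nonneg a1 a1)
  have h7 := mul_le_mul_of_nonneg_left h5 (mul_nonneg hη0 a1)
  have h8 : η / (1 - t) * t ^ k = η * t ^ k * (1 / (1 - t)) := by ring
  rw [h8]
  linarith

end Vale.Agent.P168
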