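import Vale.Agent.P168MP.UpB

/-! The upper bound for the finite model. -/

namespace Vale.Agent.P168

open Finset

theorem upper_fin {Θ Φ S : Type} [Fintype Θ] [Fintype Φ] [Fintype S]
    {K N : ℕ} (hK : Even K) (hK1 : 1 ≤ K) (hN : 1 ≤ N) {q : Θ → ℝ} (hq : IsPr q)
    {th : Θ → Cl K} (hv : Θ → ℝ) {lam : ℝ} (hlam : 0 ≤ lam) {p : Φ → ℝ} {fv : Φ → Bool → ℝ}
    {a b : Θ → ℝ} {φ : Θ → Fin K → Φ} {ρ ρ' δ : ℝ} (hS : FinStruct q th p fv a b φ ρ ρ' δ)
    {m : Msg S} (hm : m.Good) :
    (1 / (N : ℝ)) * Ffin q th hv lam N ≤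
      TUfin q th hv lam m - TVfin q th lam m + K * lam * (2 * δ / (1 - ρ')) := by
  have hKr : (0 : ℝ) < K := by exact_mod_cast hK1
  have hNr : (0 : ℝ) < N := by exact_mod_cast hN
  have hγ : 0 ≤ (K * lam * N : ℝ) := by positivity
  have key : ∀ h : Fin N → ℝ,
      PP (fun c => (K * lam * N) * q1 q K N c) (GX m th h) ≤
        PP (fun c => (K * lam * N) * q0 q K N c) (GX m th h) +
          (K * lam * N) * (2 * δ / (1 - ρ')) := by
    intro h
    refine PP_le_of_step (isPr_q1 hq hK1 hN) (isPr_q0 hq hK1 hN) (linG_GX hm th h)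
      (permInv_GX hm th h) hγ ?_
    intro l
    have hk := key_ineq hK hK1 hN hq hS hm h
      (fun k : Fin l.length => (th (l.get k).1, (l.get k).2))
    simp only [GX_cons hm]
    rw [Fintype.sum_prod_type, Fintype.sum_prod_type]
    simp only [Fintype.sum_sum_type, q1, q0, zero_mul, Finset.sum_const_zero, zero_add, add_zero,
      Finset.univ_unique, Finset.sum_singleton]
    refine le_trans (le_of_eq ?_) (le_trans hk (le_of_eq ?_))
    · refine Finset.sum_congr rfl fun x _ => ?_
      simp only [avg, Fintype.card_fun, Fintype.card_fin, ← Finset.mul_sum]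
      push_cast
      field_simp
    · congr 1
      refine Finset.sum_congr rfl fun x _ => ?_
      simp only [avg, Fintype.card_prod, Fintype.card_fin, ← Finset.mul_sum]
      push_cast
      field_simp
  have h1 := PP_q1 hq hK1 hN th hv hlam hm
  have h0 := PP_q0 hq hK1 hN th hv hlam hm
  have h2 : Epi q (fun ω : Fin N → Θ => PP (fun c => (K * lam * N) * q1 q K N c)
        (GX m th (fun v => hv (ω v)))) ≤
      Epi q (fun ω : Fin N → Θ => PP (fun c => (K * lam * N) * q0 q K N c)
        (GX m th (fun v => hv (ω v))) + (K * lam * N) * (2 * δ / (1 - ρ'))) :=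
    Epi_mono hq fun ω => key _
  rw [Epi_add, Epi_const hq, h1, h0] at h2
  rw [one_div, inv_mul_le_iff₀ hNr]
  nlinarith

end Vale.Agent.P168
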