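import Vale.Agent.P168MP.Lower
import Vale.Agent.P168MP.Upper
import Vale.Agent.P168MP.Discr

/-! Assembly: lower bound for arbitrary integrable disorder, upper bound for the
Panchenko-Talagrand class. -/

open MeasureTheory ProbabilityTheory Filter Topology

namespace Vale.Agent.P168

variable {Ω : Type*} [MeasurableSpace Ω] {P : Measure Ω} [IsProbabilityMeasure P] {K : ℕ}

omit [IsProbabilityMeasure P] in
theorem discretize0 {θ : Ω → Cl K} {h : Ω → ℝ} (hθm : Measurable θ) (hhm : Measurable h)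
    (hθi : Integrable θ P) (hhi : Integrable h P) {ε : ℝ} (hε : 0 < ε) :
    ∃ (Θ : Type) (_ : Fintype Θ) (ι : Ω → Θ) (th : Θ → Cl K) (hv : Θ → ℝ),
      (∀ c, MeasurableSet (ι ⁻¹' {c})) ∧
      ∫ ω, ‖θ ω - th (ι ω)‖ ∂P ≤ ε ∧ ∫ ω, |h ω - hv (ι ω)| ∂P ≤ ε := by
  classical
  obtain ⟨rd, r1, r2, r3, r4⟩ := dsc_round
  have m1 : ∀ n, Measurable fun ω => (fun s => rd n (θ ω s) : Cl K) := fun n =>
    measurable_pi_lambda _ fun s => (r1 n).comp ((measurable_pi_apply s).comp hθm)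
  have e1 := dsc_dct (P := P) (G := fun n ω => ‖θ ω - (fun s => rd n (θ ω s) : Cl K)‖)
    (u := fun ω => 3 * ‖θ ω‖) (fun n => (hθm.sub (m1 n)).norm) (hθi.norm.const_mul 3)
    (fun n ω => by
      rw [abs_norm]
      refine (pi_norm_le_iff_of_nonneg (by positivity)).2 fun s => ?_
      have h1 : |θ ω s| ≤ ‖θ ω‖ := norm_le_pi_norm (θ ω) s
      have h2 := abs_sub (θ ω s) (rd n (θ ω s))
      have h3 := r4 n (θ ω s)
      rw [Pi.sub_apply, Real.norm_eq_abs]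
      linarith)
    (fun ω => by
      have : Tendsto (fun n => (fun s => rd n (θ ω s) : Cl K)) atTop (𝓝 (θ ω)) :=
        tendsto_pi_nhds.2 fun s => r3 _
      exact (tendsto_iff_norm_sub_tendsto_zero.1 this).congr fun n => norm_sub_rev _ _) hε
  have e2 := dsc_dct (P := P) (G := fun n ω => |h ω - rd n (h ω)|) (u := fun ω => 3 * |h ω|)
    (fun n => (hhm.sub ((r1 n).comp hhm)).abs) (hhi.abs.const_mul 3) (fun n ω => by
      rw [abs_abs]
      have := abs_sub (h ω) (rd n (h ω))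
      linarith [r4 n (h ω)])
    (fun ω => (tendsto_iff_norm_sub_tendsto_zero.1 (r3 (h ω))).congr
      (fun n => abs_sub_comm _ _)) hε
  obtain ⟨n, hn1, hn2⟩ := (e1.and e2).exists
  have : Fintype (Set.range (rd n)) := (r2 n).fintype
  let cd : ℝ → Set.range (rd n) := fun x => ⟨rd n x, Set.mem_range_self x⟩
  have hcd : Measurable cd := (r1 n).subtype_mk
  let ι : Ω → ((Fin K → Bool) → Set.range (rd n)) × Set.range (rd n) := fun ω =>
    (fun s => cd (θ ω s), cd (h ω))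
  have mι : Measurable ι :=
    (measurable_pi_lambda _ fun s => hcd.comp ((measurable_pi_apply s).comp hθm)).prodMk
      (hcd.comp hhm)
  exact ⟨_, inferInstance, ι, fun c s => (c.1 s : ℝ), fun c => (c.2 : ℝ),
    fun c => mι (measurableSet_singleton c), hn1, hn2⟩

theorem transfer (hK1 : 1 ≤ K) {lam : ℝ} (hlam : 0 ≤ lam) {θ : Ω → Cl K} {h : Ω → ℝ}
    (hθm : Measurable θ) (hhm : Measurable h) (hθi : Integrable θ P) (hhi : Integrable h P)
    {Θ : Type} [Fintype Θ] {ι : Ω → Θ} {q : Θ → ℝ} {th : Θ → Cl K} {hv : Θ → ℝ}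
    (hι : ∀ c, MeasurableSet (ι ⁻¹' {c})) (hq : ∀ c, q c = P.real (ι ⁻¹' {c})) {e : ℝ}
    (hθε : ∫ ω, ‖θ ω - th (ι ω)‖ ∂P ≤ e) (hhε : ∫ ω, |h ω - hv (ι ω)| ∂P ≤ e) :
    (∀ N, 1 ≤ N → |pressure P θ h lam N - (1 / (N : ℝ)) * Ffin q th hv lam N| ≤
        K * lam * e + e) ∧
      ∀ r m x, Adm r m x → |(TU P θ h lam r m x - TV P θ lam r m x) -
          (TUmid q th hv lam r m x - TVmid q th lam r m x)| ≤ 2 * K * lam * e + e := by
  have hKr : (1 : ℝ) ≤ K := by exact_mod_cast hK1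
  have hιm : ∀ {β : Type} [MeasurableSpace β] (g : Θ → β), Measurable fun ω => g (ι ω) := by
    intro β _ g
    let _ : MeasurableSpace Θ := ⊤
    have : Measurable ι := measurable_to_countable' hι
    exact (measurable_from_top (f := g)).comp this
  have mθ' : Measurable fun ω => th (ι ω) := hιm th
  have mh' : Measurable fun ω => hv (ι ω) := hιm hv
  have iθ' : Integrable (fun ω => th (ι ω)) P :=
    Integrable.of_bound mθ'.aestronglyMeasurable ‖th‖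
      (Eventually.of_forall fun ω => norm_le_pi_norm th _)
  have ih' : Integrable (fun ω => hv (ι ω)) P :=
    Integrable.of_bound mh'.aestronglyMeasurable ‖hv‖
      (Eventually.of_forall fun ω => norm_le_pi_norm hv _)
  have hI0 : 0 ≤ ∫ ω, ‖θ ω - th (ι ω)‖ ∂P := integral_nonneg fun _ => norm_nonneg _
  have h3 : K * lam * ∫ ω, ‖θ ω - th (ι ω)‖ ∂P ≤ K * lam * e := by gcongr
  constructor
  · intro N hN
    rw [← pressure_simple hι hq]
    refine (abs_pressure_sub_le hθm mθ' hhm mh' hθi iθ' hhi ih' hlam hN).trans ?_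
    have : lam * ∫ ω, ‖θ ω - th (ι ω)‖ ∂P ≤ K * lam * ∫ ω, ‖θ ω - th (ι ω)‖ ∂P := by
      gcongr
      nlinarith
    linarith
  · intro r m x hx
    have h1 := abs_TU_sub_le hK1 hθm mθ' hhm mh' hθi iθ' hhi ih' hlam hx
    have h2 := abs_TV_sub_le hK1 hθm mθ' hθi iθ' hlam hx
    rw [TU_simple hι hq] at h1
    rw [TV_simple hι hq] at h2
    have h4 : (K - 1) * lam * ∫ ω, ‖θ ω - th (ι ω)‖ ∂P ≤ K * lam * e := by
      have : (K - 1 : ℝ) * lam * ∫ ω, ‖θ ω - th (ι ω)‖ ∂P ≤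
          K * lam * ∫ ω, ‖θ ω - th (ι ω)‖ ∂P := by
        gcongr; linarith
      linarith
    rw [abs_le] at h1 h2 ⊢
    constructor <;> linarith [h1.1, h1.2, h2.1, h2.2]

theorem lower_gen (hK1 : 1 ≤ K) {lam : ℝ} (hlam : 0 ≤ lam) {θ : Ω → Cl K} {h : Ω → ℝ}
    (hθm : Measurable θ) (hhm : Measurable h) (hθi : Integrable θ P) (hhi : Integrable h P)
    {c : ℝ} (hc : ∀ r, ∀ t ∈ trialValues P θ h lam r, c ≤ t) {ε : ℝ} (hε : 0 < ε) :
    ∀ᶠ N : ℕ in atTop, c - ε ≤ pressure P θ h lam N := by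
  set A : ℝ := 3 * K * lam + 3 with hA
  have hA0 : 0 < A := by positivity
  obtain ⟨Θ, _, ι, th, hv, hι, hθε, hhε⟩ := discretize0 hθm hhm hθi hhi (div_pos hε hA0)
  set e : ℝ := ε / A with he
  have he0 : 0 < e := div_pos hε hA0
  have hεe : ε = A * e := by rw [he]; field_simp
  set q : Θ → ℝ := fun c => P.real (ι ⁻¹' {c})
  have hq : ∀ c, q c = P.real (ι ⁻¹' {c}) := fun _ => rfl
  have hqP : IsPr q := isPr_simple hι hq
  obtain ⟨hP, hT⟩ := transfer hK1 hlam hθm hhm hθi hhi hι hq hθε hhε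
  have hc' : ∀ (S : Type) [Fintype S] (m : Msg S), m.Good →
      c - (2 * K * lam * e + e) ≤ TUfin q th hv lam m - TVfin q th lam m := by
    intro S _ ms hms
    obtain ⟨r, mm, x, hx, hU, hV⟩ := mid_of_msg (q := q) th hv lam hms
    have h1 := hc r _ ⟨mm, x, hx.1, hx.2.1, hx.2.2.1, hx.2.2.2, rfl⟩
    have a2 := abs_le.1 (hT r mm x hx)
    rw [← hU, ← hV]
    linarith [a2.2]
  filter_upwards [lower_fin hqP hK1 th hv hlam hc' he0, eventually_ge_atTop 1] with N h1 hN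
  have a1 := abs_le.1 (hP N hN)
  rw [hεe, hA]
  nlinarith [a1.1]

theorem trial_bdd (hK1 : 1 ≤ K) {lam : ℝ} (hlam : 0 ≤ lam) {θ : Ω → Cl K} {h : Ω → ℝ}
    (hθm : Measurable θ) (hhm : Measurable h) (hθi : Integrable θ P) (hhi : Integrable h P) :
    ∃ c : ℝ, ∀ r, ∀ t ∈ trialValues P θ h lam r, c ≤ t := by
  have hKr : (1 : ℝ) ≤ K := by exact_mod_cast hK1
  refine ⟨-((∫ ω', (1 + |h ω'|) ∂P) + (∫ ω, ‖θ ω‖ ∂P) * (K * lam)) -
    (0 + (∫ ω, ‖θ ω‖ ∂P) * ((K - 1) * lam)), ?_⟩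
  rintro r t ⟨m, x, h1, h2, h3, h4, rfl⟩
  have hx : Adm r m x := ⟨h1, h2, h3, h4⟩
  have a1 : |TU P θ h lam r m x| ≤ _ :=
    abs_tsum_poi_le (γ := K * lam) (by positivity) (dis_absU hθm hhm hθi hhi hx)
  have a2 : |TV P θ lam r m x| ≤ _ :=
    abs_tsum_poi_le (γ := (K - 1) * lam) (mul_nonneg (by linarith) hlam) (dis_absV hθi hx)
  linarith [(abs_le.1 a1).1, (abs_le.1 a2).2]

omit [IsProbabilityMeasure P] in
theorem trial_nonempty (θ : Ω → Cl K) (h : Ω → ℝ) (lam : ℝ) (r : ℕ) :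
    (trialValues P θ h lam r).Nonempty := by
  refine ⟨_, fun p => ((p : ℝ) + 1) / ((r : ℝ) + 1), fun _ => 0, ?_, ?_, measurable_const,
    by simp, rfl⟩
  · intro p p' hpp
    have : (p : ℝ) < (p' : ℝ) := by exact_mod_cast hpp
    have h0 : (0 : ℝ) < (r : ℝ) + 1 := by positivity
    exact div_lt_div_of_pos_right (by linarith) h0
  · intro p
    have h0 : (0 : ℝ) < (r : ℝ) + 1 := by positivity
    have : ((p : ℕ) : ℝ) < (r : ℝ) := by exact_mod_cast p.isLt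
    exact ⟨by positivity, (div_lt_one h0).2 (by linarith)⟩

theorem upper_gen (hKe : Even K) (hK1 : 1 ≤ K) {lam : ℝ} (hlam : 0 ≤ lam)
    {θ : Ω → Cl K} {a b : Ω → ℝ} {f : Fin K → Ω → Bool → ℝ} {h : Ω → ℝ}
    (hθm : Measurable θ) (hbm : Measurable b) (hfm : ∀ j, Measurable (f j)) (hhm : Measurable h)
    (ha : ∀ ω, 0 < a ω) (hb : ∀ ω, |b ω| < 1) (hf : ∀ j ω s, |f j ω s| ≤ 1)
    (hrep : ∀ ω s, Real.exp (θ ω s) = a ω * (1 + b ω * ∏ j, f j ω (s j)))
    (hind : iIndepFun f P) (hid : ∀ j j', IdentDistrib (f j) (f j') P P)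
    (hbf : IndepFun b (fun ω j => f j ω) P)
    (hpos : ∀ n : ℕ, 1 ≤ n → 0 ≤ ∫ ω, (-b ω) ^ n ∂P)
    (hhi : Integrable h P) (hθi : Integrable θ P) {N : ℕ} (hN : 1 ≤ N) {r : ℕ} {t : ℝ}
    (ht : t ∈ trialValues P θ h lam r) : pressure P θ h lam N ≤ t := by
  refine le_of_forall_pos_le_add fun ε hε => ?_
  set A : ℝ := 5 * K * lam + 5 with hA
  have hA0 : 0 < A := by positivity
  obtain ⟨Θ, Φ, _, _, ι, q, th, hv, p, fv, a', b', φ, ρ, ρ', δ, hι, hq, hS, hδ, hθε, hhε⟩ :=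
    discretize P hK1 θ a b f h hθm hbm hfm hhm ha hb hf hrep hind hid hbf hpos hhi hθi
      (div_pos hε hA0)
  set e : ℝ := ε / A with he
  have he0 : 0 < e := div_pos hε hA0
  have hεe : ε = A * e := by rw [he]; field_simp
  have hqP : IsPr q := isPr_simple hι hq
  obtain ⟨hP, hT⟩ := transfer hK1 hlam hθm hhm hθi hhi hι hq hθε hhε
  obtain ⟨m, x, h1, h2, h3, h4, rfl⟩ := ht
  have hx : Adm r m x := ⟨h1, h2, h3, h4⟩
  obtain ⟨S, _, ms, hms, hU, hV⟩ := msg_of_mid hqP hK1 th hv hlam hx he0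
  have hup := upper_fin hKe hK1 hN hqP hv hlam hS hms
  have hδ' : (K : ℝ) * lam * (2 * δ / (1 - ρ')) ≤ 2 * K * lam * e := by
    have : 2 * δ / (1 - ρ') ≤ 2 * e := by rw [mul_div_assoc]; linarith
    have h0 : 0 ≤ (K : ℝ) * lam := by positivity
    nlinarith
  have a1 := abs_le.1 (hP N hN)
  have a2 := abs_le.1 (hT r m x hx)
  have a3 := abs_le.1 hU
  have a4 := abs_le.1 hV
  rw [hεe, hA]
  nlinarith [a1.1, a1.2, a2.1, a2.2, a3.1, a3.2, a4.1, a4.2]

end Vale.Agent.P168
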