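import Vale.Agent.P168MP.Law
import Vale.Agent.P168MP.Merge

/-! The key inequality of the interpolation. -/

namespace Vale.Agent.P168

open Finset

/-- The positions of a slot that are attached to a spin of the system. -/
def keyW {K N : ℕ} : Kind K N → Fin K → Option (Fin N)
  | Sum.inl i => fun j => some (i j)
  | Sum.inr (Sum.inl li) => fun j => if j = li.1 then some li.2 else none
  | Sum.inr (Sum.inr _) => fun _ => none

def keyV {K N : ℕ} (w : Fin K → Option (Fin N)) (s : Fin N → Bool) (y : Fin K → ℝ) :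
    Fin K → ℝ :=
  fun j => (w j).elim (y j) (fun i => spin (s i))

theorem key_half (b b' : Bool) : (1 + spin b * spin b') / 2 = if b' = b then 1 else 0 := by
  cases b <;> cases b' <;> norm_num [spin]

theorem key_cube {K N : ℕ} (w : Fin K → Option (Fin N)) (s : Fin N → Bool) {y : Fin K → ℝ}
    (hy : Cube y) : Cube (keyV w s y) := by
  intro j
  unfold keyV
  cases w j with
  | none => exact hy j
  | some i => exact (abs_spin _).le

theorem key_slotF {K N : ℕ} (θ : Cl K) (k : Kind K N) (s : Fin N → Bool) (y : Fin K → ℝ) :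
    slotF θ k s y = hat (fun σ => Real.exp (θ σ)) (keyV (keyW k) s y) := by
  rcases k with i | li | u
  · simp only [slotF, hat, keyV, keyW, Option.elim_some, key_half]
    rw [Finset.sum_eq_single (fun j => s (i j))]
    · simp
    · intro A _ hA
      obtain ⟨j, hj⟩ := Function.ne_iff.1 hA
      rw [Finset.prod_eq_zero (mem_univ j) (if_neg hj), mul_zero]
    · intro h; exact absurd (mem_univ _) h
  · simp only [slotF, hat]
    rw [Finset.sum_filter]
    refine Finset.sum_congr rfl fun σ _ => ?_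
    rw [← Finset.mul_prod_erase univ _ (mem_univ li.1)]
    have h1 : keyV (keyW (Sum.inr (Sum.inl li) : Kind K N)) s y li.1 = spin (s li.2) := by
      simp [keyV, keyW]
    have h2 : ∏ j ∈ univ.erase li.1,
        (1 + keyV (keyW (Sum.inr (Sum.inl li) : Kind K N)) s y j * spin (σ j)) / 2 =
        ∏ j ∈ univ.erase li.1, (1 + y j * spin (σ j)) / 2 := by
      refine Finset.prod_congr rfl fun j hj => ?_
      simp [keyV, keyW, (Finset.mem_erase.1 hj).1]
    rw [h1, h2, key_half]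
    split_ifs <;> simp
  · rfl

theorem slotF_pos {K N : ℕ} (θ : Cl K) (k : Kind K N) (s : Fin N → Bool) {y : Fin K → ℝ}
    (hy : Cube y) : 0 < slotF θ k s y := by
  rw [key_slotF]
  exact hat_pos (fun _ => Real.exp_pos _) (key_cube _ _ hy)

theorem abs_log_slotF_le {K N : ℕ} (θ : Cl K) (k : Kind K N) (s : Fin N → Bool) {y : Fin K → ℝ}
    (hy : Cube y) : |Real.log (slotF θ k s y)| ≤ ‖θ‖ := by
  rw [key_slotF]
  refine abs_log_hat_le (fun σ => ⟨Real.exp_pos _, ?_⟩) (key_cube _ _ hy)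
  rw [Real.log_exp]
  exact norm_le_pi_norm θ σ

/-- Mean of `fv f` under a spin of mean `u`. -/
noncomputable def keyB {Φ : Type} (fv : Φ → Bool → ℝ) (f : Φ) (u : ℝ) : ℝ :=
  ∑ σ : Bool, fv f σ * ((1 + u * spin σ) / 2)

theorem keyB_spin {Φ : Type} (fv : Φ → Bool → ℝ) (f : Φ) (b : Bool) :
    keyB fv f (spin b) = fv f b := by
  cases b <;> simp [keyB, spin]

theorem abs_keyB_le {Φ : Type} {fv : Φ → Bool → ℝ} (hf : ∀ f s, |fv f s| ≤ 1) (f : Φ) {u : ℝ}
    (hu : |u| ≤ 1) : |keyB fv f u| ≤ 1 := by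
  have h1 := abs_le.1 (hf f true)
  have h2 := abs_le.1 (hf f false)
  have h3 := abs_le.1 hu
  simp only [keyB, spin, Fintype.sum_bool]
  rw [abs_le]
  constructor <;> simp <;> nlinarith [h1.1, h1.2, h2.1, h2.2, h3.1, h3.2]

theorem key_hat {Φ : Type} {K : ℕ} (fv : Φ → Bool → ℝ) (φ : Fin K → Φ) (a b : ℝ) {θ : Cl K}
    (h : ∀ s, Real.exp (θ s) = a * (1 + b * ∏ j, fv (φ j) (s j))) (y : Fin K → ℝ) :
    hat (fun σ => Real.exp (θ σ)) y = a * (1 - -b * ∏ j, keyB fv (φ j) (y j)) := by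
  have h1 := sum_spin_weight y
  have h2 : ∏ j, keyB fv (φ j) (y j) =
      ∑ s : Fin K → Bool, (∏ j, fv (φ j) (s j)) * ∏ j, (1 + y j * spin (s j)) / 2 := by
    simp only [keyB]
    rw [Finset.prod_univ_sum, Fintype.piFinset_univ]
    exact Finset.sum_congr rfl fun s _ => Finset.prod_mul_distrib
  have h3 : hat (fun σ => Real.exp (θ σ)) y =
      a * (∑ s : Fin K → Bool, ∏ j, (1 + y j * spin (s j)) / 2 + b * ∑ s : Fin K → Bool,
        (∏ j, fv (φ j) (s j)) * ∏ j, (1 + y j * spin (s j)) / 2) := by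
    rw [Finset.mul_sum, ← Finset.sum_add_distrib, Finset.mul_sum]
    refine Finset.sum_congr rfl fun s _ => ?_
    simp only [h]; ring
  rw [h3, h1, h2]; ring

theorem key_approx {μ : ℕ → ℝ} {D : ℕ} (h0 : μ 0 = 1) (hpos : ∀ e, e ≤ D → 0 < μ e)
    (hanti : ∀ e, e < D → μ (e + 1) ≤ μ e) {ρ ε : ℝ} (hρ0 : 0 ≤ ρ) (hρ : ρ < 1) (hε : 0 < ε) :
    ∃ (n : ℕ) (μ' : ℕ → ℝ), μ' 0 = 1 ∧ (∀ e, e ≤ D + 1 → 0 < μ' e) ∧
      (∀ e, e < D + 1 → μ' (e + 1) ≤ μ' e) ∧
      ∀ (S : Type) [Fintype S] (κ : ℕ → S → S → ℝ), (∀ d, IsK (κ d)) → ∀ y : S → ℝ,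
        (∀ s, |y s| ≤ ρ) → ∀ s, |Rec κ μ (fun t => Real.log (1 - y t)) (D + 1) s +
          ∑ τ : Tr Unit n (D + 1), wt μ' _ τ * ev κ (fun _ => y) _ τ s| ≤ ε := by
  have hchain : ∀ k e, e + k ≤ D → μ (e + k) ≤ μ e := by
    intro k
    induction k with
    | zero => intro e _; exact le_rfl
    | succ k ih => intro e he; exact (hanti (e + k) (by omega)).trans (ih e (by omega))
  have hD : ∀ e, e ≤ D → μ D ≤ μ e := by
    intro e he
    have := hchain (D - e) e (by omega)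
    rwa [Nat.add_sub_cancel' he] at this
  obtain ⟨B, hB⟩ : ∃ B : ℝ, B = |Real.log (1 - ρ)| + 1 := ⟨_, rfl⟩
  obtain ⟨E, hE0, hE⟩ : ∃ E : ℝ, 0 ≤ E ∧ E = B ^ 2 * Real.exp B := ⟨_, by positivity, rfl⟩
  obtain ⟨η, hη, hηD, hηE⟩ : ∃ η : ℝ, 0 < η ∧ η ≤ μ D ∧ η * E ≤ ε / 2 := by
    refine ⟨min (μ D) (ε / 2 / (E + 1)), lt_min (hpos D le_rfl) (by positivity), min_le_left _ _, ?_⟩
    calc _ ≤ ε / 2 / (E + 1) * E := mul_le_mul_of_nonneg_right (min_le_right _ _) hE0
      _ ≤ _ := by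
        rw [div_mul_eq_mul_div, div_le_iff₀ (by positivity)]
        nlinarith
  obtain ⟨G, hG⟩ : ∃ G : ℝ, G = η * (1 - ρ) ^ (D + 1) := ⟨_, rfl⟩
  have hG0 : 0 < G := by rw [hG]; exact mul_pos hη (pow_pos (by linarith) _)
  obtain ⟨n, hn⟩ := exists_pow_lt_of_lt_one (x := ε / 2 * G / (D + 1 : ℕ)) (by positivity) hρ
  have e4 : ((D + 1 : ℕ) : ℝ) * ρ ^ (n + 1) / G ≤ ε / 2 := by
    have h0 : (0 : ℝ) < (D + 1 : ℕ) := by positivity
    have h1 : ρ ^ (n + 1) ≤ ρ ^ n := pow_le_pow_of_le_one hρ0 hρ.le (by omega)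
    rw [lt_div_iff₀ h0] at hn
    rw [div_le_iff₀ hG0]
    nlinarith
  have hge : ∀ e, η ≤ (if e ≤ D then μ e else η) := by
    intro e
    split_ifs with he
    · exact hηD.trans (hD e he)
    · exact le_rfl
  have hanti' : ∀ e, e < D + 1 →
      (if e + 1 ≤ D then μ (e + 1) else η) ≤ (if e ≤ D then μ e else η) := by
    intro e he
    by_cases h : e + 1 ≤ D
    · rw [if_pos h, if_pos (by omega)]; exact hanti e h
    · rw [if_neg h]; exact hge e
  have h0' : (if 0 ≤ D then μ 0 else η) = 1 := by rw [if_pos (Nat.zero_le _), h0]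
  refine ⟨n, fun e => if e ≤ D then μ e else η, h0', fun e _ => hη.trans_le (hge e), hanti', ?_⟩
  intro S _ κ hκ y hy s
  have hlb : ∀ t, |Real.log (1 - y t)| ≤ B := by
    intro t
    have h1 := abs_le.1 (hy t)
    have h2 : Real.log (1 - ρ) ≤ Real.log (1 - y t) := Real.log_le_log (by linarith) (by linarith)
    have h3 := Real.log_le_sub_one_of_pos (x := 1 - y t) (by linarith)
    have h4 := neg_abs_le (Real.log (1 - ρ))
    have h5 := abs_nonneg (Real.log (1 - ρ))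
    rw [abs_le, hB]; constructor <;> linarith
  have h1 := Nt_expansion (n := n) (μ := fun e => if e ≤ D then μ e else η) hκ (D + 1) h0' hη
    (fun e _ => hge e) hanti' hρ hy s
  have h2 := abs_Nt_add_le hη (hηD.trans ((hD 0 (Nat.zero_le _)).trans h0.le))
    (abs_Rec_le hκ (D + 1) (fun e he => hpos e (by omega)) hlb s)
  have h3 : Nt κ (fun e => if e ≤ D then μ e else η) (fun t => Real.log (1 - y t)) (D + 1) s =
      (1 - Real.exp (η * Rec κ μ (fun t => Real.log (1 - y t)) (D + 1) s)) / η := by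
    have e1 : Rec κ (fun e => if e ≤ D then μ e else η) (fun t => Real.log (1 - y t)) (D + 1) =
        Rec κ μ (fun t => Real.log (1 - y t)) (D + 1) :=
      Rec_congr _ _ (fun _ _ => rfl) (fun e he => if_pos (by omega))
    have e2 : ¬ D + 1 ≤ D := by omega
    simp only [Nt, e1, if_neg e2]
  rw [← h3, ← hE] at h2
  rw [← hG] at h1
  rw [abs_le] at h1 h2 ⊢
  constructor <;> linarith [h1.1, h1.2, h2.1, h2.2]

theorem key_Fn_sum {ι α : Type} [Fintype α] (Φ : Fn ι) (c : α → ℝ) (F : α → (ι → ℝ) → ℝ) :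
    Φ (fun g => ∑ i, c i * F i g) = ∑ i, c i * Φ (F i) := by
  have h : (fun g => ∑ i, c i * F i g) = ∑ i, c i • F i := by
    funext g
    simp only [Pi.smul_apply, Finset.sum_apply, smul_eq_mul]
  rw [h, map_sum]
  simp only [map_smul, smul_eq_mul]

theorem key_Fn_avg {ι α : Type} [Fintype α] (Φ : Fn ι) (F : α → (ι → ℝ) → ℝ) :
    Φ (fun g => avg (fun i => F i g)) = avg (fun i => Φ (F i)) := by
  have h : ∀ G : α → ℝ, avg G = ∑ i, (Fintype.card α : ℝ)⁻¹ * G i := by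
    intro G
    rw [avg, div_eq_inv_mul, Finset.mul_sum]
  simp only [h]
  exact key_Fn_sum Φ _ F

theorem key_Fn_mul {ι : Type} (Φ : Fn ι) (c : ℝ) (F : (ι → ℝ) → ℝ) :
    Φ (fun g => c * F g) = c * Φ F := by
  have h : (fun g => c * F g) = c • F := rfl
  rw [h, map_smul, smul_eq_mul]

theorem key_convex {K : ℕ} (hK : Even K) (hK1 : 1 ≤ K) {R Q : ℝ} (hR : |R| ≤ 1) (hQ : |Q| ≤ 1) :
    0 ≤ 1 / (K : ℝ) * R ^ K + ((K : ℝ) - 1) / K * Q ^ K - R * Q ^ (K - 1) ∧
      1 / (K : ℝ) * R ^ K + ((K : ℝ) - 1) / K * Q ^ K - R * Q ^ (K - 1) ≤ 2 := by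
  have hK0 : (1 : ℝ) ≤ K := by exact_mod_cast hK1
  have h1 := pow_add_mul_le_add_pow (a := |Q|) (b := |R| - |Q|) (abs_nonneg _)
    (by linarith [abs_nonneg R, abs_nonneg Q]) K
  rw [add_sub_cancel] at h1
  have h2 : |Q| ^ K = |Q| ^ (K - 1) * |Q| := by rw [← pow_succ, Nat.sub_add_cancel hK1]
  have h3 : |R * Q ^ (K - 1)| = |R| * |Q| ^ (K - 1) := by rw [abs_mul, abs_pow]
  have h4 := le_abs_self (R * Q ^ (K - 1))
  have h5 := neg_abs_le (R * Q ^ (K - 1))
  have h6 : |R| * |Q| ^ (K - 1) ≤ 1 :=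
    mul_le_one₀ hR (by positivity) (pow_le_one₀ (abs_nonneg _) hQ)
  have h7 : |R| ^ K ≤ 1 := pow_le_one₀ (abs_nonneg _) hR
  have h8 : |Q| ^ K ≤ 1 := pow_le_one₀ (abs_nonneg _) hQ
  have e : 1 / (K : ℝ) * R ^ K + ((K : ℝ) - 1) / K * Q ^ K - R * Q ^ (K - 1) =
      (|R| ^ K + (K - 1) * |Q| ^ K - K * (R * Q ^ (K - 1))) / K := by
    rw [hK.pow_abs, hK.pow_abs]; field_simp
  rw [e]
  constructor
  · refine div_nonneg ?_ (by linarith)
    have : K * (R * Q ^ (K - 1)) ≤ K * (|R| * |Q| ^ (K - 1)) :=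
      mul_le_mul_of_nonneg_left (h4.trans h3.le) (by linarith)
    nlinarith
  · rw [div_le_iff₀ (by linarith)]
    have h9 : ((K : ℝ) - 1) * |Q| ^ K ≤ (K - 1) * 1 := mul_le_mul_of_nonneg_left h8 (by linarith)
    have h10 : (K : ℝ) * (-(R * Q ^ (K - 1))) ≤ K * 1 :=
      mul_le_mul_of_nonneg_left (by linarith) (by linarith)
    linarith

theorem key_abs_sum {α : Type} [Fintype α] {p : α → ℝ} (hp : IsPr p) {f : α → ℝ} {B : ℝ}
    (h : ∀ a, |f a| ≤ B) : |∑ a, p a * f a| ≤ B := by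
  refine (Finset.abs_sum_le_sum_abs _ _).trans ?_
  calc _ ≤ ∑ a, p a * B := Finset.sum_le_sum fun a _ => by
        rw [abs_mul, abs_of_nonneg (hp.1 a)]
        exact mul_le_mul_of_nonneg_left (h a) (hp.1 a)
    _ = B := by rw [← Finset.sum_mul, hp.2, one_mul]

theorem key_isPr_pi {α : Type} [Fintype α] {p : α → ℝ} (hp : IsPr p) (J : Type) [Fintype J]
    [DecidableEq J] : IsPr (fun t : J → α => ∏ j, p (t j)) := by
  refine ⟨fun t => Finset.prod_nonneg fun j _ => hp.1 _, ?_⟩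
  have := Finset.prod_univ_sum (fun _ : J => (univ : Finset α)) (fun _ a => p a)
  rw [Fintype.piFinset_univ] at this
  rw [← this]
  simp [hp.2]

section Core

variable {Θ Φ A T S : Type} [Fintype Θ] [Fintype Φ] [Fintype A] [Fintype T] [Fintype S]
  {K N n : ℕ}

/-- Average over the initial states. -/
def keyAv (πT : T → ℝ) (e : T → A) (π : S → ℝ) (G : A × (Fin K → S) → ℝ) : ℝ :=
  ∑ t, πT t * ∑ t' : Fin K → S, (∏ j, π (t' j)) * G (e t, t')

/-- The product attached to a slot. -/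
noncomputable def keyP (fv : Φ → Bool → ℝ) (σ : A → Fin N → Bool) (xv : S → ℝ) (φ : Fin K → Φ)
    (w : Fin K → Option (Fin N)) (z : A × (Fin K → S)) : ℝ :=
  ∏ j, keyB fv (φ j) (keyV w (σ z.1) (fun j => xv (z.2 j)) j)

noncomputable def keyQ (fv : Φ → Bool → ℝ) (κ : ℕ → S → S → ℝ) (π xv : S → ℝ) (d : ℕ)
    (τ : Tr Unit n d) (f : Φ) : ℝ :=
  ∑ u, π u * ev κ (fun _ u => keyB fv f (xv u)) d τ u

def keyPsi (fv : Φ → Bool → ℝ) (κA : ℕ → A → A → ℝ) (σ : A → Fin N → Bool) (πT : T → ℝ)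
    (e : T → A) (d : ℕ) (τ : Tr Unit n d) : Fn (Φ × Fin N) :=
  mix πT (fun t => law κA (fun _ a fi => fv fi.1 (σ a fi.2)) d τ (e t))

theorem key_ev (fv : Φ → Bool → ℝ) (κA : ℕ → A → A → ℝ) {κ : ℕ → S → S → ℝ}
    (hκ : ∀ d, IsK (κ d)) (σ : A → Fin N → Bool) (πT : T → ℝ) (e : T → A) {π : S → ℝ}
    (hπ : IsPr π) (xv : S → ℝ) (φ : Fin K → Φ) (β : ℝ) (w : Fin K → Option (Fin N)) (d : ℕ)
    (τ : Tr Unit n d) :
    keyAv πT e π (ev (prodK κA (piK (Fin K) κ)) (fun _ z => β * keyP fv σ xv φ w z) d τ) =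
      keyPsi fv κA σ πT e d τ (fun g => β ^ size d τ *
        ∏ j, (w j).elim (keyQ fv κ π xv d τ (φ j)) (fun i => g (φ j, i))) := by
  set G : A → ℝ := fun a => ∏ j, (w j).elim 1 (fun i => fv (φ j) (σ a i)) with hG
  set g : Fin K → Unit → S → ℝ := fun j _ u => (w j).elim (keyB fv (φ j) (xv u)) (fun _ => 1)
    with hg
  have h1 : ∀ z : A × (Fin K → S), keyP fv σ xv φ w z = G z.1 * ∏ j, g j () (z.2 j) := by
    intro z
    rw [hG, hg, keyP, ← Finset.prod_mul_distrib]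
    refine Finset.prod_congr rfl fun j _ => ?_
    unfold keyV
    dsimp only
    cases w j with
    | none => simp
    | some i => simp [keyB_spin]
  have h2 : ∀ z : A × (Fin K → S),
      ev (prodK κA (piK (Fin K) κ)) (fun _ z => β * keyP fv σ xv φ w z) d τ z =
        β ^ size d τ * (ev κA (fun _ => G) d τ z.1 * ∏ j, ev κ (g j) d τ (z.2 j)) := by
    intro z
    rw [ev_mul_label _ (fun _ => β), cw_const, ← ev_piK, ← ev_prodK]
    refine congrArg (fun F => β ^ size d τ * ev (prodK κA (piK (Fin K) κ)) F d τ z) ?_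
    funext u z'
    exact h1 z'
  have h3 : ∑ t' : Fin K → S, (∏ j, π (t' j)) * ∏ j, ev κ (g j) d τ (t' j) =
      ∏ j, (w j).elim (keyQ fv κ π xv d τ (φ j)) (fun _ => 1) := by
    have := Finset.prod_univ_sum (fun _ : Fin K => (univ : Finset S))
      (fun j u => π u * ev κ (g j) d τ u)
    rw [Fintype.piFinset_univ] at this
    simp only [← Finset.prod_mul_distrib]
    rw [← this]
    refine Finset.prod_congr rfl fun j _ => ?_
    rw [hg]
    dsimp only
    cases w j with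
    | none => rfl
    | some i => simp [ev_one hκ, hπ.2]
  have h4 : ∀ g' : Φ × Fin N → ℝ,
      ∏ j, (w j).elim (keyQ fv κ π xv d τ (φ j)) (fun i => g' (φ j, i)) =
        (∏ j, (w j).elim (keyQ fv κ π xv d τ (φ j)) (fun _ => 1)) *
          ∏ j, (w j).elim 1 (fun i => g' (φ j, i)) := by
    intro g'
    rw [← Finset.prod_mul_distrib]
    refine Finset.prod_congr rfl fun j _ => ?_
    cases w j <;> simp
  simp only [h4]
  rw [key_Fn_mul, key_Fn_mul, keyPsi, mix_apply, Finset.mul_sum, Finset.mul_sum]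
  refine Finset.sum_congr rfl fun t _ => ?_
  rw [law_char _ _ (fun g : Φ × Fin N → ℝ => ∏ j, (w j).elim 1 (fun i => g (φ j, i))) 
    (Finset.prod_eq_one fun j _ => by cases w j <;> simp)
    (fun g g' => by
      rw [← Finset.prod_mul_distrib]
      exact Finset.prod_congr rfl fun j _ => by cases w j <;> simp), ← h3]
  simp only [h2, Finset.mul_sum, Finset.sum_mul]
  exact Finset.sum_congr rfl fun t' _ => by ring

/-- The three averages over the slot kinds. -/
noncomputable def keyD (K N : ℕ) (H : Kind K N → ℝ) : ℝ :=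
  1 / (K : ℝ) * avg (fun i : Fin K → Fin N => H (Sum.inl i)) +
    ((K : ℝ) - 1) / K * H (Sum.inr (Sum.inr ())) -
    avg (fun li : Fin K × Fin N => H (Sum.inr (Sum.inl li)))

theorem keyD_sum {α : Type} [Fintype α] (c : α → ℝ) (H : α → Kind K N → ℝ) :
    keyD K N (fun k => ∑ x, c x * H x k) = ∑ x, c x * keyD K N (H x) := by
  simp only [keyD, avg_sum, avg_mul_left, Finset.mul_sum, ← Finset.sum_add_distrib,
    ← Finset.sum_sub_distrib]
  exact Finset.sum_congr rfl fun x _ => by ring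

theorem keyD_Fn {ι : Type} (Ψ : Fn ι) (H : Kind K N → (ι → ℝ) → ℝ) :
    keyD K N (fun k => Ψ (H k)) = Ψ (fun g => keyD K N (fun k => H k g)) := by
  have h : (fun g => keyD K N (fun k => H k g)) =
      (fun g => 1 / (K : ℝ) * avg (fun i : Fin K → Fin N => H (Sum.inl i) g)) +
        (fun g => ((K : ℝ) - 1) / K * H (Sum.inr (Sum.inr ())) g) -
        (fun g => avg (fun li : Fin K × Fin N => H (Sum.inr (Sum.inl li)) g)) := rfl
  rw [h, map_sub, map_add, key_Fn_mul, key_Fn_mul, key_Fn_avg, key_Fn_avg, keyD]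

theorem keyD_le (hK1 : 1 ≤ K) {H H' : Kind K N → ℝ} {ε : ℝ} (hε : 0 ≤ ε)
    (h : ∀ k, |H k - H' k| ≤ ε) : keyD K N H ≤ keyD K N H' + 2 * ε := by
  have hK0 : (1 : ℝ) ≤ K := by exact_mod_cast hK1
  have h1 := (abs_le.1 (abs_avg_sub_le hε fun i : Fin K → Fin N => h (Sum.inl i))).2
  have h2 := (abs_le.1 (h (Sum.inr (Sum.inr ())))).2
  have h3 := (abs_le.1 (abs_avg_sub_le hε fun li : Fin K × Fin N => h (Sum.inr (Sum.inl li)))).1
  have h4 := mul_le_mul_of_nonneg_left h1 (by positivity : (0 : ℝ) ≤ 1 / K)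
  have h5 := mul_le_mul_of_nonneg_left h2
    (div_nonneg (by linarith) (by linarith) : (0 : ℝ) ≤ (K - 1) / K)
  have h6 : 1 / (K : ℝ) * ε + ((K : ℝ) - 1) / K * ε = ε := by field_simp; ring
  unfold keyD
  linarith

theorem keyD_add_const (hK1 : 1 ≤ K) (hN : 1 ≤ N) (H : Kind K N → ℝ) (c : ℝ) :
    keyD K N (fun k => H k + c) = keyD K N H := by
  haveI : Nonempty (Fin N) := ⟨⟨0, hN⟩⟩
  haveI : Nonempty (Fin K) := ⟨⟨0, hK1⟩⟩
  have hK0 : (1 : ℝ) ≤ K := by exact_mod_cast hK1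
  have h6 : 1 / (K : ℝ) * c + ((K : ℝ) - 1) / K * c = c := by field_simp; ring
  simp only [keyD, avg_add, avg_const]
  linarith

theorem keyD_prod (hK1 : 1 ≤ K) (Q : ℝ) (R : Fin N → ℝ) :
    keyD K N (fun k => ∏ j, (keyW k j).elim Q R) =
      1 / (K : ℝ) * avg R ^ K + ((K : ℝ) - 1) / K * Q ^ K - avg R * Q ^ (K - 1) := by
  haveI : Nonempty (Fin K) := ⟨⟨0, hK1⟩⟩
  have h1 : avg (fun i : Fin K → Fin N => ∏ j, (keyW (Sum.inl i : Kind K N) j).elim Q R) =
      avg R ^ K := by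
    simp only [keyW, Option.elim_some]
    rw [avg_pi_prod (fun _ : Fin K => R)]
    simp
  have h2 : ∏ j, (keyW (Sum.inr (Sum.inr ()) : Kind K N) j).elim Q R = Q ^ K := by
    simp [keyW]
  have h3 : ∀ li : Fin K × Fin N, ∏ j, (keyW (Sum.inr (Sum.inl li) : Kind K N) j).elim Q R =
      R li.2 * Q ^ (K - 1) := by
    intro li
    rw [← Finset.mul_prod_erase univ _ (mem_univ li.1), Finset.prod_congr rfl (g := fun _ => Q)
      (fun j hj => by simp [keyW, (Finset.mem_erase.1 hj).1])]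
    simp [keyW]
  unfold keyD
  simp only [h1, h2, h3]
  rw [avg_prod]
  simp only [avg_mul_right, avg_const]

theorem key_tree (hK : Even K) (hK1 : 1 ≤ K) {q : Θ → ℝ} {th : Θ → Cl K} {p : Φ → ℝ}
    {fv : Φ → Bool → ℝ} {a b : Θ → ℝ} {φ : Θ → Fin K → Φ} {ρ ρ' δ : ℝ}
    (hS : FinStruct q th p fv a b φ ρ ρ' δ) {κA : ℕ → A → A → ℝ} (hκA : ∀ d, IsK (κA d))
    {κ : ℕ → S → S → ℝ} (hκ : ∀ d, IsK (κ d)) (σ : A → Fin N → Bool) {πT : T → ℝ}
    (hπT : IsPr πT) (e : T → A) {π : S → ℝ} (hπ : IsPr π) {xv : S → ℝ} (hxv : ∀ u, |xv u| ≤ 1)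
    (d : ℕ) (τ : Tr Unit n d) :
    -(2 * δ * ρ' ^ size d τ) ≤ keyD K N (fun k => ∑ x, q x * keyAv πT e π
      (ev (prodK κA (piK (Fin K) κ)) (fun _ z => -b x * keyP fv σ xv (φ x) (keyW k) z) d τ)) := by
  obtain ⟨hp, hfv, -, -, -, -, hρ', -, hδ, -, hfac, hβ⟩ := hS
  set β := ∑ x, q x * (-b x) ^ size d τ with hβdef
  set Q := ∑ f, p f * keyQ fv κ π xv d τ f with hQ
  have hP : IsP (keyPsi fv κA σ πT e d τ) :=
    isP_mix hπT fun t => isP_law hκA (fun _ _ _ => hfv _ _) d τ _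
  have h1 : ∀ k : Kind K N, ∑ x, q x * keyAv πT e π
      (ev (prodK κA (piK (Fin K) κ)) (fun _ z => -b x * keyP fv σ xv (φ x) (keyW k) z) d τ) =
      keyPsi fv κA σ πT e d τ (fun g => β *
        ∏ j, (keyW k j).elim Q (fun i => ∑ f, p f * g (f, i))) := by
    intro k
    simp only [key_ev fv κA hκ σ πT e hπ]
    rw [← key_Fn_sum]
    refine congrArg _ (funext fun g => ?_)
    rw [hfac (size d τ) (fun j f => (keyW k j).elim (keyQ fv κ π xv d τ f) (fun i => g (f, i)))]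
    refine congrArg _ (Finset.prod_congr rfl fun j _ => ?_)
    cases keyW k j <;> rfl
  have hQ1 : |Q| ≤ 1 := key_abs_sum hp fun f => key_abs_sum hπ fun u => by
    simpa using abs_ev_le hκ (g := fun (_ : Unit) u => keyB fv f (xv u))
      (fun _ u => abs_keyB_le hfv f (hxv u)) d τ u
  simp only [h1]
  rw [keyD_Fn, ← hP.const (-(2 * δ * ρ' ^ size d τ))]
  refine hP.mono fun g hg => ?_
  have h2 := keyD_sum (K := K) (N := N) (fun _ : Unit => β)
    (fun _ k => ∏ j, (keyW k j).elim Q (fun i => ∑ f, p f * g (f, i)))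
  simp only [Fintype.sum_unique] at h2
  rw [h2, keyD_prod hK1]
  obtain ⟨h3, h4⟩ := key_convex hK hK1 (R := avg (fun i => ∑ f, p f * g (f, i)))
    (abs_avg_le zero_le_one fun i => key_abs_sum hp fun f => hg _) hQ1
  have h5 := mul_le_mul_of_nonneg_right (hβ _ (one_le_size d τ)) h3
  have h6 := mul_le_mul_of_nonneg_left h4 (mul_nonneg hδ (pow_nonneg hρ' (size d τ)))
  linarith

end Core

section Core2

variable {Θ Φ A T S : Type} [Fintype Θ] [Fintype Φ] [Fintype A] [Fintype T] [Fintype S]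
  {K N : ℕ}

theorem keyAv_add (πT : T → ℝ) (e : T → A) (π : S → ℝ) (G G' : A × (Fin K → S) → ℝ) :
    keyAv πT e π (fun z => G z + G' z) = keyAv πT e π G + keyAv πT e π G' := by
  simp only [keyAv, mul_add, Finset.sum_add_distrib]

theorem keyAv_sum {α : Type} [Fintype α] (πT : T → ℝ) (e : T → A) (π : S → ℝ) (c : α → ℝ)
    (G : α → A × (Fin K → S) → ℝ) :
    keyAv πT e π (fun z => ∑ x, c x * G x z) = ∑ x, c x * keyAv πT e π (G x) := by
  simp only [keyAv, Finset.mul_sum]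
  rw [Finset.sum_comm (s := (univ : Finset α))]
  refine Finset.sum_congr rfl fun t _ => ?_
  rw [Finset.sum_comm]
  exact Finset.sum_congr rfl fun x _ => Finset.sum_congr rfl fun t' _ => by ring

theorem keyAv_const {πT : T → ℝ} (hπT : IsPr πT) (e : T → A) {π : S → ℝ} (hπ : IsPr π) (c : ℝ) :
    keyAv (K := K) πT e π (fun _ => c) = c := by
  simp only [keyAv, ← Finset.sum_mul, (key_isPr_pi hπ (Fin K)).2, one_mul, hπT.2]

theorem key_core (hK : Even K) (hK1 : 1 ≤ K) {q : Θ → ℝ} (hq : IsPr q) {th : Θ → Cl K}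
    {p : Φ → ℝ} {fv : Φ → Bool → ℝ} {a b : Θ → ℝ} {φ : Θ → Fin K → Φ} {ρ ρ' δ : ℝ}
    (hS : FinStruct q th p fv a b φ ρ ρ' δ) {κA : ℕ → A → A → ℝ} (hκA : ∀ d, IsK (κA d))
    {κ : ℕ → S → S → ℝ} (hκ : ∀ d, IsK (κ d)) (σ : A → Fin N → Bool) {πT : T → ℝ}
    (hπT : IsPr πT) (e : T → A) {π : S → ℝ} (hπ : IsPr π) {xv : S → ℝ} (hxv : ∀ u, |xv u| ≤ 1)
    {μ : ℕ → ℝ} {D : ℕ} (h0 : μ 0 = 1) (hpos : ∀ e, e ≤ D → 0 < μ e)
    (hanti : ∀ e, e < D → μ (e + 1) ≤ μ e) :
    keyD K N (fun k => ∑ x, q x * keyAv πT e π (Rec (prodK κA (piK (Fin K) κ)) μ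
      (fun z => Real.log (1 - -b x * keyP fv σ xv (φ x) (keyW k) z)) (D + 1))) ≤
      2 * δ / (1 - ρ') := by
  have hS' := hS
  obtain ⟨-, hfv, -, hb, hρ0, hρ, hρ'0, hρ', hδ, -⟩ := hS'
  refine le_of_forall_pos_le_add fun ε hε => ?_
  obtain ⟨n, μ', h0', hpos', hanti', happ⟩ := key_approx h0 hpos hanti hρ0 hρ (half_pos hε)
  have hκP : ∀ d, IsK (prodK κA (piK (Fin K) κ) d) :=
    fun d => isK_prodK (hκA d) (isK_piK _ (hκ d))
  have hy : ∀ x (k : Kind K N) z, |-b x * keyP fv σ xv (φ x) (keyW k) z| ≤ ρ := by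
    intro x k z
    rw [abs_mul, abs_neg, keyP, Finset.abs_prod]
    refine (mul_le_of_le_one_right (abs_nonneg _) ?_).trans (hb x)
    exact Finset.prod_le_one (fun _ _ => abs_nonneg _) fun j _ =>
      abs_keyB_le hfv _ (key_cube _ _ (fun j => hxv _) j)
  set X : Tr Unit n (D + 1) → Kind K N → ℝ := fun τ k => ∑ x, q x * keyAv πT e π
    (ev (prodK κA (piK (Fin K) κ)) (fun _ z => -b x * keyP fv σ xv (φ x) (keyW k) z) _ τ) with hX
  refine (keyD_le hK1 (H' := fun k => ∑ τ, -wt μ' _ τ * X τ k) (half_pos hε).le fun k => ?_).trans ?_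
  · have e1 : ∑ τ, -wt μ' _ τ * X τ k = -∑ x, q x * keyAv πT e π (fun z => ∑ τ, wt μ' _ τ *
        ev (n := n) (prodK κA (piK (Fin K) κ))
          (fun (_ : Unit) z => -b x * keyP fv σ xv (φ x) (keyW k) z) (D + 1) τ z) := by
      simp only [keyAv_sum, hX, Finset.mul_sum, ← Finset.sum_neg_distrib]
      rw [Finset.sum_comm]
      exact Finset.sum_congr rfl fun x _ => Finset.sum_congr rfl fun τ _ => by ring
    rw [e1, sub_neg_eq_add, ← Finset.sum_add_distrib]
    simp only [← mul_add, ← keyAv_add]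
    exact key_abs_sum hq fun x => key_abs_sum hπT fun t => key_abs_sum (key_isPr_pi hπ _)
      fun t' => happ _ _ hκP _ (hy x k) _
  · rw [keyD_sum]
    have h1 := sum_wt_le (Λ := Unit) (n := n) (D + 1) h0' hpos' hanti' hρ'0 (by simpa using hρ')
    simp only [Fintype.card_unique, Nat.cast_one, one_mul] at h1
    have h2 : ∑ τ, -wt μ' _ τ * keyD K N (X τ) ≤
        ∑ τ : Tr Unit n (D + 1), 2 * δ * (wt μ' _ τ * ρ' ^ size _ τ) := by
      refine Finset.sum_le_sum fun τ _ => ?_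
      have h3 := key_tree hK hK1 hS hκA hκ σ hπT e hπ hxv (D + 1) τ
      have h4 := mul_le_mul_of_nonneg_left h3
        (wt_nonneg (D + 1) (fun e he => (hpos' e he.le).le) hanti' τ)
      rw [hX]
      linarith
    rw [← Finset.mul_sum] at h2
    have h5 : ρ' / (1 - ρ') ≤ 1 / (1 - ρ') := div_le_div_of_nonneg_right hρ'.le (by linarith)
    have h6 := mul_le_mul_of_nonneg_left (h1.trans h5) (by linarith : 0 ≤ 2 * δ)
    rw [mul_one_div] at h6
    linarith

end Core2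

section Red

variable {S ι : Type} [Fintype S] [Fintype ι] [DecidableEq ι] {K N : ℕ}

open Classical in
noncomputable def keyK (m : Msg S) : ℕ → S → S → ℝ
  | 0 => idK
  | e + 1 => m.κ e

open Classical in
noncomputable def keyKB (N : ℕ) : ℕ → (Fin N → Bool) → (Fin N → Bool) → ℝ
  | 0 => fun _ _ => (Fintype.card (Fin N → Bool) : ℝ)⁻¹
  | _ + 1 => idK

def keyMu (m : Msg S) : ℕ → ℝ
  | 0 => 1
  | e + 1 => m.μ e

theorem isK_keyK {m : Msg S} (hm : m.Good) : ∀ d, IsK (keyK m d)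
  | 0 => by classical exact isK_idK
  | e + 1 => hm.1 e

theorem isK_keyKB (N : ℕ) : ∀ d, IsK (keyKB N d)
  | 0 => ⟨fun _ _ => by simp [keyKB], fun _ => by simp [keyKB]⟩
  | _ + 1 => by classical exact isK_idK

def keyE (S ι : Type) (K : ℕ) : (ι × Fin K → S) × (Fin K → S) ≃ (Option ι × Fin K → S) where
  toFun x := fun oj => oj.1.elim (x.2 oj.2) (fun k => x.1 (k, oj.2))
  invFun y := (fun kj => y (some kj.1, kj.2), fun j => y (none, j))
  left_inv _ := rfl
  right_inv y := by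
    funext oj
    obtain ⟨o, j⟩ := oj
    cases o <;> rfl

theorem key_prod_opt (g : Option ι × Fin K → ℝ) :
    ∏ oj, g oj = (∏ kj : ι × Fin K, g (some kj.1, kj.2)) * ∏ j, g (none, j) := by
  rw [Fintype.prod_prod_type, Fintype.prod_option, Fintype.prod_prod_type, mul_comm]

theorem key_Ex_zero (m : Msg S) (J : Type) [Fintype J] [DecidableEq J] (f : (J → S) → ℝ)
    (t : J → S) : Ex (piK J (keyK m) 0) f t = f t := by
  unfold Ex
  rw [Finset.sum_eq_single t]
  · simp [piK, keyK, idK]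
  · intro u _ hu
    obtain ⟨j, hj⟩ := Function.ne_iff.1 hu
    rw [piK, Finset.prod_eq_zero (mem_univ j) (by simp [keyK, idK, Ne.symm hj]), zero_mul]
  · intro h; exact absurd (mem_univ _) h

/-- Log weight of the old system. -/
noncomputable def keyL (m : Msg S) (h : Fin N → ℝ) (c : ι → Cl K × Kind K N)
    (x : (ι × Fin K → S) × (Fin N → Bool)) : ℝ :=
  ∑ v, h v * spin (x.2 v) +
    ∑ k, Real.log (slotF (c k).1 (c k).2 x.2 (fun j => m.xv (x.1 (k, j))))

theorem key_Xs {m : Msg S} (hm : m.Good) (h : Fin N → ℝ) (c : ι → Cl K × Kind K N) (θ : Cl K)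
    (k : Kind K N) :
    Xs m h (fun o : Option ι => o.elim (θ, k) c) =
      keyAv (fun t : ι × Fin K → S => ∏ j, m.π (t j)) (fun t => (t, fun _ => false)) m.π
        (Rec (prodK (prodK (piK (ι × Fin K) (keyK m)) (keyKB N)) (piK (Fin K) (keyK m)))
          (keyMu m) (fun z => keyL m h c z.1 +
            Real.log (slotF θ k z.1.2 (fun j => m.xv (z.2 j)))) (m.r + 1)) +
        Real.log (Fintype.card (Fin N → Bool)) := by
  obtain ⟨hκ, hπ0, hπ1, hxv, hμ, -⟩ := id hm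
  have hπ : IsPr m.π := ⟨hπ0, hπ1⟩
  set κP := prodK (prodK (piK (ι × Fin K) (keyK m)) (keyKB N)) (piK (Fin K) (keyK m)) with hκP
  set F : (Option ι × Fin K → S) → ℝ := fun t => Real.log (∑ s : Fin N → Bool,
    Real.exp (∑ v, h v * spin (s v)) * ∏ o : Option ι, slotF (o.elim (θ, k) c).1
      (o.elim (θ, k) c).2 s (fun j => m.xv (t (o, j)))) with hF
  set L : ((ι × Fin K → S) × (Fin N → Bool)) × (Fin K → S) → ℝ := fun z => keyL m h c z.1 +
    Real.log (slotF θ k z.1.2 (fun j => m.xv (z.2 j))) with hL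
  have hc : (0 : ℝ) < Fintype.card (Fin N → Bool) := by exact_mod_cast Fintype.card_pos
  have hpos : ∀ (θ : Cl K) (k : Kind K N) s (t : Fin K → S),
      0 < slotF θ k s (fun j => m.xv (t j)) := fun θ k s t => slotF_pos θ k s fun j => hxv _
  have h1 : Rec κP (keyMu m) L 1 = fun z =>
      F (keyE S ι K (Prod.map Prod.fst (fun x => x) z)) -
        Real.log (Fintype.card (Fin N → Bool)) := by
    funext z
    rw [Rec_succ, hκP, Ex_prodK, Ex_prodK, key_Ex_zero]
    simp only [key_Ex_zero]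
    have e1 : ∀ s : Fin N → Bool, Real.exp (L ((z.1.1, s), z.2)) =
        Real.exp (∑ v, h v * spin (s v)) * ∏ o : Option ι, slotF (o.elim (θ, k) c).1
          (o.elim (θ, k) c).2 s
          (fun j => m.xv (keyE S ι K (Prod.map Prod.fst (fun x => x) z) (o, j))) := by
      intro s
      rw [hL, Fintype.prod_option]
      simp only [keyL, Real.exp_add, Real.exp_sum, Real.exp_log (hpos _ _ _ _)]
      rw [mul_assoc, ← Real.exp_sum]
      exact congrArg _ (mul_comm _ _)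
    have e2 : 0 < ∑ s : Fin N → Bool, Real.exp (L ((z.1.1, s), z.2)) :=
      Finset.sum_pos (fun _ _ => Real.exp_pos _) univ_nonempty
    simp only [hF, ← e1, keyMu, Rec, Ex, keyKB, inv_one, one_mul]
    rw [← Finset.mul_sum, Real.log_mul (inv_pos.2 hc).ne' e2.ne', Real.log_inv]
    ring
  have h2 : ∀ e, IsMor (fun z => keyE S ι K (Prod.map Prod.fst (fun x => x) z)) (κP (e + 1))
      (piK (Option ι × Fin K) m.κ e) := by
    intro e
    refine IsMor.comp (κ' := prodK (piK (ι × Fin K) (keyK m)) (piK (Fin K) (keyK m)) (e + 1))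
      (isMor_of_equiv (keyE S ι K) fun s t => ?_)
      (isMor_prodMap (isMor_fst _ (isK_keyKB N _)) (isMor_id _))
    simp only [prodK, piK]
    rw [key_prod_opt]
    rfl
  have h3 : ∀ z, Rec κP (keyMu m) L (m.r + 1) z =
      Rec (piK (Option ι × Fin K) m.κ) m.μ F m.r (keyE S ι K (Prod.map Prod.fst (fun x => x) z)) -
        Real.log (Fintype.card (Fin N → Bool)) := by
    intro z
    rw [add_comm m.r 1, Rec_shift, h1, Rec_congr (κ' := fun e => κP (e + 1)) (μ' := m.μ) _ _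
      (fun e _ => by rw [add_comm]) (fun e _ => by rw [add_comm]; rfl),
      Rec_mor m.μ (fun t => F t - Real.log (Fintype.card (Fin N → Bool))) m.r (fun e _ => h2 e)]
    simp only [sub_eq_add_neg]
    exact Rec_add_const (fun d => isK_piK _ (hκ d)) _ _ _ (fun e he => (hμ e he).1.ne') _
  rw [← keyAv_const (K := K) (key_isPr_pi hπ (ι × Fin K))
    (fun t => (t, fun _ : Fin N => false)) hπ (Real.log (Fintype.card (Fin N → Bool))),
    ← keyAv_add]
  simp only [h3, sub_add_cancel]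
  rw [Xs, Tfin, ← (keyE S ι K).sum_comp, Fintype.sum_prod_type, keyAv]
  refine Finset.sum_congr rfl fun t _ => ?_
  rw [Finset.mul_sum]
  refine Finset.sum_congr rfl fun t' _ => ?_
  rw [key_prod_opt, mul_assoc]
  rfl

end Red

theorem key_ineq {Θ Φ S ι : Type} [Fintype Θ] [Fintype Φ] [Fintype S] [Fintype ι] [DecidableEq ι]
    {K N : ℕ} (hK : Even K) (hK1 : 1 ≤ K) (hN : 1 ≤ N) {q : Θ → ℝ} (hq : IsPr q)
    {th : Θ → Cl K} {p : Φ → ℝ} {fv : Φ → Bool → ℝ} {a b : Θ → ℝ} {φ : Θ → Fin K → Φ}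
    {ρ ρ' δ : ℝ} (hS : FinStruct q th p fv a b φ ρ ρ' δ) {m : Msg S} (hm : m.Good)
    (h : Fin N → ℝ) (c : ι → Cl K × Kind K N) :
    ∑ x, q x * ((1 / (K : ℝ)) * avg (fun i : Fin K → Fin N =>
          Xs m h (fun o : Option ι => o.elim (th x, Sum.inl i) c)) +
        (((K : ℝ) - 1) / K) *
          Xs m h (fun o : Option ι => o.elim (th x, Sum.inr (Sum.inr ())) c)) ≤
      ∑ x, q x * avg (fun li : Fin K × Fin N =>
          Xs m h (fun o : Option ι => o.elim (th x, Sum.inr (Sum.inl li)) c)) +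
        2 * δ / (1 - ρ') := by
  obtain ⟨hκ, hπ0, hπ1, hxv, hμ, hμ'⟩ := id hm
  obtain ⟨-, hfv, ha, -, -, -, -, -, -, hexp, -⟩ := id hS
  have hπ : IsPr m.π := ⟨hπ0, hπ1⟩
  have hκA : ∀ d, IsK (prodK (piK (ι × Fin K) (keyK m)) (keyKB N) d) :=
    fun d => isK_prodK (isK_piK _ (isK_keyK hm d)) (isK_keyKB N d)
  have hκN : ∀ d, IsK (piK (Fin K) (keyK m) d) := fun d => isK_piK _ (isK_keyK hm d)
  have hpos : ∀ e, e ≤ m.r → 0 < keyMu m e := by
    intro e he
    cases e with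
    | zero => exact one_pos
    | succ e => exact (hμ e he).1
  have hanti : ∀ e, e < m.r → keyMu m (e + 1) ≤ keyMu m e := by
    intro e he
    cases e with
    | zero => exact (hμ 0 he).2.le
    | succ e => exact (hμ' e he).le
  set κt := tilt (prodK (piK (ι × Fin K) (keyK m)) (keyKB N)) (keyMu m) (keyL m h c) with hκt
  have hκt' : ∀ d, IsK (κt d) := fun d => isK_tilt _ _ (hκA d)
  have h1 := key_core hK hK1 hq hS hκt' (isK_keyK hm) Prod.snd (key_isPr_pi hπ (ι × Fin K))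
    (fun t => (t, fun _ : Fin N => false)) hπ hxv (μ := keyMu m) rfl hpos hanti
  obtain ⟨C, hC⟩ : ∃ C : ℝ, ∀ x (k : Kind K N),
      Xs m h (fun o : Option ι => o.elim (th x, k) c) =
      keyAv (fun t : ι × Fin K → S => ∏ j, m.π (t j)) (fun t => (t, fun _ => false)) m.π
        (Rec (prodK κt (piK (Fin K) (keyK m))) (keyMu m)
          (fun z => Real.log (1 - -b x * keyP fv Prod.snd m.xv (φ x) (keyW k) z)) (m.r + 1)) +
        (Real.log (a x) + C) := by
    refine ⟨keyAv (fun t : ι × Fin K → S => ∏ j, m.π (t j)) (fun t => (t, fun _ => false)) m.π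
      (Rec (prodK (prodK (piK (ι × Fin K) (keyK m)) (keyKB N)) (piK (Fin K) (keyK m)))
        (keyMu m) (fun z => keyL m h c z.1) (m.r + 1)) +
      Real.log (Fintype.card (Fin N → Bool)), fun x k => ?_⟩
    have e1 : ∀ z : ((ι × Fin K → S) × (Fin N → Bool)) × (Fin K → S),
        Real.log (slotF (th x) k z.1.2 (fun j => m.xv (z.2 j))) =
          Real.log (1 - -b x * keyP fv Prod.snd m.xv (φ x) (keyW k) z) + Real.log (a x) := by
      intro z
      have e2 := slotF_pos (th x) k z.1.2 (y := fun j => m.xv (z.2 j)) fun j => hxv _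
      rw [key_slotF, key_hat fv (φ x) (a x) (b x) (hexp x)] at e2 ⊢
      rw [Real.log_mul (ha x).ne' ((mul_pos_iff_of_pos_left (ha x)).1 e2).ne', add_comm]
      rfl
    have e3 : Rec (prodK (prodK (piK (ι × Fin K) (keyK m)) (keyKB N)) (piK (Fin K) (keyK m)))
          (keyMu m) (fun z => keyL m h c z.1 +
            Real.log (slotF (th x) k z.1.2 (fun j => m.xv (z.2 j)))) (m.r + 1) = fun z =>
        Rec (prodK (prodK (piK (ι × Fin K) (keyK m)) (keyKB N)) (piK (Fin K) (keyK m)))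
          (keyMu m) (fun z => keyL m h c z.1) (m.r + 1) z +
        (Rec (prodK κt (piK (Fin K) (keyK m))) (keyMu m)
          (fun z => Real.log (1 - -b x * keyP fv Prod.snd m.xv (φ x) (keyW k) z)) (m.r + 1) z +
          Real.log (a x)) := by
      funext z
      rw [Rec_tilt (fun d => isK_prodK (hκA d) (hκN d)), tilt_prodK_fst hκN]
      simp only [e1]
      rw [Rec_add_const (fun d => isK_prodK (hκt' d) (hκN d)) _ _ _
        (fun e he => (hpos e (by omega)).ne')]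
    rw [key_Xs hm, e3, keyAv_add, keyAv_add, keyAv_const (key_isPr_pi hπ _) _ hπ]
    ring
  rw [keyD_sum] at h1
  have h2 : ∑ x, q x * keyD K N (fun k => Xs m h (fun o : Option ι => o.elim (th x, k) c)) ≤
      2 * δ / (1 - ρ') := by
    simp only [hC, keyD_add_const hK1 hN]
    exact h1
  simp only [keyD, mul_sub, Finset.sum_sub_distrib] at h2
  linarith

end Vale.Agent.P168
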