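import Vale.Agent.P168MP.Law

/-! From block decorrelation to a small total variance. -/

namespace Vale.Agent.P168

open Finset

lemma vr_prod_sub {J : Type} (A : Finset J) {a b : J → ℝ} (ha : ∀ j, |a j| ≤ 1)
    (hb : ∀ j, |b j| ≤ 1) : |∏ j ∈ A, a j - ∏ j ∈ A, b j| ≤ ∑ j ∈ A, |a j - b j| := by
  classical
  induction A using Finset.induction_on with
  | empty => simp
  | insert j A hj ih =>
    rw [prod_insert hj, prod_insert hj, sum_insert hj,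
      show ∀ x y u v : ℝ, x * u - y * v = (x - y) * u + y * (u - v) by intros; ring]
    refine (abs_add_le _ _).trans (add_le_add ?_ ?_) <;> rw [abs_mul]
    · refine mul_le_of_le_one_right (abs_nonneg _) ?_
      rw [abs_prod]
      exact prod_le_one (fun _ _ => abs_nonneg _) fun j _ => ha j
    · exact (mul_le_of_le_one_left (abs_nonneg _) (hb j)).trans ih

lemma vr_geo {x : ℝ} (h0 : 0 ≤ x) (h1 : x < 1) (n : ℕ) :
    ∑ c : Fin n, x ^ (c.val + 1) ≤ x / (1 - x) := by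
  rw [Fin.sum_univ_eq_sum_range fun c => x ^ (c + 1)]
  simp only [pow_succ', ← mul_sum]
  rw [div_eq_mul_inv, ← tsum_geometric_of_lt_one h0 h1]
  exact mul_le_mul_of_nonneg_left ((summable_geometric_of_lt_one h0 h1).sum_le_tsum _
    fun _ _ => by positivity) h0

lemma vr_sum_pi {T : Type} [Fintype T] (w g : T → ℝ) (c : ℕ) :
    ∑ f : Fin (c + 1) → T, (∏ b, w (f b)) * ∑ b, g (f b) =
      (c + 1) * ((∑ ρ, w ρ) ^ c * ∑ ρ, w ρ * g ρ) := by
  simp only [mul_sum (s := (univ : Finset (Fin (c + 1))))]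
  rw [sum_comm]
  have : ∀ b : Fin (c + 1), ∑ f : Fin (c + 1) → T, (∏ b, w (f b)) * g (f b) =
      (∑ ρ, w ρ) ^ c * ∑ ρ, w ρ * g ρ := fun b => by
    have h := Fintype.prod_sum fun (b' : Fin (c + 1)) ρ => w ρ * if b' = b then g ρ else 1
    simp only [prod_mul_distrib, prod_ite_eq', mem_univ, if_true] at h
    rw [← h, Fin.prod_univ_succAbove _ b]
    simp [mul_comm]
  simp [this]

section

variable {S : Type} [Fintype S]

/-- One step variance. -/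
def vrV (κ : S → S → ℝ) (g : S → ℝ) (s : S) : ℝ := Ex κ (fun t => g t ^ 2) s - Ex κ g s ^ 2

lemma vr_dev {κ : S → S → ℝ} (h : IsK κ) (g : S → ℝ) (m : ℝ) (s : S) :
    Ex κ (fun t => (g t - m) ^ 2) s = vrV κ g s + (Ex κ g s - m) ^ 2 := by
  have : (fun t => (g t - m) ^ 2) = fun t => g t ^ 2 - 2 * m * g t + m ^ 2 := by
    funext t; ring
  rw [this, Ex_add, Ex_sub, Ex_mul_left, h.Ex_const, vrV]
  ring

lemma vr_var_prod {κ : S → S → ℝ} (h : IsK κ) {c : ℕ} {a : Fin (c + 1) → S → ℝ}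
    (ha : ∀ b t, |a b t| ≤ 1) (s : S) :
    vrV κ (fun t => ∏ b, a b t) s ≤ 2 ^ c * ∑ b, vrV κ (a b) s := by
  have h1 := vr_dev h (fun t => ∏ b, a b t) (∏ b, Ex κ (a b) s) s
  have h2 := h.Ex_mono (f := fun t => (∏ b, a b t - ∏ b, Ex κ (a b) s) ^ 2)
    (g := fun t => 2 ^ c * ∑ b, (a b t - Ex κ (a b) s) ^ 2) (fun t => by
      rw [← sq_abs]
      refine (pow_le_pow_left₀ (abs_nonneg _) (vr_prod_sub _ (fun b => ha b t)
        fun b => h.abs_Ex_le (ha b) s) 2).trans (sq_sum_le_card_mul_sum_sq.trans ?_)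
      simp only [sq_abs, card_univ, Fintype.card_fin]
      exact mul_le_mul_of_nonneg_right (by exact_mod_cast Nat.lt_two_pow_self)
        (sum_nonneg fun _ _ => sq_nonneg _)) s
  rw [Ex_mul_left, Ex_sum] at h2
  simp only [vr_dev h, sub_self, ne_eq, OfNat.ofNat_ne_zero, not_false_eq_true, zero_pow,
    add_zero] at h2
  linarith [sq_nonneg (Ex κ (fun t => ∏ b, a b t) s - ∏ b, Ex κ (a b) s)]

variable {N n : ℕ}

/-- The tree with one child. -/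
def vrOne {d : ℕ} (ρ : Tr Bool (n + 1) d) : Tr Bool (n + 1) (d + 1) := Tr.node 0 fun _ => ρ

/-- Weight of a tree. -/
noncomputable def vrW (r d : ℕ) (τ : Tr Bool n d) : ℝ := wt (mu r) d τ * (1 / 8) ^ size d τ

lemma vr_w_nonneg (r d : ℕ) (τ : Tr Bool n d) : 0 ≤ vrW r d τ :=
  mul_nonneg (wt_mu_nonneg _ _ _) (by positivity)

lemma vr_w_sum (r n d : ℕ) : ∑ τ : Tr Bool n d, vrW r d τ ≤ 1 / 3 :=
  (sum_wt_le d (mu_zero r) (fun e _ => mu_pos r e) (fun e _ => mu_succ_le r e) (by norm_num)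
    (by norm_num)).trans (by norm_num)

lemma vr_w_node (r : ℕ) {d : ℕ} (c : Fin n) (f : Fin (c.val + 1) → Tr Bool n d) :
    vrW r (d + 1) (Tr.node c f) = bco (mu r (d + 1)) (mu r d) c * ∏ b, vrW r d (f b) := by
  simp only [vrW, prod_mul_distrib, prod_pow_eq_pow_sum, ← mul_assoc]
  rfl

lemma vr_split (r : ℕ) {d : ℕ} (G : Tr Bool (n + 1) (d + 1) → ℝ) :
    ∑ τ, vrW r (d + 1) τ * G τ = ∑ ρ, vrW r d ρ * G (vrOne ρ) +
      ∑ c : Fin n, ∑ f, vrW r (d + 1) (Tr.node c.succ f) * G (Tr.node c.succ f) := by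
  rw [sum_Tr_succ, Fin.sum_univ_succ]
  congr 1
  refine ((Equiv.funUnique (Fin 1) _).symm.sum_comp _).symm.trans (sum_congr rfl fun ρ _ => ?_)
  refine congrArg (· * G (vrOne ρ)) ((vr_w_node r 0 fun _ => ρ).trans ?_)
  exact (congrArg₂ (· * ·) (bco_zero _ _) (Fin.prod_univ_one fun _ => vrW r d ρ)).trans (one_mul _)

lemma vr_ge (r : ℕ) {d : ℕ} {G : Tr Bool (n + 1) (d + 1) → ℝ} (hG : ∀ τ, 0 ≤ G τ) :
    ∑ ρ, vrW r d ρ * G (vrOne ρ) ≤ ∑ τ, vrW r (d + 1) τ * G τ := by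
  rw [vr_split]
  exact le_add_of_nonneg_right (sum_nonneg fun _ _ => sum_nonneg fun _ _ =>
    mul_nonneg (vr_w_nonneg _ _ _) (hG _))

lemma vr_branch (r : ℕ) {d : ℕ} {g : Tr Bool (n + 1) d → ℝ} (hg : ∀ ρ, 0 ≤ g ρ) {a : ℝ}
    (h0 : 0 ≤ a) (h3 : a < 3) :
    ∑ c : Fin n, ∑ f, vrW r (d + 1) (Tr.node c.succ f) * (a ^ (c.val + 1) * ∑ b, g (f b)) ≤
      1 / ((r : ℝ) + 1) * (a / (3 - a) * ∑ ρ, vrW r d ρ * g ρ) := by
  have h1 : 0 ≤ ∑ ρ, vrW r d ρ * g ρ := sum_nonneg fun ρ _ => mul_nonneg (vr_w_nonneg _ _ _) (hg ρ)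
  have h2 := vr_geo (x := a / 3) (by positivity) (by linarith) n
  rw [show a / 3 / (1 - a / 3) = a / (3 - a) by field_simp] at h2
  refine le_trans (sum_le_sum fun c _ => ?_) ((mul_sum _ _ _).symm.le.trans
    (mul_le_mul_of_nonneg_left ((sum_mul _ _ _).symm.le.trans (mul_le_mul_of_nonneg_right h2 h1))
      (by positivity)))
  simp only [vr_w_node, mul_left_comm _ (a ^ _), mul_assoc, ← mul_sum]
  rw [vr_sum_pi, Fin.val_succ, div_pow, mul_left_comm (1 / _), div_eq_mul_one_div (a ^ _),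
    mul_assoc]
  refine mul_le_mul_of_nonneg_left ?_ (by positivity)
  have h4 := bco_le (mu_pos r (d + 1)).le (mu_succ_le r d) (mu_le_one r d)
    (show 1 ≤ c.val + 1 by omega)
  have h5 : 0 ≤ ∑ ρ : Tr Bool (n + 1) d, vrW r d ρ := sum_nonneg fun _ _ => vr_w_nonneg _ _ _
  rw [le_div_iff₀ (by positivity)] at h4
  rw [← mul_assoc, mul_left_comm (1 / _), ← one_div_pow]
  refine mul_le_mul (h4.trans (mu_sub_le r d)) (mul_le_mul_of_nonneg_right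
    (pow_le_pow_left₀ h5 (vr_w_sum _ _ _) _) h1) (by positivity) (by positivity) |>.trans_eq ?_
  ring

variable (r : ℕ) (κ : ℕ → S → S → ℝ) (σ : S → Fin N → Bool) (s₀ : S)

/-- Expectation at height `d`. -/
def vrE (d : ℕ) (f : S → ℝ) : ℝ := Pr κ d (2 * r + 1 - d) f s₀

/-- Energy of the means. -/
noncomputable def vrEn (d : ℕ) (ρ : Tr Bool n d) : ℝ :=
  vrE r κ s₀ d fun s => avg fun i => Mv κ σ d ρ s i ^ 2

/-- Loss of energy in one step. -/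
noncomputable def vrI (d : ℕ) (ρ : Tr Bool n d) : ℝ :=
  vrE r κ s₀ (d + 1) fun s => avg fun i => vrV (κ d) (fun t => Mv κ σ d ρ t i) s

/-- Expected variance. -/
noncomputable def vrU (d : ℕ) (ρ : Tr Bool n d) : ℝ :=
  vrE r κ s₀ d fun s => Vs (law κ (ind σ) d ρ s)

variable {r κ σ s₀}

lemma vr_E_succ {d : ℕ} (hd : d ≤ 2 * r) (f : S → ℝ) :
    vrE r κ s₀ d f = vrE r κ s₀ (d + 1) (Ex (κ d) f) := by
  rw [vrE, vrE, show 2 * r + 1 - d = 2 * r + 1 - (d + 1) + 1 by omega, Pr_succ']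

lemma vr_Mv_one {d : ℕ} (ρ : Tr Bool (n + 1) d) (s : S) (i : Fin N) :
    Mv κ σ (d + 1) (vrOne ρ) s i = Ex (κ d) (fun t => Mv κ σ d ρ t i) s :=
  Fin.prod_univ_one fun _ => Ex (κ d) (fun t => Mv κ σ d ρ t i) s

lemma vr_law_one {d : ℕ} (ρ : Tr Bool (n + 1) d) (s : S) :
    law κ (ind σ) (d + 1) (vrOne ρ) s = mix (κ d s) (law κ (ind σ) d ρ) := convF_one _

lemma vr_I_eq {d : ℕ} (hd : d ≤ 2 * r) (ρ : Tr Bool (n + 1) d) :
    vrI r κ σ s₀ d ρ = vrEn r κ σ s₀ d ρ - vrEn r κ σ s₀ (d + 1) (vrOne ρ) := by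
  rw [vrEn, vr_E_succ hd, vrEn, vrE, vrE, ← Pr_sub, vrI, vrE]
  simp only [vrV, avg_sub, Ex_avg, vr_Mv_one]

variable (hκ : ∀ d, IsK (κ d))
include hκ

lemma vr_P (d : ℕ) (ρ : Tr Bool n d) (s : S) : IsP (law κ (ind σ) d ρ s) :=
  isP_law hκ (cube_ind σ) d ρ s

lemma vr_cube (d : ℕ) (ρ : Tr Bool n d) (s : S) : Cube (Mv κ σ d ρ s) :=
  mean_law_ind κ σ d ρ s ▸ (vr_P hκ d ρ s).cube_mean

lemma vr_I_nonneg (d : ℕ) (ρ : Tr Bool n d) : 0 ≤ vrI r κ σ s₀ d ρ :=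
  Pr_nonneg hκ _ _ (fun s => avg_nonneg fun _ => sub_nonneg.2 ((hκ d).Ex_sq_le _ s)) _

lemma vr_U_nonneg (d : ℕ) (ρ : Tr Bool n d) : 0 ≤ vrU r κ σ s₀ d ρ :=
  Pr_nonneg hκ _ _ (fun s => (vr_P hκ d ρ s).Vs_nonneg) _

lemma vr_En (d : ℕ) (ρ : Tr Bool n d) : 0 ≤ vrEn r κ σ s₀ d ρ ∧ vrEn r κ σ s₀ d ρ ≤ 1 :=
  ⟨Pr_nonneg hκ _ _ (fun _ => avg_nonneg fun _ => sq_nonneg _) _,
    (Pr_mono hκ _ _ (fun s => (le_abs_self _).trans (abs_avg_le zero_le_one fun i => by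
      rw [abs_pow]; exact pow_le_one₀ (abs_nonneg _) (vr_cube hκ d ρ s i))) _).trans_eq
      (Pr_const hκ _ _ _ _)⟩

lemma vr_J_sum {m : ℕ} (hm : m ≤ 2 * r) :
    ∑ d ∈ range m, ∑ ρ : Tr Bool (n + 1) d, vrW r d ρ * vrI r κ σ s₀ d ρ ≤ 1 / 3 := by
  refine le_trans (b := ∑ ρ : Tr Bool (n + 1) m, vrW r m ρ * (1 - vrEn r κ σ s₀ m ρ)) ?_
    ((sum_le_sum fun ρ _ => mul_le_of_le_one_right (vr_w_nonneg _ _ _)
      (sub_le_self _ (vr_En hκ _ _).1)).trans (vr_w_sum _ _ _))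
  induction m with
  | zero =>
    exact sum_nonneg fun ρ _ => mul_nonneg (vr_w_nonneg _ _ _) (sub_nonneg.2 (vr_En hκ _ _).2)
  | succ m ih =>
    rw [sum_range_succ]
    refine (add_le_add_left (ih (by omega)) _).trans (le_trans (le_of_eq ?_)
      (vr_ge r fun τ => sub_nonneg.2 (vr_En hκ _ τ).2))
    rw [← sum_add_distrib]
    exact sum_congr rfl fun ρ _ => by rw [vr_I_eq (by omega)]; ring

lemma vr_U_one {d : ℕ} (hd : d ≤ 2 * r) (ρ : Tr Bool (n + 1) d) :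
    vrU r κ σ s₀ (d + 1) (vrOne ρ) ≤ vrU r κ σ s₀ d ρ + vrI r κ σ s₀ d ρ := by
  rw [vrU, vrU, vr_E_succ hd, vrI, vrE, vrE, vrE, ← Pr_add]
  refine Pr_mono hκ _ _ (fun s => ?_) _
  have h := Vs_mix ((hκ d).isPr s) (vr_P hκ (σ := σ) d ρ)
  simp only [mean_law_ind] at h
  rw [vr_law_one]
  simp only [vrV, avg_sub, ← Ex_avg]
  exact h

lemma vr_U_node {d : ℕ} (c : Fin (n + 1)) (f : Fin (c.val + 1) → Tr Bool (n + 1) d) :
    vrU r κ σ s₀ (d + 1) (Tr.node c f) ≤ ∑ b, vrU r κ σ s₀ (d + 1) (vrOne (f b)) := by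
  simp only [vrU, vrE, ← Pr_sum, vr_law_one]
  exact Pr_mono hκ _ _ (fun s => Vs_convF _ fun b => isP_mix ((hκ d).isPr s) (vr_P hκ d _)) _

lemma vr_I_node {d : ℕ} (c : Fin (n + 1)) (f : Fin (c.val + 1) → Tr Bool (n + 1) d) :
    vrI r κ σ s₀ (d + 1) (Tr.node c f) ≤ 2 ^ c.val * ∑ b, vrI r κ σ s₀ (d + 1) (vrOne (f b)) := by
  simp only [vrI, vrE, ← Pr_sum, ← Pr_mul_left, ← avg_sum, ← avg_mul_left]
  refine Pr_mono hκ _ _ (fun s => avg_mono fun i => le_trans (le_of_eq ?_)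
    (vr_var_prod (hκ _) (fun b t => vr_cube hκ _ (vrOne (f b)) t i) s)) _
  simp only [vr_Mv_one]
  rfl

lemma vr_U_two {ε : ℝ} (h : Dec r (n + 1) κ σ s₀ ε) {e : ℕ} (he : e < r)
    (ρ : Tr Bool (n + 1) (2 * e)) :
    vrW r (2 * e) ρ * vrU r κ σ s₀ (2 * e + 1 + 1) (vrOne (vrOne ρ)) ≤
      vrW r (2 * e) ρ * vrU r κ σ s₀ (2 * e) ρ + vrW r (2 * e) ρ * ε := by
  by_cases h0 : wt (mu r) (2 * e) ρ = 0
  · simp [vrW, h0]
  obtain ⟨w, h1, h2⟩ := h e he ρ h0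
  rw [← mul_add]
  refine mul_le_mul_of_nonneg_left (le_trans ?_ (add_le_add le_rfl h2)) (vr_w_nonneg _ _ _)
  rw [vrU, vrU, vr_E_succ (d := 2 * e) (by omega), vr_E_succ (d := 2 * e + 1) (by omega), vrE, vrE,
    show 2 * (r - e) - 1 = 2 * r + 1 - (2 * e + 1 + 1) by omega, ← Pr_add]
  refine Pr_mono hκ _ _ (fun s => Vs_le fun y hy => ?_) _
  have h3 := (hκ (2 * e + 1)).Ex_mono (fun t => (hκ (2 * e)).Ex_mono
    (fun u => (vr_P hκ (σ := σ) _ ρ u).var_le_Vs hy) t) s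
  have h4 := h1 s y hy
  simp only [vr_law_one, Var_mix, mix_apply, apply_lin (law _ _ _ _ _), mean_law_ind, mul_add,
    mul_sub, sum_add_distrib, sum_sub_distrib]
  simp only [var2, Pr, Ex, add_zero] at h3 h4 ⊢
  linarith

lemma vr_step {ε : ℝ} (hε : 0 ≤ ε) (h : Dec r (n + 1) κ σ s₀ ε) {e : ℕ} (he : e < r) :
    ∑ τ : Tr Bool (n + 1) (2 * e + 1 + 1), vrW r _ τ * vrU r κ σ s₀ _ τ ≤
      (1 + 1 / ((r : ℝ) + 1) / 2) * ∑ ρ : Tr Bool (n + 1) (2 * e), vrW r _ ρ * vrU r κ σ s₀ _ ρ +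
        (ε / 3 + 1 / ((r : ℝ) + 1) * 2 *
          (∑ ρ : Tr Bool (n + 1) (2 * e), vrW r _ ρ * vrI r κ σ s₀ _ ρ +
            ∑ ρ : Tr Bool (n + 1) (2 * e + 1), vrW r _ ρ * vrI r κ σ s₀ _ ρ)) := by
  have a0 : ∀ (c : Fin n) f, vrW r (2 * e + 1 + 1) (Tr.node c.succ f) = 0 := fun c f => by
    rw [vr_w_node, mu_even, bco_self (by simp), zero_mul]
  have a1 := sum_le_sum fun ρ (_ : ρ ∈ univ) => vr_U_two hκ h he ρ
  have a2 := mul_le_mul_of_nonneg_right (vr_w_sum r (n + 1) (2 * e)) hε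
  have a3 := vr_branch r (fun ρ : Tr Bool (n + 1) (2 * e) => add_nonneg
    (vr_U_nonneg hκ (r := r) (σ := σ) (s₀ := s₀) _ ρ)
    (vr_I_nonneg hκ (r := r) (σ := σ) (s₀ := s₀) _ ρ)) (a := 1) zero_le_one (by norm_num)
  have a4 := vr_branch r (fun ρ : Tr Bool (n + 1) (2 * e) =>
    vr_I_nonneg hκ (r := r) (σ := σ) (s₀ := s₀) _ (vrOne ρ)) (a := 2) zero_le_two (by norm_num)
  have a5 := mul_le_mul_of_nonneg_left (vr_ge r fun τ : Tr Bool (n + 1) (2 * e + 1) =>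
    vr_I_nonneg hκ (r := r) (σ := σ) (s₀ := s₀) _ τ) (show 0 ≤ 1 / ((r : ℝ) + 1) by positivity)
  have a6 := mul_nonneg (show 0 ≤ 1 / ((r : ℝ) + 1) by positivity)
    (sum_nonneg fun (ρ : Tr Bool (n + 1) (2 * e)) (_ : ρ ∈ univ) => mul_nonneg
      (vr_w_nonneg r _ ρ) (vr_I_nonneg hκ (r := r) (σ := σ) (s₀ := s₀) _ ρ))
  rw [vr_split, vr_split]
  simp only [a0, zero_mul, sum_const_zero, add_zero]
  refine (add_le_add a1 ((sum_le_sum fun (c : Fin n) _ => sum_le_sum fun f _ => ?_).trans_eq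
    ((sum_congr rfl fun c _ => sum_add_distrib).trans sum_add_distrib) |>.trans
      (add_le_add a3 a4))).trans ?_
  swap
  · simp only [mul_add, sum_add_distrib, ← sum_mul] at a2 a5 a6 ⊢
    linarith
  · rw [← mul_add, one_pow, one_mul]
    refine mul_le_mul_of_nonneg_left ((vr_U_one hκ (by omega) _).trans (add_le_add
      ((vr_U_node hκ _ _).trans (sum_le_sum fun b _ => vr_U_one hκ (by omega) _))
      (vr_I_node hκ _ _))) (vr_w_nonneg _ _ _)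

end

theorem totVar_le {S : Type} [Fintype S] {N : ℕ} (r n : ℕ) {κ : ℕ → S → S → ℝ}
    (hκ : ∀ d, IsK (κ d)) (σ : S → Fin N → Bool) (s₀ : S) {ε : ℝ} (hε : 0 ≤ ε)
    (h : Dec r n κ σ s₀ ε) : totVar r n κ σ s₀ ≤ 2 * r * ε + 10 / ((r : ℝ) + 1) := by
  have h0 : ∀ (n : ℕ) (ρ : Tr Bool n 0), vrU r κ σ s₀ 0 ρ = 0 := fun n ρ =>
    (congrArg (vrE r κ s₀ 0) (funext fun s => Vs_dlt _)).trans (Pr_const hκ _ _ _ _)
  have e : totVar r n κ σ s₀ = ∑ τ : Tr Bool n (2 * r), vrW r _ τ * vrU r κ σ s₀ _ τ := by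
    simp only [vrU, vrE, Nat.add_sub_cancel_left]
    rfl
  rw [e]
  cases n with
  | zero =>
    refine le_trans (le_of_eq ?_) (by positivity : (0 : ℝ) ≤ _)
    generalize 2 * r = d
    cases d with
    | zero => simp [h0]
    | succ d => simp [sum_Tr_succ]
  | succ n =>
    obtain ⟨Δ, hΔ⟩ : ∃ Δ, Δ = 1 / ((r : ℝ) + 1) := ⟨_, rfl⟩
    have d0 : 0 ≤ Δ := by rw [hΔ]; positivity
    have d1 : r * Δ ≤ 1 := by
      rw [hΔ, mul_one_div, div_le_one (by positivity)]; linarith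
    have hJ := fun d => sum_nonneg fun (ρ : Tr Bool (n + 1) d) (_ : ρ ∈ univ) => mul_nonneg
      (vr_w_nonneg r _ ρ) (vr_I_nonneg hκ (r := r) (σ := σ) (s₀ := s₀) _ ρ)
    have key : ∀ e ≤ r, ∑ τ : Tr Bool (n + 1) (2 * e), vrW r _ τ * vrU r κ σ s₀ _ τ ≤
        (1 + e * Δ) * (e * (ε / 3) + Δ * 2 * ∑ d ∈ range (2 * e),
          ∑ ρ : Tr Bool (n + 1) d, vrW r d ρ * vrI r κ σ s₀ d ρ) := fun e he => by
      induction e with
      | zero => simp [h0]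
      | succ e ih =>
        refine (vr_step hκ hε h he).trans ?_
        rw [← hΔ, show range (2 * (e + 1)) = range (2 * e + 1 + 1) from rfl, sum_range_succ,
          sum_range_succ]
        have b1 := mul_le_mul_of_nonneg_left (ih (by omega)) (show 0 ≤ 1 + Δ / 2 by positivity)
        have b2 := sum_nonneg fun d (_ : d ∈ range (2 * e)) => hJ d
        have b3 := hJ (2 * e)
        have b4 := hJ (2 * e + 1)
        have b5 : (e : ℝ) * Δ ≤ 1 :=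
          (mul_le_mul_of_nonneg_right (by exact_mod_cast (by omega : e ≤ r)) d0).trans d1
        have b6 : (1 + Δ / 2) * (1 + e * Δ) ≤ 1 + (e + 1) * Δ := by
          linarith [mul_le_mul_of_nonneg_left b5 d0]
        have b7 := mul_le_mul_of_nonneg_right b6 (add_nonneg
          (show (0 : ℝ) ≤ e * (ε / 3) by positivity) (mul_nonneg (mul_nonneg d0 zero_le_two) b2))
        have b8 := mul_nonneg (show (0 : ℝ) ≤ (e + 1) * Δ by positivity) (add_nonneg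
          (show 0 ≤ ε / 3 by positivity) (mul_nonneg (mul_nonneg d0 zero_le_two) (add_nonneg b3 b4)))
        push_cast
        linarith
    refine (key r le_rfl).trans ?_
    have b1 := mul_le_mul_of_nonneg_left (vr_J_sum hκ (n := n) (σ := σ) (s₀ := s₀) (le_refl (2 * r)))
      d0
    have b2 := sum_nonneg fun d (_ : d ∈ range (2 * r)) => hJ d
    refine (mul_le_mul_of_nonneg_right (show 1 + r * Δ ≤ 2 by linarith) (by positivity)).trans ?_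
    rw [div_eq_mul_one_div 10, ← hΔ]
    linarith [mul_nonneg (Nat.cast_nonneg r) hε]

end Vale.Agent.P168
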