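import Vale.Agent.P168MP.Pin
import Vale.Agent.P168MP.Dec
import Vale.Agent.P168MP.VarRec
import Vale.Agent.P168MP.Comp
import Vale.Agent.P168MP.Merge

/-! The perturbed free energy. -/

namespace Vale.Agent.P168

open Finset

section Aux

private theorem pert_avg_emb {ι ι' : Type} [Fintype ι] [Fintype ι'] [Nonempty ι] (e : ι → ι')
    (he : Function.Injective e) {g : ι' → ℝ} {C : ℝ} (hg : ∀ x, |g x| ≤ C) :
    |avg g - avg (fun i => g (e i))| ≤
      2 * C * (1 - (Fintype.card ι : ℝ) / (Fintype.card ι' : ℝ)) := by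
  classical
  have hle : Fintype.card ι ≤ Fintype.card ι' := Fintype.card_le_of_injective e he
  have hn : (0 : ℝ) < Fintype.card ι := Nat.cast_pos.2 Fintype.card_pos
  have hle' : (Fintype.card ι : ℝ) ≤ Fintype.card ι' := Nat.cast_le.2 hle
  have hn' : (0 : ℝ) < Fintype.card ι' := hn.trans_le hle'
  have hC : 0 ≤ C := (abs_nonneg _).trans (hg (e (Classical.arbitrary ι)))
  have h1 : ∑ x, g x = ∑ i, g (e i) + ∑ x ∈ (univ.image e)ᶜ, g x := by
    rw [← sum_image (s := univ) (g := e) (f := g) (fun a _ b _ h => he h), sum_add_sum_compl]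
  have h2 : |∑ i, g (e i)| ≤ Fintype.card ι * C := by
    refine (abs_sum_le_sum_abs _ _).trans ((sum_le_sum fun i _ => hg (e i)).trans_eq ?_)
    simp
  have h3 : |∑ x ∈ (univ.image e)ᶜ, g x| ≤ ((Fintype.card ι' : ℝ) - Fintype.card ι) * C := by
    refine (abs_sum_le_sum_abs _ _).trans ((sum_le_sum fun i _ => hg i).trans_eq ?_)
    rw [sum_const, card_compl, card_image_of_injective _ he, card_univ, nsmul_eq_mul,
      Nat.cast_sub hle]
  simp only [avg]
  rw [h1]
  generalize (∑ i, g (e i)) = P at *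
  generalize (∑ x ∈ (univ.image e)ᶜ, g x) = Q at *
  generalize (Fintype.card ι : ℝ) = a at *
  generalize (Fintype.card ι' : ℝ) = b at *
  have e1 : (P + Q) / b - P / a = (Q - P / a * (b - a)) / b := by field_simp; ring
  have e2 : 2 * C * (1 - a / b) = (2 * C * (b - a)) / b := by field_simp
  rw [e1, e2, abs_div, abs_of_pos hn']
  refine div_le_div_of_nonneg_right ((abs_sub _ _).trans ?_) hn'.le
  have h4 : |P / a| ≤ C := by
    rw [abs_div, abs_of_pos hn, div_le_iff₀ hn]; linarith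
  rw [abs_mul, abs_of_nonneg (sub_nonneg.2 hle')]
  have := mul_le_mul_of_nonneg_right h4 (sub_nonneg.2 hle')
  linarith

variable {r T n : ℕ}

private noncomputable def pG {N : ℕ} (t : Fin r → Fin (T + 1)) (L : St r T n N → ℝ) :
    (MI r T n → Bool) → ℝ := fun m =>
  Real.log (Ex (crdK (mlev t) 0)
    (fun m' => avg (fun u : Fin N → Bool => Real.exp (L (m', u)))) m)

private theorem pert_top {N : ℕ} (t : Fin r → Fin (T + 1)) (L : St r T n N → ℝ) (d : ℕ)
    (s : St r T n N) :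
    Rec (priorK n N t) (mu r) L (d + 1) s =
      Rec (fun e => crdK (mlev t) (1 + e)) (fun e => mu r (1 + e)) (pG t L) d s.1 := by
  have h1 : Rec (priorK n N t) (mu r) L 1 = fun s => pG t L s.1 := by
    funext s
    rw [Rec_succ, mu_zero, inv_one, one_mul, priorK, Ex_prodK, pG]
    congr 2
    funext m'
    rw [Ex_crdK]
    simp [Rec]
  rw [add_comm d 1, Rec_shift, h1]
  exact Rec_mor (φ := Prod.fst) _ _ d (fun e _ => isMor_fst _ (isK_crdK _ _)) s

private noncomputable def pR {N : ℕ} (h : ℝ) (H : (Fin N → Bool) → ℝ) (t : Fin r → Fin (T + 1))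
    (a : Data r T n N) : ℝ :=
  Rec (priorK n N t) (mu r) (pertL h H t a) (2 * r + 1) (root r T n N)

private theorem pert_close {N : ℕ} {h : ℝ} (h0 : 0 ≤ h) (h1 : h ≤ 1 / 4)
    (H : (Fin N → Bool) → ℝ) (t : Fin r → Fin (T + 1)) (a : Data r T n N) :
    |pR h H t a - Real.log (avg fun u => Real.exp (H u))| ≤ Fintype.card (Slot r T) := by
  have e : Rec (priorK n N t) (mu r) (fun s : St r T n N => H s.2) (2 * r + 1) (root r T n N) =
      Real.log (avg fun u => Real.exp (H u)) := by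
    rw [pert_top]
    have : pG t (fun s : St r T n N => H s.2) =
        fun _ => Real.log (avg fun u => Real.exp (H u)) := by
      funext m
      simp only [pG, (isK_crdK _ _).Ex_const]
    rw [this]
    exact Rec_const (fun _ => isK_crdK _ _) _ _ (fun e _ => (mu_pos _ _).ne') _
  rw [← e]
  refine abs_Rec_sub_le (isK_priorK n N t) _ (fun e _ => mu_pos _ _) (fun s => ?_) _
  rw [pertL, add_sub_cancel_left]
  refine (abs_sum_le_sum_abs _ _).trans ((sum_le_sum (g := fun _ => (1 : ℝ))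
    fun k _ => ?_).trans ?_)
  · exact (abs_probe_le h0 (by linarith) _ _ _ _).trans (by linarith)
  · rw [sum_const, nsmul_eq_mul, mul_one]
    exact Nat.cast_le.2 (card_le_univ _)

private def pEmb {N : ℕ} (a : Data r T n N) : Data r T n (N + 1) :=
  fun k => ((a k).1, (a k).2.castSucc)

private theorem pEmb_inj {N : ℕ} :
    Function.Injective (pEmb : Data r T n N → Data r T n (N + 1)) := fun a b hab => by
  funext k
  have h := congrFun hab k
  simp only [pEmb, Prod.mk.injEq] at h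
  exact Prod.ext h.1 (Fin.castSucc_injective _ h.2)

private theorem pert_emb {N : ℕ} (h : ℝ) (H : (Fin (N + 1) → Bool) → ℝ)
    (t : Fin r → Fin (T + 1)) (a : Data r T n N) :
    pR h H t (pEmb a) = pR h (fun s => Real.log (∑ u : Bool,
      Real.exp (H (Fin.snoc (α := fun _ => Bool) s u)))) t a + -Real.log 2 := by
  rw [pR, pR, pert_top, pert_top]
  have e : pG t (pertL h H t (pEmb a)) = fun m => pG t (pertL h (fun s => Real.log (∑ u : Bool,
      Real.exp (H (Fin.snoc (α := fun _ => Bool) s u)))) t a) m + -Real.log 2 := by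
    funext m
    have e1 : ∀ m', avg (fun u : Fin (N + 1) → Bool => Real.exp (pertL h H t (pEmb a) (m', u))) =
        avg (fun u : Fin N → Bool => Real.exp (pertL h (fun s => Real.log (∑ u : Bool,
          Real.exp (H (Fin.snoc (α := fun _ => Bool) s u)))) t a (m', u))) * 2⁻¹ := by
      intro m'
      rw [← avg_equiv (Fin.snocEquiv fun _ => Bool), avg_prod, avg_comm, ← avg_mul_right]
      congr 1
      funext u
      have hp : 0 < ∑ b : Bool, Real.exp (H (Fin.snoc (α := fun _ => Bool) u b)) :=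
        sum_pos (fun _ _ => Real.exp_pos _) univ_nonempty
      have e2 : ∀ b : Bool, pertL h H t (pEmb a) (m', (Fin.snocEquiv fun _ => Bool) (b, u)) =
          H (Fin.snoc (α := fun _ => Bool) u b) +
            ∑ k ∈ univ.filter (active t), slotW h a k (m', u) := fun b => by
        simp only [pertL, slotW, pEmb]
        congr 1
        refine sum_congr rfl fun k _ => ?_
        simp [Fin.snocEquiv]
      simp only [e2]
      rw [avg_bool, pertL, Real.exp_add, Real.exp_add, Real.exp_add, Real.exp_log hp,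
        Fintype.sum_bool]
      ring
    rw [pG, pG, funext e1, Ex_mul_right, Real.log_mul ((isK_crdK _ _).Ex_pos
      (fun m' => avg_pos fun u => Real.exp_pos _) m).ne' (by norm_num), Real.log_inv]
  rw [e]
  exact Rec_add_const (fun _ => isK_crdK _ _) _ _ _ (fun e _ => (mu_pos _ _).ne') _

private noncomputable def pA (r T n : ℕ) (h : ℝ) (N : ℕ) (H : (Fin N → Bool) → ℝ) : ℝ :=
  N * Real.log 2 + avg (fun t : Fin r → Fin (T + 1) => avg (fun a : Data r T n N => pR h H t a))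

private theorem pData_ne {N : ℕ} (hN : 1 ≤ N) : Nonempty (Data r T n N) :=
  ⟨fun _ => (Classical.arbitrary _, ⟨0, hN⟩)⟩

private theorem pert_A1 {h : ℝ} (h0 : 0 ≤ h) (h1 : h ≤ 1 / 4) {N : ℕ} (hN : 1 ≤ N)
    (H : (Fin N → Bool) → ℝ) :
    |pA r T n h N H - Real.log (∑ s, Real.exp (H s))| ≤ Fintype.card (Slot r T) := by
  have := pData_ne (r := r) (T := T) (n := n) hN
  have hp : 0 < ∑ s, Real.exp (H s) := sum_pos (fun _ _ => Real.exp_pos _) univ_nonempty
  have e : Real.log (avg fun u => Real.exp (H u)) =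
      Real.log (∑ s, Real.exp (H s)) - N * Real.log 2 := by
    rw [avg, Real.log_div hp.ne' (by positivity)]
    simp
  have e2 : pA r T n h N H - Real.log (∑ s, Real.exp (H s)) =
      avg (fun t : Fin r → Fin (T + 1) => avg (fun a : Data r T n N =>
        pR h H t a - Real.log (avg fun u => Real.exp (H u)))) := by
    simp only [avg_sub, avg_const]
    rw [e, pA]
    ring
  rw [e2]
  exact abs_avg_le (Nat.cast_nonneg _) fun t => abs_avg_le (Nat.cast_nonneg _) fun a =>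
    pert_close h0 h1 H t a

private theorem pert_A2 (h : ℝ) {N : ℕ} (H H' : (Fin N → Bool) → ℝ) (b : ℝ)
    (hb : ∀ s, |H s - H' s| ≤ b) : |pA r T n h N H - pA r T n h N H'| ≤ b := by
  have hb0 : 0 ≤ b := (abs_nonneg _).trans (hb fun _ => true)
  rw [pA, pA, add_sub_add_left_eq_sub]
  refine abs_avg_sub_le hb0 fun t => abs_avg_sub_le hb0 fun a => ?_
  refine abs_Rec_sub_le (isK_priorK n N t) _ (fun e _ => mu_pos _ _) (fun s => ?_) _
  rw [pertL, pertL, add_sub_add_right_eq_sub]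
  exact hb _

private theorem pert_A3 {h : ℝ} (h0 : 0 ≤ h) (h1 : h ≤ 1 / 4) {N : ℕ} (hN : 1 ≤ N)
    (H : (Fin (N + 1) → Bool) → ℝ) :
    |pA r T n h (N + 1) H - pA r T n h N (fun s => Real.log (∑ u : Bool,
      Real.exp (H (Fin.snoc (α := fun _ => Bool) s u))))| ≤
      2 * Fintype.card (Slot r T) * (1 - ((N : ℝ) / (N + 1)) ^ Fintype.card (Slot r T)) := by
  have := pData_ne (r := r) (T := T) (n := n) hN
  have := pData_ne (r := r) (T := T) (n := n) (Nat.le_add_left 1 N)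
  have e2 : pA r T n h (N + 1) H - pA r T n h N (fun s => Real.log (∑ u : Bool,
      Real.exp (H (Fin.snoc (α := fun _ => Bool) s u)))) =
      avg (fun t : Fin r → Fin (T + 1) =>
        avg (fun a : Data r T n (N + 1) => pR h H t a - Real.log (avg fun u => Real.exp (H u))) -
        avg (fun a : Data r T n N =>
          pR h H t (pEmb a) - Real.log (avg fun u => Real.exp (H u)))) := by
    simp only [pert_emb, avg_sub, avg_add, avg_const]
    rw [pA, pA]
    push_cast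
    ring
  have e3 : (Fintype.card (Data r T n N) : ℝ) / Fintype.card (Data r T n (N + 1)) =
      ((N : ℝ) / (N + 1)) ^ Fintype.card (Slot r T) := by
    have hp : (Fintype.card (PT (2 * r + 1) n) : ℝ) ≠ 0 := Nat.cast_ne_zero.2 Fintype.card_ne_zero
    rw [Fintype.card_fun, Fintype.card_fun, Fintype.card_prod, Fintype.card_prod (PT _ _),
      Fintype.card_fin, Fintype.card_fin]
    push_cast
    rw [← div_pow, mul_div_mul_left _ _ hp]
  have hq : ((N : ℝ) / (N + 1)) ^ Fintype.card (Slot r T) ≤ 1 :=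
    pow_le_one₀ (by positivity) (by rw [div_le_one (by positivity)]; linarith)
  rw [e2]
  refine abs_avg_le (mul_nonneg (by positivity) (by linarith)) fun t => ?_
  rw [← e3]
  exact pert_avg_emb pEmb pEmb_inj (pert_close h0 h1 H t)

private theorem pert_pinq_nonneg {S : Type} [Fintype S] {N : ℕ} {κ : ℕ → S → S → ℝ}
    (hκ : ∀ d, IsK (κ d)) (σ : S → Fin N → Bool) (s₀ : S) (h : ℝ) (e : ℕ)
    (ρ ρ' : PT (2 * r + 1) n) : 0 ≤ pinq r n κ σ s₀ h e ρ ρ' :=
  avg_nonneg fun _ => Pr_nonneg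
    (fun d => isK_prodK (isK_prodK (hκ d) (isK_ownK _ _ d)) (isK_ownK _ _ d)) _ _
    (fun _ => abs_nonneg _) _

private theorem pert_sum_p {α β S : Type} [Fintype α] [Fintype β] [Fintype S]
    (κ : α → β → S → S → ℝ) (s₀ : S) (f : α × β × S → ℝ) :
    ∑ ξ : α × β × S, κ ξ.1 ξ.2.1 s₀ ξ.2.2 / ((Fintype.card α : ℝ) * Fintype.card β) * f ξ =
      avg (fun t => avg (fun a => Ex (κ t a) (fun s => f (t, a, s)) s₀)) := by
  simp only [avg, Ex, Fintype.sum_prod_type, sum_div]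
  refine sum_congr rfl fun t _ => sum_congr rfl fun a _ => sum_congr rfl fun s _ => ?_
  rw [div_div, mul_comm (Fintype.card β : ℝ)]
  ring

private noncomputable def pI {S : Type} [Fintype S] {N : ℕ} (r : ℕ) (κ : ℕ → S → S → ℝ)
    (σ : S → Fin N → Bool) (J : Type) [Fintype J] [DecidableEq J] (Y : (J → Bool) → ℝ)
    (s : S) : ℝ :=
  avg (fun i : J → Fin N => Rec (piK J κ) (mu r)
    (fun t => Real.log (Y (fun j => σ (t j) (i j)))) (2 * r) (fun _ => s))

private theorem abs_pI_le {S : Type} [Fintype S] {N : ℕ} (r : ℕ) {κ : ℕ → S → S → ℝ}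
    (hκ : ∀ d, IsK (κ d)) (σ : S → Fin N → Bool) (J : Type) [Fintype J] [DecidableEq J]
    {Y : (J → Bool) → ℝ} {B : ℝ} (hB : 0 ≤ B) (hY : ∀ s, |Real.log (Y s)| ≤ B) (s : S) :
    |pI r κ σ J Y s| ≤ B :=
  abs_avg_le hB fun _ => abs_Rec_le (fun d => isK_piK J (hκ d)) _ (fun _ _ => mu_pos _ _)
    (fun _ => hY _) _

private theorem Tfin_pI {S : Type} [Fintype S] [DecidableEq S] {N : ℕ} (hN : 1 ≤ N) {r : ℕ}
    (hr : 1 ≤ r) {κ : ℕ → S → S → ℝ} (hκ : ∀ d, IsK (κ d)) (σ : S → Fin N → Bool) (s : S)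
    (J : Type) [Fintype J] [DecidableEq J] (Y : (J → Bool) → ℝ) (hY : ∀ s, 0 < Y s) :
    Tfin (msgOf r κ σ s) (hat Y) = pI r κ σ J Y s := Tfin_msgOf hN hr hκ σ s J Y hY

private noncomputable def pD {S : Type} [Fintype S] {N : ℕ} (r : ℕ) (κ : ℕ → S → S → ℝ)
    (σ : S → Fin N → Bool) (s₀ : S) (J : Type) [Fintype J] [DecidableEq J]
    (Y : (J → Bool) → ℝ) : ℝ :=
  avg (fun i : J → Fin N =>
      Rec κ (mu r) (fun s => Real.log (Y (fun j => σ s (i j)))) (2 * r + 1) s₀) -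
    Ex (κ (2 * r)) (fun s => pI r κ σ J Y s) s₀

private theorem abs_pD_le {S : Type} [Fintype S] {N : ℕ} (r : ℕ) {κ : ℕ → S → S → ℝ}
    (hκ : ∀ d, IsK (κ d)) (σ : S → Fin N → Bool) (s₀ : S) (J : Type) [Fintype J] [DecidableEq J]
    {Y : (J → Bool) → ℝ} {B : ℝ} (hB : 0 ≤ B) (hY : ∀ s, |Real.log (Y s)| ≤ B) :
    |pD r κ σ s₀ J Y| ≤ 2 * B := by
  refine (abs_sub _ _).trans ?_
  have b1 := abs_avg_le hB (fun i : J → Fin N => abs_Rec_le hκ
    (μ := mu r) (L := fun s => Real.log (Y (fun j => σ s (i j)))) (2 * r + 1)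
    (fun e _ => mu_pos _ _) (fun s => hY _) s₀)
  have b2 := (hκ (2 * r)).abs_Ex_le (fun s => abs_pI_le r hκ σ J hB hY s) s₀
  linarith

private noncomputable def pW {S : Type} [Fintype S] {N : ℕ} (r n : ℕ) (κ : ℕ → S → S → ℝ)
    (σ : S → Fin N → Bool) (s₀ : S) (h : ℝ) : ℝ :=
  ∑ e ∈ range r, ∑ ρ : PT (2 * r + 1) n, pinq r n κ σ s₀ h e ρ ρ

private theorem pW_nonneg {S : Type} [Fintype S] {N : ℕ} {κ : ℕ → S → S → ℝ}
    (hκ : ∀ d, IsK (κ d)) (σ : S → Fin N → Bool) (s₀ : S) (h : ℝ) : 0 ≤ pW r n κ σ s₀ h :=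
  sum_nonneg fun _ _ => sum_nonneg fun _ _ => pert_pinq_nonneg hκ _ _ _ _ _ _

private theorem le_pW {S : Type} [Fintype S] {N : ℕ} {κ : ℕ → S → S → ℝ}
    (hκ : ∀ d, IsK (κ d)) (σ : S → Fin N → Bool) (s₀ : S) (h : ℝ) {e : ℕ} (he : e < r)
    (ρ : PT (2 * r + 1) n) : pinq r n κ σ s₀ h e ρ ρ ≤ pW r n κ σ s₀ h := by
  refine le_trans ?_ (single_le_sum (f := fun e => ∑ ρ : PT (2 * r + 1) n,
    pinq r n κ σ s₀ h e ρ ρ)
    (fun e _ => sum_nonneg fun ρ _ => pert_pinq_nonneg hκ _ _ _ _ _ _) (mem_range.2 he))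
  exact single_le_sum (f := fun ρ : PT (2 * r + 1) n => pinq r n κ σ s₀ h e ρ ρ)
    (fun ρ _ => pert_pinq_nonneg hκ _ _ _ _ _ _) (mem_univ ρ)

private theorem pert_good {ε : ℝ} (hε : 0 < ε) (B : ℝ) (d₀ : ℕ) :
    ∃ (r n : ℕ) (h ε' : ℝ), 1 ≤ r ∧ 0 ≤ h ∧ h ≤ 1 / 4 ∧ 0 < ε' ∧
      ∀ (N : ℕ) (S : Type) [Fintype S] (κ : ℕ → S → S → ℝ) (σ : S → Fin N → Bool) (s₀ : S),
        1 ≤ N → (∀ d, IsK (κ d)) → pW r n κ σ s₀ h ≤ ε' →
        ∀ (J : Type) [Fintype J] [DecidableEq J], Fintype.card J ≤ d₀ →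
        ∀ Y : (J → Bool) → ℝ, (∀ s, 0 < Y s ∧ |Real.log (Y s)| ≤ B) →
          |pD r κ σ s₀ J Y| ≤ ε := by
  obtain ⟨r, n, hr, -, hcomp⟩ := comp_shared_indep hε B d₀
  have hr0 : (0 : ℝ) < r := Nat.cast_pos.2 hr
  obtain ⟨h, ε', h0, h1, hε', hdec⟩ := dec_of_pin r n (ε := 1 / (r * ((r : ℝ) + 1))) (by positivity)
  refine ⟨r, n, h, ε', hr, h0.le, h1, hε', fun N S _ κ σ s₀ hN hκ hw J _ _ hJ Y hY => ?_⟩
  refine hcomp N S κ σ s₀ hN hκ ?_ J hJ Y hY
  have hd := hdec N S κ σ s₀ hN hκ (fun e he ρ => (le_pW hκ σ s₀ h he ρ).trans hw)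
  refine (totVar_le r n hκ _ _ (by positivity) hd).trans_eq ?_
  field_simp
  ring

private theorem pert_markov {X : Type} [Fintype X] [Nonempty X] {D w : X → ℝ} {ε ε' B P : ℝ}
    (hε : 0 < ε) (hε' : 0 < ε') (hB : 0 ≤ B) (hP : 0 ≤ P) (hw0 : ∀ x, 0 ≤ w x)
    (hD : ∀ x, |D x| ≤ 2 * B) (hs : ∀ x, w x ≤ ε' → |D x| ≤ ε / 2)
    (hw : avg w ≤ P * (ε / 2 * ε' / ((2 * B + 1) * (P + 1)))) : |avg D| ≤ ε := by
  have hm := avg_le_of_markov (f := fun x => |D x|) hε' (half_pos hε).le (by positivity) hw0 hD hs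
  refine (abs_avg_le_avg_abs D).trans (hm.trans ?_)
  have h3 : 2 * B * avg w / ε' ≤ ε / 2 := by
    rw [div_le_iff₀ hε']
    refine (mul_le_mul_of_nonneg_left hw (by positivity)).trans ?_
    have e4 : 2 * B * (P * (ε / 2 * ε' / ((2 * B + 1) * (P + 1)))) =
        ε / 2 * ε' * (2 * B * P / ((2 * B + 1) * (P + 1))) := by ring
    rw [e4]
    refine mul_le_of_le_one_right (by positivity) ?_
    rw [div_le_one (by positivity)]
    nlinarith [mul_nonneg hB hP]
  linarith

private theorem pert_diff (h : ℝ) {N : ℕ} (hN : 1 ≤ N) (H : (Fin N → Bool) → ℝ) (J : Type)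
    [Fintype J] [DecidableEq J] (Y : (J → Bool) → ℝ) :
    avg (fun i : J → Fin N => pA r T n h N
        (fun s => H s + Real.log (Y (fun j => s (i j))))) - pA r T n h N H -
      avg (fun t : Fin r → Fin (T + 1) => avg (fun a : Data r T n N => Ex (sysK h H t a (2 * r))
        (fun s => pI r (sysK h H t a) (fun s => s.2) J Y s) (root r T n N))) =
      avg (fun x : (Fin r → Fin (T + 1)) × Data r T n N =>
        pD r (sysK h H x.1 x.2) (fun s => s.2) (root r T n N) J Y) := by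
  have : Nonempty (Fin N) := ⟨⟨0, hN⟩⟩
  have e1 : ∀ (i : J → Fin N) (t : Fin r → Fin (T + 1)) (a : Data r T n N),
      pR h (fun s => H s + Real.log (Y (fun j => s (i j)))) t a =
      pR h H t a + Rec (sysK h H t a) (mu r)
        (fun s : St r T n N => Real.log (Y (fun j => s.2 (i j)))) (2 * r + 1) (root r T n N) := by
    intro i t a
    rw [pR, pR, sysK, ← Rec_tilt (isK_priorK n N t)]
    congr 1
    funext s
    simp only [pertL]
    ring
  have e2 : ∀ g : (J → Fin N) → (Fin r → Fin (T + 1)) → Data r T n N → ℝ,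
      avg (fun i => avg (fun t => avg (fun a => g i t a))) =
        avg (fun t => avg (fun a => avg (fun i => g i t a))) := fun g => by
    rw [avg_comm]
    congr 1
    funext t
    rw [avg_comm]
  rw [avg_prod]
  simp only [pA, e1, avg_add, avg_sub, avg_const, pD]
  rw [e2]
  ring

private theorem pert_avgW {h δ : ℝ} {N : ℕ} (H : (Fin N → Bool) → ℝ)
    (hT : ∀ e, e < r → ∀ ρ ρ' : PT (2 * r + 1) n,
      avg (fun t : Fin r → Fin (T + 1) => avg (fun a : Data r T n N =>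
        pinq r n (sysK h H t a) (fun s => s.2) (root r T n N) h e ρ ρ')) ≤ δ) :
    avg (fun x : (Fin r → Fin (T + 1)) × Data r T n N =>
      pW r n (sysK h H x.1 x.2) (fun s => s.2) (root r T n N) h) ≤
      (r * Fintype.card (PT (2 * r + 1) n) : ℝ) * δ := by
  simp only [pW, avg_sum]
  refine (sum_le_sum (g := fun _ => ∑ _ρ : PT (2 * r + 1) n, δ) fun e he =>
    sum_le_sum fun ρ _ => ?_).trans_eq ?_
  · rw [avg_prod]
    exact hT e (mem_range.1 he) ρ ρ
  · rw [sum_const, sum_const, card_range, card_univ, nsmul_eq_mul, nsmul_eq_mul]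
    ring

end Aux

theorem pert_exists {ε : ℝ} (hε : 0 < ε) (B : ℝ) (d₀ : ℕ) :
    ∃ (A : (N : ℕ) → ((Fin N → Bool) → ℝ) → ℝ) (C : ℝ) (δ : ℕ → ℝ), PertSpec ε B d₀ A C δ := by
  obtain ⟨r, n, h, ε', hr, h0, h1, hε', hgood⟩ := pert_good (half_pos hε) B d₀
  have hP0 : (0 : ℝ) ≤ r * Fintype.card (PT (2 * r + 1) n) := by positivity
  have hB0 := abs_nonneg B
  obtain ⟨T, hT⟩ := pin r n h0 h1 (ε := ε / 2 * ε' / ((2 * |B| + 1) *
    (r * Fintype.card (PT (2 * r + 1) n) + 1))) (by positivity)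
  refine ⟨pA r T n h, Fintype.card (Slot r T), fun N =>
    2 * Fintype.card (Slot r T) * (1 - ((N : ℝ) / (N + 1)) ^ Fintype.card (Slot r T)),
    fun N hN H => pert_A1 h0 h1 hN H, fun N _ H H' b hb => pert_A2 h H H' b hb, ?_,
    fun N hN H => pert_A3 h0 h1 hN H, fun N hN H => ?_⟩
  · have h2 := (((tendsto_natCast_div_add_atTop (1 : ℝ)).pow (Fintype.card (Slot r T))).const_sub
      1).const_mul (2 * (Fintype.card (Slot r T) : ℝ))
    simpa using h2
  have := pData_ne (r := r) (T := T) (n := n) hN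
  refine ⟨St r T n N × Fin N, (Fin r → Fin (T + 1)) × Data r T n N × St r T n N, inferInstance,
    inferInstance, fun ξ => sysK h H ξ.1 ξ.2.1 (2 * r) (root r T n N) ξ.2.2 /
      ((Fintype.card (Fin r → Fin (T + 1)) : ℝ) * Fintype.card (Data r T n N)),
    fun ξ => msgOf r (sysK h H ξ.1 ξ.2.1) (fun s => s.2) ξ.2.2, ⟨fun ξ => ?_, ?_⟩,
    fun ξ => msgOf_good hN r (isK_sysK h H _ _) _ _, fun J _ _ hJ Y hY => ?_⟩
  · exact div_nonneg ((isK_sysK h H _ _ _).1 _ _) (by positivity)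
  · have h2 := pert_sum_p (fun t a => sysK h H t a (2 * r)) (root r T n N) (fun _ => 1)
    simp only [mul_one, (isK_sysK h H _ _ _).Ex_const, avg_const] at h2
    exact h2
  rw [pert_sum_p (fun t a => sysK h H t a (2 * r)) (root r T n N)
    (fun ξ => Tfin (msgOf r (sysK h H ξ.1 ξ.2.1) (fun s => s.2) ξ.2.2) (hat Y))]
  simp only [Tfin_pI hN hr (isK_sysK h H _ _) _ _ J Y (fun s => (hY s).1)]
  rw [pert_diff h hN H J Y]
  exact pert_markov hε hε' hB0 hP0 (fun x => pW_nonneg (isK_sysK h H _ _) _ _ _)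
    (fun x => abs_pD_le r (isK_sysK h H _ _) _ _ J hB0 fun s => (hY s).2.trans (le_abs_self B))
    (fun x hx => hgood N _ _ _ _ hN (isK_sysK h H _ _) hx J hJ Y hY) (pert_avgW H (hT N H hN))

end Vale.Agent.P168
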