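import Vale.Agent.P168MP.Casc

/-! Abstract pinning estimate on a Boolean cube. -/

namespace Vale.Agent.P168

open Finset

section Abs

variable {ι : Type} [Fintype ι] [DecidableEq ι]

/-- Resample the coordinates in `C`. -/
noncomputable def RC (C : ι → Prop) [DecidablePred C] (f : (ι → Bool) → ℝ) (s : ι → Bool) : ℝ :=
  avg (fun v : ι → Bool => f (fun i => if C i then v i else s i))

theorem RC_mono (C : ι → Prop) [DecidablePred C] {f g : (ι → Bool) → ℝ} (h : ∀ s, f s ≤ g s)
    (s : ι → Bool) : RC C f s ≤ RC C g s := avg_mono fun _ => h _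

theorem RC_pos (C : ι → Prop) [DecidablePred C] {f : (ι → Bool) → ℝ} (h : ∀ s, 0 < f s)
    (s : ι → Bool) : 0 < RC C f s := avg_pos fun _ => h _

theorem RC_nonneg (C : ι → Prop) [DecidablePred C] {f : (ι → Bool) → ℝ} (h : ∀ s, 0 ≤ f s)
    (s : ι → Bool) : 0 ≤ RC C f s := avg_nonneg fun _ => h _

theorem RC_mul_left (C : ι → Prop) [DecidablePred C] (c : ℝ) (f : (ι → Bool) → ℝ)
    (s : ι → Bool) : RC C (fun x => c * f x) s = c * RC C f s := avg_mul_left _ _

theorem RC_add (C : ι → Prop) [DecidablePred C] (f g : (ι → Bool) → ℝ)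
    (s : ι → Bool) : RC C (fun x => f x + g x) s = RC C f s + RC C g s := avg_add _ _

/-- If `C = C' ∪ {b}` with `b ∉ C'`, resampling `C` splits, coordinate `b` outside. -/
theorem RC_split_out (C C' : ι → Prop) [DecidablePred C] [DecidablePred C'] (b : ι)
    (hb : C b) (hb' : ¬ C' b) (h : ∀ i, i ≠ b → (C i ↔ C' i)) (f : (ι → Bool) → ℝ)
    (s : ι → Bool) :
    RC C f s = (RC C' f (Function.update s b true) + RC C' f (Function.update s b false)) / 2 := by
  unfold RC
  rw [← avg_update b, avg_comm, avg_bool]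
  congr 2 <;>
  · congr 1
    funext v
    congr 1
    funext i
    by_cases hi : i = b
    · subst hi; simp [hb, hb']
    · simp [hi, h i hi]

/-- The same, coordinate `b` inside. -/
theorem RC_split_in (C C' : ι → Prop) [DecidablePred C] [DecidablePred C'] (b : ι)
    (hb : C b) (h : ∀ i, i ≠ b → (C i ↔ C' i)) (f : (ι → Bool) → ℝ) (s : ι → Bool) :
    RC C f s = RC C' (fun x => (f (Function.update x b true) + f (Function.update x b false)) / 2)
      s := by
  unfold RC
  rw [← avg_update b]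
  congr 1
  funext v
  rw [avg_bool]
  congr 2 <;>
  · congr 1
    funext i
    by_cases hi : i = b
    · subst hi; simp [hb]
    · simp [hi, h i hi]

theorem gain_ineq {a b c d g K : ℝ} (hg : 0 < g) (hK : 1 ≤ K) (ha : g ≤ a) (ha' : a ≤ K * g)
    (hb : g ≤ b) (hb' : b ≤ K * g) (hc : g ≤ c) (hc' : c ≤ K * g) (hd : g ≤ d) (hd' : d ≤ K * g) :
    (((a + b) / 2 + (c + d) / 2) / 2) *
        (Real.log a - Real.log b - Real.log c + Real.log d) ^ 2 ≤
      16 * K ^ 4 * ((((a - b) / 2) ^ 2 / ((a + b) / 2) + ((c - d) / 2) ^ 2 / ((c + d) / 2)) / 2 -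
        (((a - b) / 2 + (c - d) / 2) / 2) ^ 2 / (((a + b) / 2 + (c + d) / 2) / 2)) := by
  have a0 : 0 < a := hg.trans_le ha
  have b0 : 0 < b := hg.trans_le hb
  have c0 : 0 < c := hg.trans_le hc
  have d0 : 0 < d := hg.trans_le hd
  have e1 : (((a - b) / 2) ^ 2 / ((a + b) / 2) + ((c - d) / 2) ^ 2 / ((c + d) / 2)) / 2 -
        (((a - b) / 2 + (c - d) / 2) / 2) ^ 2 / (((a + b) / 2 + (c + d) / 2) / 2) =
      (a * d - b * c) ^ 2 / ((a + b) * (c + d) * (a + b + c + d)) := by
    field_simp
    ring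
  rw [e1]
  have hl : Real.log a - Real.log b - Real.log c + Real.log d =
      Real.log (a * d) - Real.log (b * c) := by
    rw [Real.log_mul a0.ne' d0.ne', Real.log_mul b0.ne' c0.ne']; ring
  have g2 : 0 < g ^ 2 := by positivity
  have had : g ^ 2 ≤ a * d := by nlinarith
  have hbc : g ^ 2 ≤ b * c := by nlinarith
  have lg : ∀ x y : ℝ, g ^ 2 ≤ x → g ^ 2 ≤ y → Real.log x - Real.log y ≤ |x - y| / g ^ 2 := by
    intro x y hx hy
    have x0 : 0 < x := g2.trans_le hx
    have y0 : 0 < y := g2.trans_le hy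
    rw [← Real.log_div x0.ne' y0.ne']
    refine (Real.log_le_sub_one_of_pos (div_pos x0 y0)).trans ?_
    have : x / y - 1 = (x - y) / y := by field_simp
    rw [this]
    calc (x - y) / y ≤ |x - y| / y := by gcongr; exact le_abs_self _
      _ ≤ |x - y| / g ^ 2 := by gcongr
  have hab : |Real.log (a * d) - Real.log (b * c)| ≤ |a * d - b * c| / g ^ 2 := by
    rw [abs_le]
    constructor
    · have := lg _ _ hbc had
      rw [abs_sub_comm] at this
      linarith
    · exact lg _ _ had hbc
  have hsq : (Real.log (a * d) - Real.log (b * c)) ^ 2 ≤ (a * d - b * c) ^ 2 / g ^ 4 := by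
    calc _ = |Real.log (a * d) - Real.log (b * c)| ^ 2 := (sq_abs _).symm
      _ ≤ (|a * d - b * c| / g ^ 2) ^ 2 := by gcongr
      _ = _ := by rw [div_pow, sq_abs]; ring
  rw [hl]
  have hw : ((a + b) / 2 + (c + d) / 2) / 2 ≤ K * g := by linarith
  have hden : (a + b) * (c + d) * (a + b + c + d) ≤ 16 * K ^ 3 * g ^ 3 := by
    calc (a + b) * (c + d) * (a + b + c + d) ≤ (2 * (K * g)) * (2 * (K * g)) * (4 * (K * g)) := by
          gcongr <;> linarith
      _ = 16 * K ^ 3 * g ^ 3 := by ring
  have K0 : 0 < K := by linarith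
  calc (((a + b) / 2 + (c + d) / 2) / 2) * (Real.log (a * d) - Real.log (b * c)) ^ 2
      ≤ (K * g) * ((a * d - b * c) ^ 2 / g ^ 4) := by gcongr
    _ = 16 * K ^ 4 * ((a * d - b * c) ^ 2 / (16 * K ^ 3 * g ^ 3)) := by field_simp
    _ ≤ _ := by gcongr

/-- Four-point values after fixing the coordinates `b` and `A`. -/
noncomputable def Gz (C : ι → Prop) [DecidablePred C] (E : (ι → Bool) → ℝ) (b A : ι)
    (z z' : Bool) (s : ι → Bool) : ℝ :=
  RC C (fun x => E (Function.update (Function.update x b z) A z')) s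

noncomputable def sig (C : ι → Prop) [DecidablePred C] (E : (ι → Bool) → ℝ) (b A : ι)
    (s : ι → Bool) : ℝ :=
  Real.log (Gz C E b A true true s) - Real.log (Gz C E b A true false s) -
    Real.log (Gz C E b A false true s) + Real.log (Gz C E b A false false s)

theorem RC_update_eq (C C' : ι → Prop) [DecidablePred C] [DecidablePred C'] (b A : ι)
    (hbA : b ≠ A) (hb' : ¬ C' b) (hA : C' A) (h : ∀ i, i ≠ b → (C i ↔ C' i))
    (f : (ι → Bool) → ℝ) (z : Bool) (s : ι → Bool) :
    RC C' f (Function.update s b z) =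
      (RC C (fun x => f (Function.update (Function.update x b z) A true)) s +
        RC C (fun x => f (Function.update (Function.update x b z) A false)) s) / 2 := by
  unfold RC
  rw [← avg_update A, avg_comm, avg_bool]
  congr 2 <;>
  · congr 1
    funext v
    congr 1
    funext i
    by_cases hi : i = A
    · subst hi; simp [hA]
    · by_cases hi' : i = b
      · subst hi'; simp [hb', hi]
      · simp [hi, hi', h i hi']

/-- The pinning estimate. -/
theorem pin_abs (T : ℕ) (C1 C2 : ℕ → ι → Prop) [∀ u, DecidablePred (C1 u)]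
    [∀ u, DecidablePred (C2 u)] (b : ℕ → ι) (A : ι) (E : (ι → Bool) → ℝ) (hE : ∀ s, 0 < E s)
    {K : ℝ} (hK : 1 ≤ K)
    (hb1 : ∀ u, u ≤ T → C1 u (b u) ∧ ¬ C1 (u + 1) (b u) ∧ C2 (u + 1) (b u) ∧ b u ≠ A ∧
      C1 (u + 1) A ∧ ∀ i, i ≠ b u → (C1 u i ↔ C1 (u + 1) i) ∧ (C2 (u + 1) i ↔ C2 u i))
    (hrat : ∀ u, u ≤ T → ∀ (x : ι → Bool) (z z' y y' : Bool),
      E (Function.update (Function.update x (b u) z) A z') ≤
        K * E (Function.update (Function.update x (b u) y) A y')) (s : ι → Bool) :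
    (∀ u, u ≤ T + 1 → RC (C2 u) (RC (C1 u) E) s = RC (C2 0) (RC (C1 0) E) s) ∧
    ∑ u ∈ range (T + 1), RC (C2 u) (fun x => RC (C1 u) E x * sig (C1 u) E (b u) A x ^ 2) s ≤
      16 * (K * K) ^ 4 * RC (C2 0) (RC (C1 0) E) s := by
  set W : ℕ → (ι → Bool) → ℝ := fun u => RC (C1 u) E with hW
  set V : ℕ → (ι → Bool) → ℝ := fun u => RC (C1 u) (fun x => E x * spin (x A)) with hV
  set En : ℕ → ℝ := fun u => RC (C2 u) (fun x => V u x ^ 2 / W u x) s with hEn
  have Wpos : ∀ u x, 0 < W u x := fun u x => RC_pos _ hE x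
  have h1 : ∀ u, u ≤ T + 1 → RC (C2 u) (W u) s = RC (C2 0) (W 0) s := by
    intro u
    induction u with
    | zero => intro _; rfl
    | succ u ih =>
      intro hu
      obtain ⟨a1, a2, a3, -, -, a6⟩ := hb1 u (by omega)
      rw [← ih (by omega), RC_split_in (C2 (u + 1)) (C2 u) (b u) a3 (fun i hi => (a6 i hi).2)]
      congr 1
      funext x
      exact (RC_split_out (C1 u) (C1 (u + 1)) (b u) a1 a2 (fun i hi => (a6 i hi).1) E x).symm
  refine ⟨h1, ?_⟩
  have step : ∀ u, u ≤ T →
      RC (C2 u) (fun x => W u x * sig (C1 u) E (b u) A x ^ 2) s ≤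
        16 * (K * K) ^ 4 * (En (u + 1) - En u) := by
    intro u hu
    obtain ⟨a1, a2, a3, a4, a5, a6⟩ := hb1 u hu
    have e1 : En (u + 1) = RC (C2 u) (fun x =>
        (V (u + 1) (Function.update x (b u) true) ^ 2 / W (u + 1) (Function.update x (b u) true) +
          V (u + 1) (Function.update x (b u) false) ^ 2 /
            W (u + 1) (Function.update x (b u) false)) / 2) s :=
      RC_split_in (C2 (u + 1)) (C2 u) (b u) a3 (fun i hi => (a6 i hi).2) _ s
    have e2 : 16 * (K * K) ^ 4 * (En (u + 1) - En u) = RC (C2 u) (fun x => 16 * (K * K) ^ 4 *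
        ((V (u + 1) (Function.update x (b u) true) ^ 2 / W (u + 1) (Function.update x (b u) true) +
          V (u + 1) (Function.update x (b u) false) ^ 2 /
            W (u + 1) (Function.update x (b u) false)) / 2 - V u x ^ 2 / W u x)) s := by
      rw [RC_mul_left, e1]
      congr 1
      exact (avg_sub _ _).symm
    rw [e2]
    refine RC_mono _ (fun x => ?_) s
    have hWz : ∀ z, W (u + 1) (Function.update x (b u) z) =
        (Gz (C1 u) E (b u) A z true x + Gz (C1 u) E (b u) A z false x) / 2 := fun z =>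
      RC_update_eq (C1 u) (C1 (u + 1)) (b u) A a4 a2 a5 (fun i hi => (a6 i hi).1) E z x
    have hVz : ∀ z, V (u + 1) (Function.update x (b u) z) =
        (Gz (C1 u) E (b u) A z true x - Gz (C1 u) E (b u) A z false x) / 2 := by
      intro z
      have := RC_update_eq (C1 u) (C1 (u + 1)) (b u) A a4 a2 a5 (fun i hi => (a6 i hi).1)
        (fun x => E x * spin (x A)) z x
      simp only [Function.update_self, spin, if_true, mul_one, Bool.false_eq_true, if_false,
        mul_neg] at this
      have h3 : RC (C1 u) (fun x => -E (Function.update (Function.update x (b u) z) A false)) x =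
          -Gz (C1 u) E (b u) A z false x := by
        have := RC_mul_left (C1 u) (-1)
          (fun x => E (Function.update (Function.update x (b u) z) A false)) x
        simpa [Gz] using this
      rw [h3] at this
      simpa [hV, Gz, spin, sub_eq_add_neg] using this
    have hW0 : W u x = (W (u + 1) (Function.update x (b u) true) +
        W (u + 1) (Function.update x (b u) false)) / 2 :=
      RC_split_out (C1 u) (C1 (u + 1)) (b u) a1 a2 (fun i hi => (a6 i hi).1) E x
    have hV0 : V u x = (V (u + 1) (Function.update x (b u) true) +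
        V (u + 1) (Function.update x (b u) false)) / 2 :=
      RC_split_out (C1 u) (C1 (u + 1)) (b u) a1 a2 (fun i hi => (a6 i hi).1) _ x
    have hG : ∀ z z' y y', Gz (C1 u) E (b u) A z z' x ≤ K * Gz (C1 u) E (b u) A y y' x := by
      intro z z' y y'
      unfold Gz
      rw [← RC_mul_left]
      exact RC_mono _ (fun x => hrat u hu x z z' y y') x
    have K0 : 0 < K := by linarith
    have G0 : 0 < Gz (C1 u) E (b u) A false false x := RC_pos _ (fun _ => hE _) x
    have lo : ∀ z z', Gz (C1 u) E (b u) A false false x / K ≤ Gz (C1 u) E (b u) A z z' x := by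
      intro z z'
      rw [div_le_iff₀ K0, mul_comm]
      exact hG _ _ _ _
    have hi : ∀ z z', Gz (C1 u) E (b u) A z z' x ≤
        (K * K) * (Gz (C1 u) E (b u) A false false x / K) := by
      intro z z'
      have : (K * K) * (Gz (C1 u) E (b u) A false false x / K) =
          K * Gz (C1 u) E (b u) A false false x := by field_simp
      rw [this]
      exact hG _ _ _ _
    rw [hV0, hW0, hWz, hWz, hVz, hVz]
    exact gain_ineq (div_pos G0 K0) (by nlinarith) (lo _ _) (hi _ _) (lo _ _) (hi _ _) (lo _ _)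
      (hi _ _) (lo _ _) (hi _ _)
  have K4 : 0 ≤ 16 * (K * K) ^ 4 := by positivity
  have en0 : 0 ≤ En 0 := RC_nonneg _ (fun x => div_nonneg (sq_nonneg _) (Wpos 0 x).le) s
  have enT : En (T + 1) ≤ RC (C2 0) (W 0) s := by
    rw [← h1 (T + 1) le_rfl]
    refine RC_mono _ (fun x => ?_) s
    rw [div_le_iff₀ (Wpos _ x), ← sq, sq_le_sq, abs_of_pos (Wpos _ x)]
    refine (abs_avg_le_avg_abs _).trans (avg_mono fun v => ?_)
    rw [abs_mul, abs_spin, mul_one, abs_of_pos (hE _)]
  calc _ ≤ ∑ u ∈ range (T + 1), 16 * (K * K) ^ 4 * (En (u + 1) - En u) :=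
        sum_le_sum fun u hu => step u (by simpa [Nat.lt_succ_iff] using hu)
    _ = 16 * (K * K) ^ 4 * (En (T + 1) - En 0) := by rw [← mul_sum, sum_range_sub]
    _ ≤ _ := by gcongr; linarith

theorem isMor_update (lev : ι → ℕ) (d : ℕ) (i : ι) (hi : lev i ≠ d) (z : Bool) :
    IsMor (fun m : ι → Bool => Function.update m i z) (crdK lev d) (crdK lev d) := by
  intro f s
  rw [Ex_crdK, Ex_crdK]
  congr 1
  funext u
  congr 1
  funext j
  by_cases hj : j = i
  · subst hj; simp [hi]
  · simp [hj]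

theorem isMor_extend {J Sg : Type} [Fintype J] [DecidableEq J] [Fintype Sg] (lev : ι → ℕ)
    (lev' : J → ℕ) (e : J → ι) (he : Function.Injective e) (hl : ∀ j, lev (e j) = lev' j)
    (κ : ℕ → Sg → Sg → ℝ) (d : ℕ) :
    IsMor (fun x : ((ι → Bool) × Sg) × (J → Bool) =>
        ((Function.extend e x.2 x.1.1, x.1.2) : (ι → Bool) × Sg))
      (prodK (prodK (crdK lev) κ) (crdK lev') d) (prodK (crdK lev) κ d) := by
  intro f s
  rw [Ex_prodK, Ex_prodK, Ex_prodK, Ex_crdK, Ex_crdK]
  refine Eq.trans ?_ (avg_extend e he _)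
  congr 1
  funext u
  simp only [Ex_crdK]
  rw [Ex_avg]
  congr 1
  funext w
  congr 1
  funext t
  congr 2
  funext i
  by_cases hi : ∃ j, e j = i
  · obtain ⟨j, rfl⟩ := hi
    simp only [he.extend_apply, hl]
  · simp only [Function.extend_apply' _ _ _ hi]

theorem Ex_crdK_zero_succ {κι : Type} [Fintype κι] [DecidableEq κι] (d : ℕ)
    (f : (κι → Bool) → ℝ) (s : κι → Bool) : Ex (crdK (fun _ => 0) (d + 1)) f s = f s := by
  rw [Ex_crdK]
  simp only [Nat.zero_ne_add_one, if_false]
  exact avg_const _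

end Abs

theorem avg_fiber_le {α β : Type} [Fintype α] [Fintype β] (g : α × β → ℝ) (hg : ∀ x, 0 ≤ g x)
    (a : α) : avg (fun b => g (a, b)) ≤ Fintype.card α * avg g := by
  have hc : (0 : ℝ) < Fintype.card α := by
    have : Nonempty α := ⟨a⟩
    exact_mod_cast Fintype.card_pos
  rw [avg_prod g]
  have : (Fintype.card α : ℝ) * avg (fun i => avg (fun j => g (i, j))) =
      ∑ i, avg (fun j => g (i, j)) := by
    rw [avg]; field_simp
  rw [this]
  exact single_le_sum (f := fun i => avg (fun j => g (i, j)))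
    (fun i _ => avg_nonneg fun _ => hg _) (mem_univ a)

end Vale.Agent.P168
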