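import Vale.Agent.P168MP.Probe
import Vale.Agent.P168MP.PinAux

/-! The pinning estimate for the perturbed system. -/

namespace Vale.Agent.P168

open Finset

instance instNonemptyPT (r n : ℕ) : Nonempty (PT (2 * r + 1) n) :=
  ⟨⟨⟨0, Nat.succ_pos _⟩, Tr.leaf true⟩⟩

theorem isK_priorK {r T : ℕ} (n N : ℕ) (t : Fin r → Fin (T + 1)) (d : ℕ) :
    IsK (priorK n N t d) := isK_prodK (isK_crdK _ _) (isK_crdK _ _)

theorem isK_sysK {r T n N : ℕ} (h : ℝ) (H : (Fin N → Bool) → ℝ) (t : Fin r → Fin (T + 1))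
    (a : Data r T n N) (d : ℕ) : IsK (sysK h H t a d) := isK_tilt _ _ (isK_priorK n N t d)

section PinSys

variable {r T n N : ℕ}

def slB (p : Fin r) (u : ℕ) : Slot r T := (p, ⟨min u T, by omega⟩)

def slA (p : Fin r) : Slot r T := (p, Fin.last (T + 1))

theorem slB_ne_slA (p : Fin r) (u : ℕ) : (slB p u : Slot r T) ≠ slA p := by
  intro h
  have := congrArg (fun k : Slot r T => k.2.val) h
  simp only [slB, slA, Fin.val_last] at this
  omega

noncomputable def fullL (h : ℝ) (H : (Fin N → Bool) → ℝ) (t : Fin r → Fin (T + 1)) (p : Fin r)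
    (a : Data r T n N) (s : St r T n N) : ℝ :=
  H s.2 + ∑ k ∈ univ.filter (fun k : Slot r T => k.1 = p ∨ active t k), slotW h a k s

theorem fullL_eq (h : ℝ) (H : (Fin N → Bool) → ℝ) (t : Fin r → Fin (T + 1)) (p : Fin r)
    (a : Data r T n N) (s : St r T n N) :
    fullL h H t p a s =
      pertL h H t a s + slotW h a (slB p (t p)) s + slotW h a (slA p) s := by
  have ht : min (t p).val T = (t p).val := min_eq_left (Nat.lt_succ_iff.1 (t p).isLt)
  have e : univ.filter (fun k : Slot r T => k.1 = p ∨ active t k) =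
      insert (slA p) (insert (slB p (t p)) (univ.filter (active t))) := by
    ext ⟨p', k⟩
    simp only [mem_filter, mem_univ, true_and, mem_insert, slA, slB, active, Prod.mk.injEq,
      Fin.ext_iff, Fin.val_last, ht]
    by_cases hp : p'.val = p.val
    · have : p' = p := Fin.ext hp
      subst this
      simp only [true_or, true_and, true_iff]
      omega
    · simp [hp]
  have hB : slB p (t p) ∉ univ.filter (active t) := by
    simp [slB, active, ht]
  have hA : slA p ∉ insert (slB p (t p)) (univ.filter (active t)) := by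
    rw [mem_insert, not_or]
    exact ⟨(slB_ne_slA p _).symm, by simp [slA, active]⟩
  rw [fullL, pertL, e, sum_insert hA, sum_insert hB]
  ring

theorem fullL_update (h : ℝ) (H : (Fin N → Bool) → ℝ) (t : Fin r → Fin (T + 1)) (p : Fin r)
    (u : Fin (T + 1)) (a : Data r T n N) :
    fullL h H (Function.update t p u) p a = fullL h H t p a := by
  funext s
  unfold fullL
  congr 2
  ext k
  simp only [mem_filter, mem_univ, true_and]
  by_cases hk : k.1 = p
  · simp [hk]
  · simp only [active, Function.update_of_ne hk]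

theorem priorK_update (t : Fin r → Fin (T + 1)) (p : Fin r) (u : Fin (T + 1)) (d : ℕ)
    (h1 : d ≠ 2 * p.val + 1) (h2 : d ≠ 2 * p.val + 2) :
    priorK n N (Function.update t p u) d = priorK n N t d := by
  have : ∀ i : MI r T n, mlev (Function.update t p u) i = d ↔ mlev t i = d := by
    rintro (k | k)
    · by_cases hk : k.1 = p
      · simp only [mlev, hk]
        split_ifs <;> omega
      · simp [mlev, hk]
    · simp [mlev]
  funext s s'
  simp only [priorK, prodK, crdK, this]

def C1 (p : Fin r) (u : ℕ) : MI r T n → Prop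
  | Sum.inl k => k.1 = p ∧ u ≤ k.2.val
  | Sum.inr k => k.2.1.val = 2 * p.val + 1

def C2 (p : Fin r) (u : ℕ) : MI r T n → Prop
  | Sum.inl k => k.1 = p ∧ k.2.val < u
  | Sum.inr k => k.2.1.val = 2 * p.val + 2

instance (p : Fin r) (u : ℕ) : DecidablePred (C1 (T := T) (n := n) p u)
  | Sum.inl _ => by unfold C1; infer_instance
  | Sum.inr _ => by unfold C1; infer_instance

instance (p : Fin r) (u : ℕ) : DecidablePred (C2 (T := T) (n := n) p u)
  | Sum.inl _ => by unfold C2; infer_instance
  | Sum.inr _ => by unfold C2; infer_instance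

theorem mlev_C1 (t : Fin r → Fin (T + 1)) (p : Fin r) (i : MI r T n) :
    mlev t i = 2 * p.val + 1 ↔ C1 p (t p).val i := by
  rcases i with k | k
  · simp only [mlev, C1]
    by_cases hk : k.1 = p
    · simp only [hk, true_and]
      split_ifs <;> omega
    · have : k.1.val ≠ p.val := fun h => hk (Fin.ext h)
      simp only [hk, false_and, iff_false]
      split_ifs <;> omega
  · simp [mlev, C1]

theorem mlev_C2 (t : Fin r → Fin (T + 1)) (p : Fin r) (i : MI r T n) :
    mlev t i = 2 * p.val + 2 ↔ C2 p (t p).val i := by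
  rcases i with k | k
  · simp only [mlev, C2]
    by_cases hk : k.1 = p
    · simp only [hk, true_and]
      split_ifs <;> omega
    · have : k.1.val ≠ p.val := fun h => hk (Fin.ext h)
      simp only [hk, false_and, iff_false]
      split_ifs <;> omega
  · simp [mlev, C2]

theorem Ex_priorK_succ (t : Fin r → Fin (T + 1)) (d : ℕ) (C : MI r T n → Prop) [DecidablePred C]
    (hC : ∀ i, mlev t i = d + 1 ↔ C i) (f : St r T n N → ℝ) (s : St r T n N) :
    Ex (priorK n N t (d + 1)) f s = RC C (fun m => f (m, s.2)) s.1 := by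
  rw [priorK, Ex_prodK, Ex_crdK]
  simp only [Ex_crdK_zero_succ, hC, RC]

/-- Fix the two signs. -/
def setz (p : Fin r) (u : ℕ) (z z' : Bool) (s : St r T n N) : St r T n N :=
  (Function.update (Function.update s.1 (Sum.inl (slB p u)) z) (Sum.inl (slA p)) z', s.2)

theorem isMor_setz (t : Fin r → Fin (T + 1)) (p : Fin r) (z z' : Bool) (d : ℕ)
    (hd : d ≠ 2 * p.val + 1) :
    IsMor (setz (n := n) (N := N) p (t p) z z') (priorK n N t d) (priorK n N t d) := by
  have ht : min (t p).val T = (t p).val := min_eq_left (Nat.lt_succ_iff.1 (t p).isLt)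
  have hB : mlev (n := n) t (Sum.inl (slB p (t p))) ≠ d := by
    have : mlev (n := n) t (Sum.inl (slB p (t p))) = 2 * p.val + 1 := by simp [mlev, slB, ht]
    omega
  have hA : mlev (n := n) t (Sum.inl (slA p)) ≠ d := by
    have h1 : ¬ (T + 1 < (t p).val) := by have := (t p).isLt; omega
    have : mlev (n := n) t (Sum.inl (slA p)) = 2 * p.val + 1 := by simp [mlev, slA, h1]
    omega
  exact isMor_prodMap ((isMor_update (mlev t) d _ hA z').comp (isMor_update (mlev t) d _ hB z))
    (isMor_id _)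

def eOwn (k : Slot r T) : Fin (2 * r + 1) × (Fin n ⊕ Fin n) → MI r T n := fun j => Sum.inr (k, j)

theorem eOwn_inj (k : Slot r T) : Function.Injective (eOwn (n := n) k) := by
  intro j j' h
  simpa [eOwn] using h

/-- Overwrite the own marks of the two test slots. -/
noncomputable def phi0 (p : Fin r) (u : ℕ)
    (x : (St r T n N × Own (2 * r + 1) n) × Own (2 * r + 1) n) : St r T n N :=
  (Function.extend (eOwn (slA p)) x.2 (Function.extend (eOwn (slB p u)) x.1.2 x.1.1.1), x.1.1.2)

theorem isMor_phi0 (t : Fin r → Fin (T + 1)) (p : Fin r) (u : ℕ) (d : ℕ) :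
    IsMor (phi0 (n := n) (N := N) p u)
      (prodK (prodK (priorK n N t) (ownK (2 * r + 1) n)) (ownK (2 * r + 1) n) d)
      (priorK n N t d) := by
  have h1 := fun k : Slot r T => isMor_extend (mlev (n := n) t)
    (fun i : Fin (2 * r + 1) × (Fin n ⊕ Fin n) => i.1.val) (eOwn k) (eOwn_inj k) (fun _ => rfl)
    (crdK (fun _ : Fin N => 0)) d
  exact (h1 (slA p)).comp (isMor_prodMap (h1 (slB p u)) (isMor_id _))

theorem phi0_inl (p : Fin r) (u : ℕ) (x : (St r T n N × Own (2 * r + 1) n) × Own (2 * r + 1) n)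
    (k : Slot r T) : (phi0 p u x).1 (Sum.inl k) = x.1.1.1 (Sum.inl k) := by
  simp only [phi0]
  rw [Function.extend_apply', Function.extend_apply'] <;> simp [eOwn]

theorem phi0_inr (p : Fin r) (u : ℕ) (x : (St r T n N × Own (2 * r + 1) n) × Own (2 * r + 1) n)
    (k : Slot r T) (hB : k ≠ slB p u) (hA : k ≠ slA p) (j) :
    (phi0 p u x).1 (Sum.inr (k, j)) = x.1.1.1 (Sum.inr (k, j)) := by
  simp only [phi0]
  rw [Function.extend_apply', Function.extend_apply'] <;> simp [eOwn, hA.symm, hB.symm]

theorem phi0_A (p : Fin r) (u : ℕ) (x : (St r T n N × Own (2 * r + 1) n) × Own (2 * r + 1) n)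
    (j) : (phi0 p u x).1 (Sum.inr (slA p, j)) = x.2 j :=
  (eOwn_inj (slA p)).extend_apply _ _ j

theorem phi0_B (p : Fin r) (u : ℕ) (x : (St r T n N × Own (2 * r + 1) n) × Own (2 * r + 1) n)
    (j) : (phi0 p u x).1 (Sum.inr (slB p u, j)) = x.1.2 j := by
  simp only [phi0]
  rw [Function.extend_apply']
  · exact (eOwn_inj (slB p u)).extend_apply _ _ j
  · simp [eOwn, (slB_ne_slA p u).symm]

theorem phi0_root (p : Fin r) (u : ℕ) :
    phi0 p u ((root r T n N, fun _ => false), fun _ => false) = root r T n N := by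
  simp only [phi0, root]
  congr 1
  funext i
  simp [Function.extend]

theorem active_ne (t : Fin r → Fin (T + 1)) (p : Fin r) {k : Slot r T} (hk : active t k) :
    k ≠ slB p (t p) ∧ k ≠ slA p := by
  have ht : min (t p).val T = (t p).val := min_eq_left (Nat.lt_succ_iff.1 (t p).isLt)
  constructor
  · rintro rfl
    simp [active, slB, ht] at hk
  · rintro rfl
    simp [active, slA] at hk

theorem pertL_phi0 (h : ℝ) (H : (Fin N → Bool) → ℝ) (t : Fin r → Fin (T + 1)) (p : Fin r)
    (a : Data r T n N) (x : (St r T n N × Own (2 * r + 1) n) × Own (2 * r + 1) n) :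
    pertL h H t a (phi0 p (t p) x) = pertL h H t a x.1.1 := by
  unfold pertL
  congr 1
  refine sum_congr rfl fun k hk => ?_
  obtain ⟨h1, h2⟩ := active_ne t p (mem_filter.1 hk).2
  simp only [slotW, phi0_inl, phi0_inr p _ x k h1 h2]
  rfl

theorem pertL_setz (h : ℝ) (H : (Fin N → Bool) → ℝ) (t : Fin r → Fin (T + 1)) (p : Fin r)
    (a : Data r T n N) (z z' : Bool) (s : St r T n N) :
    pertL h H t a (setz p (t p) z z' s) = pertL h H t a s := by
  unfold pertL
  congr 1
  refine sum_congr rfl fun k hk => ?_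
  obtain ⟨h1, h2⟩ := active_ne t p (mem_filter.1 hk).2
  simp [slotW, setz, h1, h2]

theorem pertL_update (h : ℝ) (H : (Fin N → Bool) → ℝ) (t : Fin r → Fin (T + 1)) (p : Fin r)
    (a : Data r T n N) (x y : PT (2 * r + 1) n × Fin N) :
    pertL h H t (Function.update (Function.update a (slB p (t p)) x) (slA p) y) =
      pertL h H t a := by
  funext s
  unfold pertL
  congr 1
  refine sum_congr rfl fun k hk => ?_
  obtain ⟨h1, h2⟩ := active_ne t p (mem_filter.1 hk).2
  simp [slotW, h1, h2]

theorem fullL_setz_phi0 (h : ℝ) (H : (Fin N → Bool) → ℝ) (t : Fin r → Fin (T + 1)) (p : Fin r)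
    (a : Data r T n N) (z z' : Bool) (x : (St r T n N × Own (2 * r + 1) n) × Own (2 * r + 1) n) :
    fullL h H t p a (setz p (t p) z z' (phi0 p (t p) x)) =
      pertL h H t a x.1.1 +
        (probe h (a (slB p (t p))).1 z x.1.2 (x.1.1.2 (a (slB p (t p))).2) +
          probe h (a (slA p)).1 z' x.2 (x.1.1.2 (a (slA p)).2)) := by
  rw [fullL_eq, pertL_setz, pertL_phi0, add_assoc]
  have hne := slB_ne_slA (T := T) p (t p)
  congr 2
  · simp only [slotW, setz]
    congr 1
    · simp [hne]
    · funext j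
      simp [phi0_B]
  · simp only [slotW, setz]
    congr 1
    · simp
    · funext j
      simp [phi0_A]

/-- The weight at height `2p+1` of the full system. -/
noncomputable def Efull (h : ℝ) (H : (Fin N → Bool) → ℝ) (t : Fin r → Fin (T + 1)) (p : Fin r)
    (a : Data r T n N) (σ : Fin N → Bool) (m : MI r T n → Bool) : ℝ :=
  Real.exp (mu r (2 * p.val + 1) *
    Rec (priorK n N t) (mu r) (fullL h H t p a) (2 * p.val + 1) (m, σ))

noncomputable def sg (h : ℝ) (H : (Fin N → Bool) → ℝ) (t : Fin r → Fin (T + 1)) (p : Fin r)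
    (a : Data r T n N) (s : St r T n N) : ℝ :=
  (mu r (2 * p.val + 1))⁻¹ * sig (C1 p (t p).val) (Efull h H t p a s.2)
    (Sum.inl (slB p (t p))) (Sum.inl (slA p)) s.1

theorem Rec_setz (h : ℝ) (H : (Fin N → Bool) → ℝ) (t : Fin r → Fin (T + 1)) (p : Fin r)
    (a : Data r T n N) (z z' : Bool) (s : St r T n N) :
    Rec (priorK n N t) (mu r) (fun s => fullL h H t p a (setz p (t p) z z' s)) (2 * p.val + 2) s =
      (mu r (2 * p.val + 1))⁻¹ * Real.log (Gz (C1 p (t p).val) (Efull h H t p a s.2)
        (Sum.inl (slB p (t p))) (Sum.inl (slA p)) z z' s.1) := by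
  have key : ∀ m : MI r T n → Bool, Real.exp (mu r (2 * p.val + 1) * Rec (priorK n N t) (mu r)
      (fun s => fullL h H t p a (setz p (t p) z z' s)) (2 * p.val + 1) (m, s.2)) =
      Efull h H t p a s.2 (Function.update (Function.update m (Sum.inl (slB p (t p))) z)
        (Sum.inl (slA p)) z') := by
    intro m
    rw [Rec_mor (mu r) (fullL h H t p a) (2 * p.val + 1)
      (fun e he => isMor_setz t p z z' e (by omega))]
    rfl
  rw [Rec_succ, Ex_priorK_succ t (2 * p.val) (C1 p (t p).val) (mlev_C1 t p)]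
  simp only [key, Gz]

theorem sdiff_eq (h : ℝ) (H : (Fin N → Bool) → ℝ) (t : Fin r → Fin (T + 1)) (p : Fin r)
    (a : Data r T n N) (x : (St r T n N × Own (2 * r + 1) n) × Own (2 * r + 1) n) :
    sdiff r n (sysK h H t a) (fun s => s.2 (a (slB p (t p))).2) (fun s => s.2 (a (slA p)).2) h
      (a (slB p (t p))).1 (a (slA p)).1 (2 * p.val + 2) x = sg h H t p a (phi0 p (t p) x) := by
  have hK3 : ∀ d, IsK (prodK (prodK (priorK n N t) (ownK (2 * r + 1) n)) (ownK (2 * r + 1) n) d) :=
    fun d => isK_prodK (isK_prodK (isK_priorK n N t d) (isK_ownK _ _ _)) (isK_ownK _ _ _)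
  have e1 : prodK (prodK (sysK h H t a) (ownK (2 * r + 1) n)) (ownK (2 * r + 1) n) =
      tilt (prodK (prodK (priorK n N t) (ownK (2 * r + 1) n)) (ownK (2 * r + 1) n)) (mu r)
        (fun x => pertL h H t a x.1.1) := by
    rw [sysK, ← tilt_prodK_fst (isK_ownK _ _), ← tilt_prodK_fst (isK_ownK _ _)]
  have e2 : ∀ z z', twoP r n (sysK h H t a) (fun s => s.2 (a (slB p (t p))).2)
      (fun s => s.2 (a (slA p)).2) h (a (slB p (t p))).1 (a (slA p)).1 z z' (2 * p.val + 2) x =
      (mu r (2 * p.val + 1))⁻¹ * Real.log (Gz (C1 p (t p).val)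
        (Efull h H t p a (phi0 p (t p) x).2) (Sum.inl (slB p (t p))) (Sum.inl (slA p)) z z'
          (phi0 p (t p) x).1) -
      Rec (prodK (prodK (priorK n N t) (ownK (2 * r + 1) n)) (ownK (2 * r + 1) n)) (mu r)
        (fun x => pertL h H t a x.1.1) (2 * p.val + 2) x := by
    intro z z'
    rw [← Rec_setz, ← Rec_mor (mu r) _ _ (fun e _ => isMor_phi0 t p (t p) e)]
    simp only [fullL_setz_phi0]
    rw [Rec_tilt hK3, twoP, e1]
    ring
  simp only [sdiff, e2, sg, sig]
  ring

noncomputable def PsiQ (h : ℝ) (H : (Fin N → Bool) → ℝ) (t : Fin r → Fin (T + 1)) (p : Fin r)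
    (a : Data r T n N) : ℝ :=
  Pr (sysK h H t a) (2 * p.val + 2) (2 * (r - p.val) - 1) (fun s => |sg h H t p a s|)
    (root r T n N)

theorem PsiQ_nonneg (h : ℝ) (H : (Fin N → Bool) → ℝ) (t : Fin r → Fin (T + 1)) (p : Fin r)
    (a : Data r T n N) : 0 ≤ PsiQ h H t p a :=
  Pr_nonneg (isK_sysK h H t a) _ _ (fun _ => abs_nonneg _) _

theorem pinq_eq (h : ℝ) (H : (Fin N → Bool) → ℝ) (t : Fin r → Fin (T + 1)) (p : Fin r)
    (a : Data r T n N) (ρ ρ' : PT (2 * r + 1) n) :
    pinq r n (sysK h H t a) (fun s => s.2) (root r T n N) h p.val ρ ρ' =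
      avg (fun ii : Fin N × Fin N => PsiQ h H t p
        (Function.update (Function.update a (slB p (t p)) (ρ, ii.1)) (slA p) (ρ', ii.2))) := by
  unfold pinq
  congr 1
  funext ii
  set a' := Function.update (Function.update a (slB p (t p)) (ρ, ii.1)) (slA p) (ρ', ii.2)
    with ha'
  have hs : sysK h H t a = sysK h H t a' := by
    rw [sysK, sysK, ha', pertL_update]
  have hB : a' (slB p (t p)) = (ρ, ii.1) := by
    simp [ha', slB_ne_slA]
  have hA : a' (slA p) = (ρ', ii.2) := by simp [ha']
  have e0 := sdiff_eq h H t p a'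
  rw [hB, hA] at e0
  simp only [hs, e0]
  have e1 : prodK (prodK (sysK h H t a') (ownK (2 * r + 1) n)) (ownK (2 * r + 1) n) =
      tilt (prodK (prodK (priorK n N t) (ownK (2 * r + 1) n)) (ownK (2 * r + 1) n)) (mu r)
        (fun x => pertL h H t a' (phi0 p (t p) x)) := by
    simp only [pertL_phi0]
    rw [sysK, ← tilt_prodK_fst (isK_ownK _ _), ← tilt_prodK_fst (isK_ownK _ _)]
  rw [e1, Pr_mor (κ := sysK h H t a') (φ := phi0 p (t p)) _ _
    (fun e _ _ => tilt_mor (mu r) _ e (fun e' _ => isMor_phi0 t p (t p) e'))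
    (fun s => |sg h H t p a' s|), phi0_root]
  rfl

theorem Pr_congr {S : Type} [Fintype S] {κ κ' : ℕ → S → S → ℝ} (d k : ℕ)
    (h : ∀ e, d ≤ e → κ e = κ' e) (f : S → ℝ) : Pr κ d k f = Pr κ' d k f := by
  induction k with
  | zero => rfl
  | succ k ih => rw [Pr_succ, Pr_succ, ih, h _ (Nat.le_add_right _ _)]

theorem Efull_update (h : ℝ) (H : (Fin N → Bool) → ℝ) (t : Fin r → Fin (T + 1)) (p : Fin r)
    (u : Fin (T + 1)) (a : Data r T n N) :
    Efull h H (Function.update t p u) p a = Efull h H t p a := by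
  funext σ m
  unfold Efull
  rw [fullL_update, Rec_congr (κ' := priorK n N t) (μ' := mu r) _ _
    (fun e he => priorK_update t p u e (by omega) (by omega)) (fun _ _ => rfl)]

theorem exp_Rec_two (h : ℝ) (H : (Fin N → Bool) → ℝ) (t : Fin r → Fin (T + 1)) (p : Fin r)
    (a : Data r T n N) (s : St r T n N) :
    Real.exp (mu r (2 * p.val + 2) *
      Rec (priorK n N t) (mu r) (fullL h H t p a) (2 * p.val + 2) s) =
      RC (C1 p (t p).val) (Efull h H t p a s.2) s.1 := by
  rw [mu_even, exp_mul_Rec_succ _ (isK_priorK n N t _) (mu_pos r _).ne',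
    Ex_priorK_succ t (2 * p.val) (C1 p (t p).val) (mlev_C1 t p)]
  rfl

theorem exp_Rec_three (h : ℝ) (H : (Fin N → Bool) → ℝ) (t : Fin r → Fin (T + 1)) (p : Fin r)
    (a : Data r T n N) (s : St r T n N) :
    Real.exp (mu r (2 * p.val + 2) *
      Rec (priorK n N t) (mu r) (fullL h H t p a) (2 * p.val + 3) s) =
      RC (C2 p (t p).val) (RC (C1 p (t p).val) (Efull h H t p a s.2)) s.1 := by
  rw [exp_mul_Rec_succ _ (isK_priorK n N t _) (mu_pos r _).ne',
    Ex_priorK_succ t (2 * p.val + 1) (C2 p (t p).val) (mlev_C2 t p)]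
  simp only [exp_Rec_two]

theorem abs_slotW_le {h : ℝ} (h0 : 0 ≤ h) (h1 : h ≤ 1 / 4) (a : Data r T n N) (k : Slot r T)
    (s : St r T n N) : |slotW h a k s| ≤ 1 / 2 :=
  (abs_probe_le h0 (by linarith) _ _ _ _).trans (by linarith)

theorem pin_core {h : ℝ} (h0 : 0 ≤ h) (h1 : h ≤ 1 / 4) (H : (Fin N → Bool) → ℝ)
    (t : Fin r → Fin (T + 1)) (p : Fin r) (a : Data r T n N) (s : St r T n N) :
    (∀ u, u ≤ T + 1 → RC (C2 p u) (RC (C1 p u) (Efull h H t p a s.2)) s.1 =
      RC (C2 p 0) (RC (C1 p 0) (Efull h H t p a s.2)) s.1) ∧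
    ∑ u ∈ range (T + 1), RC (C2 p u) (fun x => RC (C1 p u) (Efull h H t p a s.2) x *
      sig (C1 p u) (Efull h H t p a s.2) (Sum.inl (slB p u)) (Sum.inl (slA p)) x ^ 2) s.1 ≤
      16 * (Real.exp 2 * Real.exp 2) ^ 4 *
        RC (C2 p 0) (RC (C1 p 0) (Efull h H t p a s.2)) s.1 := by
  refine pin_abs T (C1 p) (C2 p) (fun u => Sum.inl (slB p u)) (Sum.inl (slA p)) _
    (fun _ => Real.exp_pos _) (Real.one_le_exp (by norm_num)) ?_ ?_ s.1
  · intro u hu
    have hm : min u T = u := min_eq_left hu
    refine ⟨by simp [C1, slB, hm], by simp [C1, slB, hm], by simp [C2, slB, hm],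
      by simpa using slB_ne_slA p u, by simp [C1, slA]; omega, ?_⟩
    rintro (k | k) hk
    · by_cases hp : k.1 = p
      · have : k.2.val ≠ u := by
          intro h'
          apply hk
          congr 1
          exact Prod.ext hp (Fin.ext (by simp [slB, hm, h']))
        simp only [C1, C2, hp, true_and]
        omega
      · simp [C1, C2, hp]
    · simp [C1, C2]
  · intro u hu x z z' y y'
    set u' : Fin (T + 1) := ⟨u, by omega⟩
    set t' := Function.update t p u' with ht'
    have htp : (t' p).val = u := by simp [ht', u']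
    change Efull h H t p a s.2 _ ≤ Real.exp 2 * Efull h H t p a s.2 _
    rw [← Efull_update h H t p u' a, ← ht', ← htp]
    have key : ∀ z z', Efull h H t' p a s.2
        (Function.update (Function.update x (Sum.inl (slB p (t' p))) z) (Sum.inl (slA p)) z') =
        Real.exp (mu r (2 * p.val + 1) * Rec (priorK n N t') (mu r)
          (fun s => fullL h H t' p a (setz p (t' p) z z' s)) (2 * p.val + 1) (x, s.2)) := by
      intro z z'
      rw [Rec_mor (mu r) (fullL h H t' p a) (2 * p.val + 1)
        (fun e he => isMor_setz t' p z z' e (by omega))]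
      rfl
    rw [key, key, ← Real.exp_add, Real.exp_le_exp]
    have hb := abs_Rec_sub_le (isK_priorK n N t') (μ := mu r) (B := 2)
      (L := fun s => fullL h H t' p a (setz p (t' p) z z' s))
      (L' := fun s => fullL h H t' p a (setz p (t' p) y y' s)) (2 * p.val + 1)
      (fun e _ => mu_pos r e) (fun s => by
        simp only [fullL_eq, pertL_setz]
        have b1 := abs_le.1 (abs_slotW_le h0 h1 a (slB p (t' p)) (setz p (t' p) z z' s))
        have b2 := abs_le.1 (abs_slotW_le h0 h1 a (slA p) (setz p (t' p) z z' s))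
        have b3 := abs_le.1 (abs_slotW_le h0 h1 a (slB p (t' p)) (setz p (t' p) y y' s))
        have b4 := abs_le.1 (abs_slotW_le h0 h1 a (slA p) (setz p (t' p) y y' s))
        rw [abs_le]
        constructor <;> linarith [b1.1, b1.2, b2.1, b2.2, b3.1, b3.2, b4.1, b4.2]) (x, s.2)
    have m0 := mu_pos r (2 * p.val + 1)
    have m1 := mu_le_one r (2 * p.val + 1)
    nlinarith [(abs_le.1 hb).2]

theorem Rec_full_update {h : ℝ} (h0 : 0 ≤ h) (h1 : h ≤ 1 / 4) (H : (Fin N → Bool) → ℝ)
    (t : Fin r → Fin (T + 1)) (p : Fin r) (u : Fin (T + 1)) (a : Data r T n N) (d : ℕ)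
    (hd : 2 * p.val + 3 ≤ d) :
    Rec (priorK n N (Function.update t p u)) (mu r) (fullL h H t p a) d =
      Rec (priorK n N t) (mu r) (fullL h H t p a) d := by
  obtain ⟨k, rfl⟩ := Nat.exists_eq_add_of_le hd
  induction k with
  | zero =>
    funext s
    have e1 := exp_Rec_three h H (Function.update t p u) p a s
    have e2 := exp_Rec_three h H t p a s
    have c := (pin_core h0 h1 H t p a s).1
    rw [fullL_update, Efull_update, Function.update_self, c _ (by have := u.isLt; omega)] at e1
    rw [c _ (by have := (t p).isLt; omega), ← e1, Real.exp_eq_exp] at e2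
    exact (mul_left_cancel₀ (mu_pos r _).ne' e2).symm
  | succ k ih =>
    funext s
    rw [← add_assoc, Rec_succ, Rec_succ, ih (by omega),
      priorK_update t p u _ (by omega) (by omega)]

theorem avg_PsiQ_le {h : ℝ} (h0 : 0 ≤ h) (h1 : h ≤ 1 / 4) (H : (Fin N → Bool) → ℝ)
    (t : Fin r → Fin (T + 1)) (p : Fin r) (a : Data r T n N) {η : ℝ} (hη : 0 < η) :
    avg (fun u : Fin (T + 1) => PsiQ h H (Function.update t p u) p a) ≤
      Real.exp (4 * r) * (η / 2 + ((r : ℝ) + 1) ^ 2 / (2 * η) *
        (16 * (Real.exp 2 * Real.exp 2) ^ 4) / ((T : ℝ) + 1)) := by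
  set c₀ : ℝ := 16 * (Real.exp 2 * Real.exp 2) ^ 4 with hc₀
  have hk : 2 * (r - p.val) - 1 = (2 * (r - p.val) - 2) + 1 := by have := p.isLt; omega
  set F : Fin (T + 1) → St r T n N → ℝ := fun u => Ex (tilt (priorK n N (Function.update t p u))
    (mu r) (fullL h H t p a) (2 * p.val + 2)) (fun s => |sg h H (Function.update t p u) p a s|)
    with hF
  have hKf : ∀ d, IsK (tilt (priorK n N t) (mu r) (fullL h H t p a) d) :=
    fun d => isK_tilt _ _ (isK_priorK n N t d)
  have s1 : ∀ u : Fin (T + 1), PsiQ h H (Function.update t p u) p a ≤ Real.exp (4 * r) *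
      Pr (tilt (priorK n N t) (mu r) (fullL h H t p a)) (2 * p.val + 3) (2 * (r - p.val) - 2)
        (F u) (root r T n N) := by
    intro u
    have b := Pr_tilt_le (isK_priorK n N (Function.update t p u)) (μ := mu r)
      (fun e => ⟨mu_pos r e, mu_le_one r e⟩) (B := 1) (L := pertL h H (Function.update t p u) a)
      (L' := fullL h H t p a) (fun s => by
        rw [← fullL_update h H t p u, fullL_eq]
        have b1 := abs_le.1 (abs_slotW_le h0 h1 a (slB p (Function.update t p u p)) s)
        have b2 := abs_le.1 (abs_slotW_le h0 h1 a (slA p) s)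
        rw [abs_le]
        constructor <;> linarith [b1.1, b1.2, b2.1, b2.2])
      (2 * p.val + 2) (2 * (r - p.val) - 1) (f := fun s => |sg h H (Function.update t p u) p a s|)
      (fun _ => abs_nonneg _) (root r T n N)
    refine b.trans ?_
    rw [hk, Pr_succ', Pr_congr (κ' := tilt (priorK n N t) (mu r) (fullL h H t p a)) _ _ (by
      intro e he
      funext s s'
      simp only [tilt]
      rw [Rec_full_update h0 h1 H t p u a e he, Rec_full_update h0 h1 H t p u a (e + 1) (by omega),
        priorK_update t p u e (by omega) (by omega)])]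
    refine mul_le_mul_of_nonneg_right (Real.exp_le_exp.2 ?_) (Pr_nonneg hKf _ _ (fun s => ?_) _)
    · have : ((2 * (r - p.val) - 2 + 1 : ℕ) : ℝ) ≤ 2 * r := by
        exact_mod_cast (by omega : 2 * (r - p.val) - 2 + 1 ≤ 2 * r)
      linarith
    · exact (isK_tilt _ _ (isK_priorK n N _ _)).Ex_nonneg (fun _ => abs_nonneg _) s
  have s2 : ∀ s, avg (fun u => F u s) ≤
      η / 2 + ((r : ℝ) + 1) ^ 2 / (2 * η) * c₀ / ((T : ℝ) + 1) := by
    intro s
    obtain ⟨c1, c2⟩ := pin_core h0 h1 H t p a s
    set E := Efull h H t p a s.2 with hE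
    set W := RC (C2 p 0) (RC (C1 p 0) E) s.1 with hW
    have W0 : 0 < W := RC_pos _ (fun x => RC_pos _ (fun _ => Real.exp_pos _) x) _
    set R : ℕ → ℝ := fun u => RC (C2 p u) (fun x => RC (C1 p u) E x *
      sig (C1 p u) E (Sum.inl (slB p u)) (Sum.inl (slA p)) x ^ 2) s.1 with hR
    have hu : ∀ u : Fin (T + 1), F u s ≤ η / 2 + ((r : ℝ) + 1) ^ 2 / (2 * η) * (R u / W) := by
      intro u
      have e3 := exp_Rec_three h H (Function.update t p u) p a s
      have e2 := exp_Rec_two h H (Function.update t p u) p a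
      rw [fullL_update, Efull_update, Function.update_self] at e3
      simp only [fullL_update, Efull_update, Function.update_self] at e2
      rw [c1 _ (by have := u.isLt; omega)] at e3
      simp only [hF]
      rw [Ex_tilt, e3, Ex_priorK_succ (Function.update t p u) (2 * p.val + 1) (C2 p u.val)
        (by simpa using mlev_C2 (n := n) (Function.update t p u) p), div_le_iff₀ W0]
      simp only [e2, sg, Efull_update, Function.update_self]
      have e4 : (η / 2 + ((r : ℝ) + 1) ^ 2 / (2 * η) * (R u / W)) * W =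
          RC (C2 p u) (fun x => η / 2 * RC (C1 p u) E x + ((r : ℝ) + 1) ^ 2 / (2 * η) *
            (RC (C1 p u) E x *
              sig (C1 p u) E (Sum.inl (slB p u)) (Sum.inl (slA p)) x ^ 2)) s.1 := by
        rw [RC_add, RC_mul_left, RC_mul_left, c1 _ (by have := u.isLt; omega)]
        field_simp
        rfl
      rw [e4]
      refine RC_mono _ (fun x => ?_) _
      have w0 : 0 < RC (C1 p u) E x := RC_pos _ (fun _ => Real.exp_pos _) x
      set y := sig (C1 p u) E (Sum.inl (slB p u)) (Sum.inl (slA p)) x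
      have m0 := mu_pos r (2 * p.val + 1)
      have m1 : (mu r (2 * p.val + 1))⁻¹ ≤ (r : ℝ) + 1 := by
        have := mu_ge r (2 * p.val + 1)
        rw [one_div] at this
        exact inv_le_of_inv_le₀ (by positivity) this
      have a1 : |(mu r (2 * p.val + 1))⁻¹ * y| ≤ ((r : ℝ) + 1) * |y| := by
        rw [abs_mul, abs_of_pos (inv_pos.2 m0)]
        gcongr
      have a2 : ((r : ℝ) + 1) * |y| ≤ η / 2 + ((r : ℝ) + 1) ^ 2 / (2 * η) * y ^ 2 := by
        have : η / 2 + ((r : ℝ) + 1) ^ 2 / (2 * η) * y ^ 2 - ((r : ℝ) + 1) * |y| =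
            (η - ((r : ℝ) + 1) * |y|) ^ 2 / (2 * η) := by
          rw [← sq_abs y]; field_simp; ring
        have h2 : 0 ≤ (η - ((r : ℝ) + 1) * |y|) ^ 2 / (2 * η) := by positivity
        linarith
      nlinarith
    refine (avg_mono hu).trans ?_
    rw [avg_add, avg_const, avg_mul_left]
    have : avg (fun u : Fin (T + 1) => R u / W) ≤ c₀ / ((T : ℝ) + 1) := by
      rw [avg, Fintype.card_fin, ← sum_div, Fin.sum_univ_eq_sum_range R (T + 1)]
      push_cast
      gcongr
      rw [div_le_iff₀ W0]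
      exact c2
    have h3 : 0 ≤ ((r : ℝ) + 1) ^ 2 / (2 * η) := by positivity
    have := mul_le_mul_of_nonneg_left this h3
    rw [mul_div_assoc]
    linarith
  refine (avg_mono s1).trans ?_
  rw [avg_mul_left, ← Pr_avg]
  gcongr
  exact (Pr_mono hKf _ _ s2 _).trans (Pr_const hKf _ _ _ _).le

end PinSys

theorem pin (r n : ℕ) {h ε : ℝ} (h0 : 0 ≤ h) (h1 : h ≤ 1 / 4) (hε : 0 < ε) :
    ∃ T : ℕ, ∀ (N : ℕ) (H : (Fin N → Bool) → ℝ), 1 ≤ N → ∀ e, e < r →
      ∀ ρ ρ' : PT (2 * r + 1) n,
        avg (fun t : Fin r → Fin (T + 1) => avg (fun a : Data r T n N =>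
          pinq r n (sysK h H t a) (fun s => s.2) (root r T n N) h e ρ ρ')) ≤ ε := by
  set P : ℝ := (Fintype.card (PT (2 * r + 1) n) : ℝ) with hP
  have P0 : 0 < P := by rw [hP]; exact_mod_cast Fintype.card_pos
  set M : ℝ := P * P * Real.exp (4 * r) with hM
  have M0 : 0 < M := by positivity
  set η : ℝ := ε / M with hη
  have η0 : 0 < η := by positivity
  set c₁ : ℝ := ((r : ℝ) + 1) ^ 2 / (2 * η) * (16 * (Real.exp 2 * Real.exp 2) ^ 4) with hc₁
  obtain ⟨T, hT⟩ := exists_nat_ge (c₁ / (η / 2))
  refine ⟨T, fun N H hN e he ρ ρ' => ?_⟩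
  have : Nonempty (Fin N) := ⟨⟨0, hN⟩⟩
  set p : Fin r := ⟨e, he⟩
  have s1 : ∀ t : Fin r → Fin (T + 1), avg (fun a : Data r T n N =>
      pinq r n (sysK h H t a) (fun s => s.2) (root r T n N) h e ρ ρ') ≤
      P * P * avg (fun a : Data r T n N => PsiQ h H t p a) := by
    intro t
    rw [← avg_update (slA p) (fun a : Data r T n N => PsiQ h H t p a),
      ← avg_update (slB p (t p)) (fun a : Data r T n N => avg fun y =>
        PsiQ h H t p (Function.update a (slA p) y)), ← avg_mul_left]
    refine avg_mono fun a => ?_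
    rw [show e = p.val from rfl, pinq_eq, avg_prod]
    calc _ ≤ avg (fun i : Fin N => P * avg (fun y => PsiQ h H t p (Function.update
            (Function.update a (slB p (t p)) (ρ, i)) (slA p) y))) :=
          avg_mono fun i => avg_fiber_le (fun y => PsiQ h H t p (Function.update
            (Function.update a (slB p (t p)) (ρ, i)) (slA p) y)) (fun _ => PsiQ_nonneg ..) ρ'
      _ ≤ _ := by
          rw [avg_mul_left, mul_assoc]
          gcongr
          exact avg_fiber_le (fun x => avg (fun y => PsiQ h H t p (Function.update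
            (Function.update a (slB p (t p)) x) (slA p) y)))
            (fun _ => avg_nonneg fun _ => PsiQ_nonneg ..) ρ
  refine (avg_mono s1).trans ?_
  rw [avg_mul_left, avg_comm]
  have s2 : ∀ a : Data r T n N, avg (fun t : Fin r → Fin (T + 1) => PsiQ h H t p a) ≤
      Real.exp (4 * r) * η := by
    intro a
    rw [← avg_update p (fun t : Fin r → Fin (T + 1) => PsiQ h H t p a)]
    refine (avg_mono fun t => avg_PsiQ_le h0 h1 H t p a η0).trans ?_
    rw [avg_const]
    gcongr
    have h4 : c₁ / ((T : ℝ) + 1) ≤ η / 2 := by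
      rw [div_le_iff₀ (by positivity)]
      rw [div_le_iff₀ (by positivity)] at hT
      nlinarith
    linarith
  calc P * P * avg (fun a : Data r T n N =>
        avg (fun t : Fin r → Fin (T + 1) => PsiQ h H t p a))
      ≤ P * P * (Real.exp (4 * r) * η) := by
        gcongr
        exact (avg_mono s2).trans (avg_const _).le
    _ = ε := by rw [hη, hM]; field_simp

end Vale.Agent.P168
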