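import Vale.Agent.P168MP.ProbeAux

/-! The part of the recursion that is odd in the sign of a probe. -/

namespace Vale.Agent.P168

open Finset

theorem probe_log_le {h x : ℝ} (h0 : 0 ≤ h) (h1 : h ≤ 1 / 2) (hx : |x| ≤ 1) :
    |Real.log (1 + h * x)| ≤ 2 * h := by
  have hy : |h * x| ≤ h := by
    rw [abs_mul, abs_of_nonneg h0]
    exact mul_le_of_le_one_right h0 hx
  have := probe_log (a := 1 + h * x) (b := 1) (ε := h) h1 (by simpa using hy) (by simpa using h0)
  rw [Real.log_one, sub_zero, add_sub_cancel_left] at this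
  have h2 : 2 * h * |h * x| ≤ 1 * h := mul_le_mul (by linarith) hy (abs_nonneg _) zero_le_one
  have h3 := abs_add_le (Real.log (1 + h * x) - h * x) (h * x)
  rw [sub_add_cancel] at h3
  linarith

theorem probe_nav_sign {n : ℕ} (ω : ℕ → Mk n) : ∀ (d : ℕ) (τ : Tr Bool n d) (z : Bool),
    ∃ η : Bool, (nav ω d τ (spin z)).2 = spin η
  | 0, _, z => ⟨z, rfl⟩
  | d + 1, τ, z => by
    obtain ⟨η, hη⟩ := probe_lock_sign τ.ar (ω (d + 1)) z (chc τ.ar.val (ω d))
    simp only [nav, hη]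
    exact probe_nav_sign ω d _ η

theorem abs_probe_le {D n : ℕ} {h : ℝ} (h0 : 0 ≤ h) (h1 : h ≤ 1 / 2) (ρ : PT D n) (z : Bool)
    (o : Own D n) (b : Bool) : |probe h ρ z o b| ≤ 2 * h := by
  unfold probe
  refine probe_log_le h0 h1 ?_
  obtain ⟨η, hη⟩ := probe_nav_sign (marks o) ρ.1.val ρ.2 z
  rw [hη, abs_mul, abs_spin]
  split_ifs <;> norm_num

theorem isK_ownK (D n d : ℕ) : IsK (ownK D n d) := isK_crdK _ _

section PX

variable {S : Type} [Fintype S] {n : ℕ}

/-- Explicit form of the recursion with one probe. -/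
noncomputable def probeX (κ : ℕ → S → S → ℝ) (μ : ℕ → ℝ) (σ : S → Bool) (L : S → ℝ) (h : ℝ) :
    (d : ℕ) → Tr Bool n d → ℝ → Mk n → S → ℝ
  | 0, τ, z, _ => fun s => L s + Real.log (1 + h * (z * if σ s = τ.lab then 1 else 0))
  | d + 1, τ, z, u => fun s => (μ d)⁻¹ * Real.log (Ex (κ d) (fun t => avg (fun v : Mk n =>
      Real.exp (μ d * probeX κ μ σ L h d (τ.ch (chc τ.ar.val v))
        (lock τ.ar u z (chc τ.ar.val v)) v t))) s)

variable (κ : ℕ → S → S → ℝ) (μ : ℕ → ℝ) (σ : S → Bool) (L : S → ℝ) (h : ℝ)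

theorem probeX_inr : ∀ (d : ℕ) (τ : Tr Bool n d) (z : ℝ) (u u' : Mk n),
    (∀ j, u (Sum.inr j) = u' (Sum.inr j)) → probeX κ μ σ L h d τ z u = probeX κ μ σ L h d τ z u'
  | 0, _, _, _, _, _ => rfl
  | d + 1, τ, z, u, u', hu => by
    have : lock τ.ar u z = lock τ.ar u' z := by
      funext b
      simp only [lock, hu]
    simp only [probeX, this]

theorem probe_marks_eq {D : ℕ} {o o' : Own D n} {d e : ℕ} (hne : d ≠ e)
    (h : ownK D n e o o' ≠ 0) : marks o' d = marks o d := by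
  funext j
  unfold marks
  split_ifs with hd
  · exact crdK_ne_zero _ e h _ hne
  · rfl

theorem probeX_rec {D : ℕ} : ∀ (d : ℕ), d ≤ D → ∀ (τ : Tr Bool n d) (z : ℝ) (x : S × Own D n),
    Rec (prodK κ (ownK D n)) μ (fun x => L x.1 + Real.log (1 + h * ((nav (marks x.2) d τ z).2 *
      (if σ x.1 = (nav (marks x.2) d τ z).1 then 1 else 0)))) d x =
      probeX κ μ σ L h d τ z (marks x.2 d) x.1
  | 0, _, _, _, _ => rfl
  | d + 1, hd, τ, z, x => by
    have key : ∀ t : S × Own D n, Rec (prodK κ (ownK D n)) μ (fun x => L x.1 + Real.log (1 + h *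
        ((nav (marks x.2) (d + 1) τ z).2 *
          (if σ x.1 = (nav (marks x.2) (d + 1) τ z).1 then 1 else 0)))) d t =
        probeX κ μ σ L h d (τ.ch (chc τ.ar.val (marks t.2 d)))
          (lock τ.ar (marks t.2 (d + 1)) z (chc τ.ar.val (marks t.2 d))) (marks t.2 d) t.1 := by
      intro t
      rw [← probeX_rec d (by omega)]
      refine Rec_local μ (fun e y => marks y.2 d = marks t.2 d ∧
        marks y.2 (d + 1) = marks t.2 (d + 1)) d (fun e he s s' hs hk => ?_) (fun y hy => ?_) t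
        ⟨rfl, rfl⟩
      · have hk' : ownK D n e s.2 s'.2 ≠ 0 := right_ne_zero_of_mul hk
        exact ⟨(probe_marks_eq (by omega) hk').trans hs.1,
          (probe_marks_eq (by omega) hk').trans hs.2⟩
      · have hn : nav (marks y.2) (d + 1) τ z = nav (marks y.2) d (τ.ch (chc τ.ar.val (marks t.2 d)))
            (lock τ.ar (marks t.2 (d + 1)) z (chc τ.ar.val (marks t.2 d))) := by
          rw [← hy.1, ← hy.2]
          rfl
        rw [hn]
    rw [Rec_succ]
    simp only [key]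
    rw [Ex_prodK]
    simp only [probeX]
    refine congrArg (fun w => (μ d)⁻¹ * Real.log (Ex (κ d) w x.1)) (funext fun t => ?_)
    unfold ownK
    rw [Ex_crdK]
    have hlt : d < D := by omega
    have he : Function.Injective (fun j : Fin n ⊕ Fin n => ((⟨d, hlt⟩ : Fin D), j)) :=
      fun i j hij => congrArg Prod.snd hij
    rw [← avg_comp_inj _ he]
    refine congrArg avg (funext fun u => ?_)
    have e1 : marks (fun i : Fin D × (Fin n ⊕ Fin n) => if i.1.val = d then u i else x.2 i) d =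
        fun j => u (⟨d, hlt⟩, j) := by
      funext j
      simp [marks, hlt]
    have e2 : marks (fun i : Fin D × (Fin n ⊕ Fin n) => if i.1.val = d then u i else x.2 i)
        (d + 1) = marks x.2 (d + 1) := by
      funext j
      simp [marks]
    simp only [e1, e2]

variable {κ μ σ L h}

theorem probeX_bound (hκ : ∀ d, IsK (κ d)) (hμ : ∀ d, 0 < μ d) (h0 : 0 ≤ h) (h1 : h ≤ 1 / 2)
    (hL : ∀ s, |L s| ≤ 2 * h) : ∀ (d : ℕ) (τ : Tr Bool n d) (z : Bool) (u : Mk n) (s : S),
    |probeX κ μ σ L h d τ (spin z) u s| ≤ 4 * h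
  | 0, τ, z, u, s => by
    have := probe_log_le (x := spin z * if σ s = τ.lab then 1 else 0) h0 h1 (by
      rw [abs_mul, abs_spin]
      split_ifs <;> norm_num)
    have h2 := abs_add_le (L s) (Real.log (1 + h * (spin z * if σ s = τ.lab then 1 else 0)))
    simp only [probeX]
    linarith [hL s]
  | d + 1, τ, z, u, s => by
    have hb : ∀ (v : Mk n) t, |probeX κ μ σ L h d (τ.ch (chc τ.ar.val v))
        (lock τ.ar u (spin z) (chc τ.ar.val v)) v t| ≤ 4 * h := by
      intro v t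
      obtain ⟨η, hη⟩ := probe_lock_sign τ.ar u z (chc τ.ar.val v)
      rw [hη]
      exact probeX_bound hκ hμ h0 h1 hL d _ η v t
    simp only [probeX]
    set w := Ex (κ d) (fun t => avg (fun v : Mk n =>
      Real.exp (μ d * probeX κ μ σ L h d (τ.ch (chc τ.ar.val v))
        (lock τ.ar u (spin z) (chc τ.ar.val v)) v t))) s with hw
    have hup : w ≤ Real.exp (μ d * (4 * h)) := by
      rw [← (hκ d).Ex_const (Real.exp (μ d * (4 * h))) s]
      refine (hκ d).Ex_mono (fun t => ?_) s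
      rw [← avg_const (ι := Mk n) (Real.exp (μ d * (4 * h)))]
      exact avg_mono (fun v => Real.exp_le_exp.2
        (mul_le_mul_of_nonneg_left (abs_le.1 (hb v t)).2 (hμ d).le))
    have hlo : Real.exp (μ d * (-(4 * h))) ≤ w := by
      rw [← (hκ d).Ex_const (Real.exp (μ d * (-(4 * h)))) s]
      refine (hκ d).Ex_mono (fun t => ?_) s
      rw [← avg_const (ι := Mk n) (Real.exp (μ d * (-(4 * h))))]
      exact avg_mono (fun v => Real.exp_le_exp.2
        (mul_le_mul_of_nonneg_left (abs_le.1 (hb v t)).1 (hμ d).le))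
    have hpos : 0 < w := lt_of_lt_of_le (Real.exp_pos _) hlo
    rw [abs_le, ← div_eq_inv_mul, le_div_iff₀ (hμ d), div_le_iff₀ (hμ d)]
    constructor
    · rw [Real.le_log_iff_exp_le hpos, mul_comm]; exact hlo
    · rw [Real.log_le_iff_le_exp hpos, mul_comm]; exact hup

variable (κ μ σ L h)

/-- Averaged exponential. -/
noncomputable def probeB (d : ℕ) (τ : Tr Bool n d) (z : ℝ) (s : S) : ℝ :=
  avg (fun u : Mk n => Real.exp (μ d * probeX κ μ σ L h d τ z u s))

/-- Odd part. -/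
noncomputable def probeO (d : ℕ) (τ : Tr Bool n d) (s : S) : ℝ :=
  (probeB κ μ σ L h d τ 1 s - probeB κ μ σ L h d τ (-1) s) / 2

/-- Even part. -/
noncomputable def probeA (d : ℕ) (τ : Tr Bool n d) (s : S) : ℝ :=
  (probeB κ μ σ L h d τ 1 s + probeB κ μ σ L h d τ (-1) s) / 2

theorem probeB_spin (d : ℕ) (τ : Tr Bool n d) (η : Bool) (s : S) :
    probeB κ μ σ L h d τ (spin η) s = probeA κ μ σ L h d τ s + spin η * probeO κ μ σ L h d τ s := by
  cases η <;> simp [spin, probeA, probeO] <;> ring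

variable {κ μ σ L h}

theorem probeE_bound (hκ : ∀ d, IsK (κ d)) (hμ : ∀ d, 0 < μ d) (hμ1 : ∀ d, μ d ≤ 1) (h0 : 0 ≤ h)
    (h1 : h ≤ 1 / 4) (hL : ∀ s, |L s| ≤ 2 * h) (d : ℕ) (τ : Tr Bool n d) (z : Bool) (u : Mk n)
    (s : S) : |Real.exp (μ d * probeX κ μ σ L h d τ (spin z) u s) - 1| ≤ 8 * h := by
  have hb := probeX_bound (σ := σ) hκ hμ h0 (by linarith) hL d τ z u s
  have h2 : |μ d * probeX κ μ σ L h d τ (spin z) u s| ≤ 4 * h := by
    rw [abs_mul, abs_of_pos (hμ d)]
    exact (mul_le_of_le_one_left (abs_nonneg _) (hμ1 d)).trans hb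
  have := Real.abs_exp_sub_one_le (h2.trans (by linarith))
  linarith

theorem probeB_bound (hκ : ∀ d, IsK (κ d)) (hμ : ∀ d, 0 < μ d) (hμ1 : ∀ d, μ d ≤ 1) (h0 : 0 ≤ h)
    (h1 : h ≤ 1 / 4) (hL : ∀ s, |L s| ≤ 2 * h) (d : ℕ) (τ : Tr Bool n d) (z : Bool)
    (s : S) : |probeB κ μ σ L h d τ (spin z) s - 1| ≤ 8 * h := by
  rw [← avg_const (ι := Mk n) (1 : ℝ)]
  exact abs_avg_sub_le (by linarith) (fun u => probeE_bound hκ hμ hμ1 h0 h1 hL d τ z u s)

theorem probe_step (hκ : ∀ d, IsK (κ d)) (d : ℕ) (τ : Tr Bool n (d + 1))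
    (z : Bool) (u : Mk n) (s : S) :
    Real.exp (μ (d + 1) * probeX κ μ σ L h (d + 1) τ (spin z) u s) =
      probeF (μ (d + 1) / μ d) 0
        ((∑ b, probeP n τ.ar.val b * Ex (κ d) (probeA κ μ σ L h d (τ.ch b)) s) +
          ∑ b, lock τ.ar u (spin z) b *
            (probeP n τ.ar.val b * Ex (κ d) (probeO κ μ σ L h d (τ.ch b)) s)) := by
  simp only [probeX]
  set w := Ex (κ d) (fun t => avg (fun v : Mk n =>
    Real.exp (μ d * probeX κ μ σ L h d (τ.ch (chc τ.ar.val v))
      (lock τ.ar u (spin z) (chc τ.ar.val v)) v t))) s with hw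
  have hpos : 0 < w := (hκ d).Ex_pos (fun t => avg_pos (fun v => Real.exp_pos _)) s
  have e : w = (∑ b, probeP n τ.ar.val b * Ex (κ d) (probeA κ μ σ L h d (τ.ch b)) s) +
      ∑ b, lock τ.ar u (spin z) b *
        (probeP n τ.ar.val b * Ex (κ d) (probeO κ μ σ L h d (τ.ch b)) s) := by
    have e1 : ∀ t, avg (fun v : Mk n =>
        Real.exp (μ d * probeX κ μ σ L h d (τ.ch (chc τ.ar.val v))
          (lock τ.ar u (spin z) (chc τ.ar.val v)) v t)) =
        ∑ b, probeP n τ.ar.val b * (probeA κ μ σ L h d (τ.ch b) t +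
          lock τ.ar u (spin z) b * probeO κ μ σ L h d (τ.ch b) t) := by
      intro t
      rw [probe_fact (fun b v => Real.exp (μ d * probeX κ μ σ L h d (τ.ch b)
        (lock τ.ar u (spin z) b) v t)) (fun b v v' hv => by rw [probeX_inr κ μ σ L h d _ _ v v' hv])]
      refine sum_congr rfl (fun b _ => ?_)
      obtain ⟨η, hη⟩ := probe_lock_sign τ.ar u z b
      rw [hη, ← probeB_spin]
      rfl
    rw [hw]
    simp only [e1]
    rw [Ex_sum, ← sum_add_distrib]
    refine sum_congr rfl (fun b _ => ?_)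
    rw [Ex_mul_left, Ex_add, Ex_mul_left]
    ring
  rw [← e]
  unfold probeF
  rw [range_zero, prod_empty, one_mul, Nat.cast_zero, sub_zero, Real.rpow_def_of_pos hpos]
  refine congrArg Real.exp ?_
  ring

end PX

theorem probe_main (r n : ℕ) : ∀ (d : ℕ) (τ : Tr Bool n d), wt (mu r) d τ ≠ 0 →
    ∃ c C h₀ : ℝ, c ≠ 0 ∧ 0 ≤ C ∧ 0 < h₀ ∧ h₀ ≤ 1 / 32 ∧
      ∀ (S : Type) [Fintype S] (κ : ℕ → S → S → ℝ) (σ : S → Bool) (L : S → ℝ) (h : ℝ),
        (∀ d, IsK (κ d)) → 0 < h → h ≤ h₀ → (∀ s, |L s| ≤ 2 * h) → ∀ s : S,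
          |probeO κ (mu r) σ L h d τ s - c * h ^ size d τ *
            ev κ (fun b t => if σ t = b then 1 else 0) d τ s| ≤ C * h ^ (size d τ + 1)
  | 0, τ, _ => by
    refine ⟨1, 4, 1 / 32, one_ne_zero, by norm_num, by norm_num, le_rfl, ?_⟩
    intro S _ κ σ L h _ h0 h1 hL s
    have hE : ∀ z : ℝ, |z| ≤ 1 → probeB κ (mu r) σ L h 0 τ z s =
        Real.exp (L s) * (1 + h * (z * if σ s = τ.lab then 1 else 0)) := by
      intro z hz
      simp only [probeB, probeX, avg_const, mu_zero, one_mul]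
      rw [Real.exp_add, Real.exp_log]
      rw [abs_le] at hz
      split_ifs
      · nlinarith
      · norm_num
    have h2 := Real.abs_exp_sub_one_le ((hL s).trans (by linarith))
    simp only [probeO, size, ev]
    rw [hE 1 (by norm_num), hE (-1) (by norm_num)]
    split_ifs
    · have e : (Real.exp (L s) * (1 + h * (1 * 1)) - Real.exp (L s) * (1 + h * (-1 * 1))) / 2 -
          1 * h ^ 1 * 1 = h * (Real.exp (L s) - 1) := by ring
      rw [e, abs_mul, abs_of_pos h0]
      have := mul_le_mul_of_nonneg_left (h2.trans (by linarith [hL s] : 2 * |L s| ≤ 4 * h)) h0.le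
      linarith [show 4 * h ^ (1 + 1) = h * (4 * h) by ring]
    · simp only [mul_zero, add_zero, sub_self, zero_div, abs_zero]
      positivity
  | d + 1, τ, hw => by
    have hw1 : bco (mu r (d + 1)) (mu r d) τ.ar.val ≠ 0 := left_ne_zero_of_mul hw
    have hw2 : ∀ b, wt (mu r) d (τ.ch b) ≠ 0 := fun b =>
      prod_ne_zero_iff.1 (right_ne_zero_of_mul hw) b (mem_univ b)
    choose c C h₀ hc hC hh₀ hh₁ H using fun b => probe_main r n d (τ.ch b) (hw2 b)
    obtain ⟨b₀, hb₀⟩ := Finite.exists_min h₀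
    set p := mu r (d + 1) / mu r d with hp
    obtain ⟨K, δ, hK, hδ, hlip⟩ := probeF_lip p (τ.ar.val + 1)
    set M := ∑ b, (|c b| + C b) with hM
    have hMb : ∀ b, |c b| + C b ≤ M := fun b =>
      single_le_sum (f := fun b => |c b| + C b) (fun b _ => add_nonneg (abs_nonneg _) (hC b))
        (mem_univ b)
    have hM0 : 0 ≤ M := sum_nonneg (fun b _ => add_nonneg (abs_nonneg _) (hC b))
    obtain ⟨C', hC', hprod⟩ := probe_prod (τ.ar.val + 1) hM0
    have hP1 : ∀ b, probeP n τ.ar.val b ≤ 1 := fun b => by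
      rw [← probeP_sum n τ.ar.val]
      exact single_le_sum (fun b _ => probeP_nonneg _ _ b) (mem_univ b)
    refine ⟨probeF p (τ.ar.val + 1) 1 * ∏ b, probeP n τ.ar.val b * c b, C' * (K * 16) + C' * |probeF p (τ.ar.val + 1) 1|,
      min (h₀ b₀) (δ / 16), mul_ne_zero (probeF_one_ne (mu_pos _ _) (mu_pos _ _) hw1)
        (prod_ne_zero_iff.2 fun b _ => mul_ne_zero (probeP_pos τ.ar b).ne' (hc b)),
      by positivity, lt_min (hh₀ _) (by linarith), (min_le_left _ _).trans (hh₁ _), ?_⟩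
    intro S _ κ σ L h hκ h0 h1 hL s
    have h2 : ∀ b, h ≤ h₀ b := fun b => (h1.trans (min_le_left _ _)).trans (hb₀ b)
    have h3 : h ≤ 1 / 32 := (h2 b₀).trans (hh₁ _)
    have h4 : h ≤ δ / 16 := h1.trans (min_le_right _ _)
    have hB := fun b z t => probeB_bound (σ := σ) hκ (mu_pos r) (mu_le_one r) h0.le (by linarith)
      hL d (τ.ch b) z t
    set x₀ := ∑ b, probeP n τ.ar.val b * Ex (κ d) (probeA κ (mu r) σ L h d (τ.ch b)) s with hx₀
    set t : Fin (τ.ar.val + 1) → ℝ := fun b =>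
      probeP n τ.ar.val b * Ex (κ d) (probeO κ (mu r) σ L h d (τ.ch b)) s with ht
    have hx : |x₀ - 1| ≤ 8 * h := by
      have e : x₀ - 1 = ∑ b, probeP n τ.ar.val b *
          Ex (κ d) (fun t => probeA κ (mu r) σ L h d (τ.ch b) t - 1) s := by
        simp only [Ex_sub, (hκ d).Ex_const, mul_sub, sum_sub_distrib, mul_one, probeP_sum]
        rfl
      rw [e]
      refine (abs_sum_le_sum_abs _ _).trans ?_
      calc _ ≤ ∑ b, probeP n τ.ar.val b * (8 * h) := sum_le_sum (fun b _ => ?_)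
        _ = 8 * h := by rw [← sum_mul, probeP_sum, one_mul]
      rw [abs_mul, abs_of_nonneg (probeP_nonneg _ _ _)]
      refine mul_le_mul_of_nonneg_left ((hκ d).abs_Ex_le (fun t => ?_) s) (probeP_nonneg _ _ _)
      have a1 := abs_le.1 (hB b true t)
      have a2 := abs_le.1 (hB b false t)
      simp only [spin, if_true, Bool.false_eq_true, if_false] at a1 a2
      unfold probeA
      rw [abs_le]; constructor <;> linarith [a1.1, a1.2, a2.1, a2.2]
    have htb : ∑ b, |t b| ≤ 8 * h := by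
      calc _ ≤ ∑ b, probeP n τ.ar.val b * (8 * h) := sum_le_sum (fun b _ => ?_)
        _ = 8 * h := by rw [← sum_mul, probeP_sum, one_mul]
      simp only [ht]
      rw [abs_mul, abs_of_nonneg (probeP_nonneg _ _ _)]
      refine mul_le_mul_of_nonneg_left ((hκ d).abs_Ex_le (fun t => ?_) s) (probeP_nonneg _ _ _)
      have a1 := abs_le.1 (hB b true t)
      have a2 := abs_le.1 (hB b false t)
      simp only [spin, if_true, Bool.false_eq_true, if_false] at a1 a2
      unfold probeO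
      rw [abs_le]; constructor <;> linarith [a1.1, a1.2, a2.1, a2.2]
    obtain ⟨ξ, hξ, hcd⟩ := probe_cd (τ.ar.val + 1) (probeF p) x₀ t (fun j y hy => probeF_deriv p j (by
      have a1 := abs_le.1 hy
      have a2 := abs_le.1 hx
      linarith [a1.1, a2.1]))
    have hO : probeO κ (mu r) σ L h (d + 1) τ s = (∏ b, t b) * probeF p (τ.ar.val + 1) ξ := by
      rw [← hcd, ← probe_lock_odd τ.ar (fun ζ => probeF p 0 (x₀ + ∑ b, ζ b * t b))]
      have a1 := fun u => probe_step (σ := σ) (L := L) (h := h) (μ := mu r) hκ d τ true u s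
      have a2 := fun u => probe_step (σ := σ) (L := L) (h := h) (μ := mu r) hκ d τ false u s
      simp only [spin, if_true, Bool.false_eq_true, if_false] at a1 a2
      simp only [probeO, probeB, a1, a2]
      rfl
    have hξ1 : |ξ - 1| ≤ 16 * h := by
      have := abs_add_le (ξ - x₀) (x₀ - 1)
      have e : ξ - x₀ + (x₀ - 1) = ξ - 1 := by ring
      rw [e] at this
      linarith
    have hF : |probeF p (τ.ar.val + 1) ξ - probeF p (τ.ar.val + 1) 1| ≤ K * 16 * h := by
      have := hlip ξ (by linarith)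
      have a := mul_le_mul_of_nonneg_left hξ1 hK
      linarith
    set g : Bool → S → ℝ := fun b t => if σ t = b then 1 else 0 with hg
    have hev : ∀ b t, |ev κ g d (τ.ch b) t| ≤ 1 := fun b t => by
      have := abs_ev_le hκ (g := g) (ρ := 1) (fun l s => by
        simp only [hg]; split_ifs <;> norm_num) d (τ.ch b) t
      rwa [one_pow] at this
    set a : Fin (τ.ar.val + 1) → ℝ := fun b => probeP n τ.ar.val b * c b * Ex (κ d) (ev κ g d (τ.ch b)) s
      with ha
    set a' : Fin (τ.ar.val + 1) → ℝ := fun b => t b / h ^ size d (τ.ch b) with ha'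
    obtain ⟨q1, q2⟩ := hprod h h0.le (by linarith) a a' (fun b => by
      simp only [ha]
      rw [abs_mul, abs_mul, abs_of_nonneg (probeP_nonneg _ _ _)]
      have a1 := (hκ d).abs_Ex_le (hev b) s
      have a2 := mul_le_mul (mul_le_of_le_one_left (abs_nonneg (c b)) (hP1 b)) a1 (abs_nonneg _)
        (abs_nonneg _)
      linarith [hMb b, hC b]) (fun b => by
      have hpos : 0 < h ^ size d (τ.ch b) := pow_pos h0 _
      have e : a' b - a b = probeP n τ.ar.val b * Ex (κ d) (fun t =>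
          probeO κ (mu r) σ L h d (τ.ch b) t - c b * h ^ size d (τ.ch b) * ev κ g d (τ.ch b) t) s /
            h ^ size d (τ.ch b) := by
        rw [Ex_sub, Ex_mul_left]
        simp only [ha, ha', ht]
        field_simp
      rw [e, abs_div, abs_of_pos hpos, div_le_iff₀ hpos, abs_mul,
        abs_of_nonneg (probeP_nonneg _ _ _)]
      have a1 := (hκ d).abs_Ex_le (fun t => H b S κ σ L h hκ h0 (h2 b) hL t) s
      have a2 := mul_le_of_le_one_left (abs_nonneg (Ex (κ d) (fun t =>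
          probeO κ (mu r) σ L h d (τ.ch b) t - c b * h ^ size d (τ.ch b) * ev κ g d (τ.ch b) t) s))
        (hP1 b)
      have a3 : C b * h ^ (size d (τ.ch b) + 1) ≤ M * h ^ (size d (τ.ch b) + 1) :=
        mul_le_mul_of_nonneg_right (by linarith [hMb b, abs_nonneg (c b)]) (by positivity)
      rw [pow_succ] at a1 a3
      linarith)
    have hsz : h ^ size (d + 1) τ = ∏ b, h ^ size d (τ.ch b) := by
      simp only [size]
      rw [prod_pow_eq_pow_sum]
    have e1 : ∏ b, t b = h ^ size (d + 1) τ * ∏ b, a' b := by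
      rw [hsz, ← prod_mul_distrib]
      refine prod_congr rfl (fun b _ => ?_)
      simp only [ha']
      field_simp
    have e2 : (∏ b, probeP n τ.ar.val b * c b) * ev κ g (d + 1) τ s = ∏ b, a b := by
      simp only [ev, ha]
      rw [← prod_mul_distrib]
    have e3 : probeO κ (mu r) σ L h (d + 1) τ s - (probeF p (τ.ar.val + 1) 1 * ∏ b, probeP n τ.ar.val b * c b) *
        h ^ size (d + 1) τ * ev κ g (d + 1) τ s = h ^ size (d + 1) τ *
          ((∏ b, a' b) * (probeF p (τ.ar.val + 1) ξ - probeF p (τ.ar.val + 1) 1) + (∏ b, a' b - ∏ b, a b) * probeF p (τ.ar.val + 1) 1) := by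
      rw [hO, e1, ← e2]
      ring
    rw [e3, abs_mul, abs_of_pos (pow_pos h0 _), pow_succ, mul_left_comm]
    refine mul_le_mul_of_nonneg_left ((abs_add_le _ _).trans ?_) (pow_pos h0 _).le
    rw [abs_mul, abs_mul]
    have b1 := mul_le_mul q2 hF (abs_nonneg _) hC'
    have b2 := mul_le_mul_of_nonneg_right q1 (abs_nonneg (probeF p (τ.ar.val + 1) 1))
    linarith

theorem probe_single {S : Type} [Fintype S] {n : ℕ} (κ : ℕ → S → S → ℝ) (μ : ℕ → ℝ) (σ : S → Bool)
    (L : S → ℝ) (h : ℝ) : ∀ (d : ℕ) (τ : Tr Bool n d), Single d τ → ∀ (z : ℝ) (u u' : Mk n),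
      probeX κ μ σ L h d τ z u = probeX κ μ σ L h d τ z u'
  | 0, _, _, _, _, _ => rfl
  | d + 1, τ, hs, z, u, u' => by
    have hs' : τ.ar.val = 0 := hs
    have hb : ∀ b : Fin (τ.ar.val + 1), b = 0 := fun b => Fin.ext (by
      have := b.isLt
      simp only [Fin.val_zero]
      omega)
    have : lock τ.ar u z = lock τ.ar u' z := by
      funext b
      have he : univ.erase (0 : Fin (τ.ar.val + 1)) = ∅ := by
        ext b'
        simp [hb b']
      simp only [lock, if_pos (hb b), he, prod_empty]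
    simp only [probeX, this]

theorem probe_odd (r n : ℕ) (ρ : PT (2 * r + 1) n) (hw : wt (mu r) ρ.1.val ρ.2 ≠ 0)
    (hs : Single ρ.1.val ρ.2) :
    ∃ c C h₀ : ℝ, c ≠ 0 ∧ 0 ≤ C ∧ 0 < h₀ ∧ h₀ ≤ 1 / 4 ∧
      ∀ (S : Type) [Fintype S] (κ : ℕ → S → S → ℝ) (σ : S → Bool) (L : S → ℝ) (h : ℝ),
        (∀ d, IsK (κ d)) → 0 < h → h ≤ h₀ → (∀ s, |L s| ≤ 2 * h) →
        ∀ x : S × Own (2 * r + 1) n,
          |Rec (prodK κ (ownK (2 * r + 1) n)) (mu r)
              (fun x => L x.1 + probe h ρ true x.2 (σ x.1)) ρ.1.val x -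
            Rec (prodK κ (ownK (2 * r + 1) n)) (mu r)
              (fun x => L x.1 + probe h ρ false x.2 (σ x.1)) ρ.1.val x -
            c * h ^ size ρ.1.val ρ.2 *
              ev κ (fun b t => if σ t = b then 1 else 0) ρ.1.val ρ.2 x.1| ≤
          C * h ^ (size ρ.1.val ρ.2 + 1) := by
  obtain ⟨c, C, h₀, hc, hC, hh₀, hh₁, H⟩ := probe_main r n ρ.1.val ρ.2 hw
  have hm := mu_pos r ρ.1.val
  set m := mu r ρ.1.val with hmd
  refine ⟨2 * c / m, (2 * C + 32 * (|c| + C)) / m, h₀, div_ne_zero (mul_ne_zero two_ne_zero hc) hm.ne',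
    by positivity, hh₀, by linarith, ?_⟩
  intro S _ κ σ L h hκ h0 h1 hL x
  have H1 := H S κ σ L h hκ h0 h1 hL x.1
  unfold probe
  rw [probeX_rec κ (mu r) σ L h ρ.1.val ρ.1.isLt.le, probeX_rec κ (mu r) σ L h ρ.1.val ρ.1.isLt.le]
  set u := marks x.2 ρ.1.val
  have hB : ∀ z, probeB κ (mu r) σ L h ρ.1.val ρ.2 z x.1 =
      Real.exp (m * probeX κ (mu r) σ L h ρ.1.val ρ.2 z u x.1) := by
    intro z
    unfold probeB
    simp only [fun v => probe_single κ (mu r) σ L h ρ.1.val ρ.2 hs z v u, avg_const]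
    rfl
  have a1 := probeE_bound (σ := σ) hκ (mu_pos r) (mu_le_one r) h0.le (by linarith) hL ρ.1.val ρ.2
    true u x.1
  have a2 := probeE_bound (σ := σ) hκ (mu_pos r) (mu_le_one r) h0.le (by linarith) hL ρ.1.val ρ.2
    false u x.1
  have a3 := probe_log (by linarith) a1 a2
  rw [Real.log_exp, Real.log_exp] at a3
  unfold probeO at H1
  rw [hB, hB] at H1
  have e1 : spin true = 1 := rfl
  have e2 : spin false = -1 := rfl
  rw [e1, e2, ← hmd] at a3
  rw [e1, e2]
  set X₁ := probeX κ (mu r) σ L h ρ.1.val ρ.2 1 u x.1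
  set X₂ := probeX κ (mu r) σ L h ρ.1.val ρ.2 (-1) u x.1
  set E₁ := Real.exp (m * X₁)
  set E₂ := Real.exp (m * X₂)
  have hev : |ev κ (fun b t => if σ t = b then (1 : ℝ) else 0) ρ.1.val ρ.2 x.1| ≤ 1 := by
    have := abs_ev_le hκ (g := fun b t => if σ t = b then (1 : ℝ) else 0) (ρ := 1) (fun l s => by
      split_ifs <;> norm_num) ρ.1.val ρ.2 x.1
    rwa [one_pow] at this
  set e := ev κ (fun b t => if σ t = b then (1 : ℝ) else 0) ρ.1.val ρ.2 x.1
  set P := h ^ size ρ.1.val ρ.2 with hP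
  have hP0 : 0 < P := pow_pos h0 _
  rw [pow_succ, ← hP] at H1 ⊢
  have e3 : X₁ - X₂ - 2 * c / m * P * e =
      ((m * X₁ - m * X₂ - (E₁ - E₂)) + 2 * ((E₁ - E₂) / 2 - c * P * e)) / m := by
    field_simp
    ring
  rw [e3, abs_div, abs_of_pos hm, div_mul_eq_mul_div]
  refine div_le_div_of_nonneg_right ((abs_add_le _ _).trans ?_) hm.le
  rw [abs_mul, abs_two]
  have b1 : |c * P * e| ≤ |c| * P := by
    rw [abs_mul, abs_mul, abs_of_pos hP0]
    exact mul_le_of_le_one_right (by positivity) hev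
  have b2 : |(E₁ - E₂) / 2| ≤ (|c| + C) * P := by
    have := abs_add_le ((E₁ - E₂) / 2 - c * P * e) (c * P * e)
    rw [sub_add_cancel] at this
    have b3 : C * (P * h) ≤ C * P :=
      mul_le_mul_of_nonneg_left (mul_le_of_le_one_right hP0.le (by linarith)) hC
    linarith
  rw [abs_div, abs_two] at b2
  have b4 : 2 * (8 * h) * |E₁ - E₂| ≤ 2 * (8 * h) * (2 * ((|c| + C) * P)) :=
    mul_le_mul_of_nonneg_left (by linarith) (by positivity)
  linarith

end Vale.Agent.P168
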