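import Vale.Agent.P168MP.Key
import Vale.Agent.P168MP.Poi

/-! The interpolating system as a functional of a list of slots; the final end point. -/

namespace Vale.Agent.P168

open Finset

variable {Θ S : Type} [Fintype Θ] [Fintype S] {K N : ℕ}

noncomputable def GX (m : Msg S) (th : Θ → Cl K) (h : Fin N → ℝ) (l : List (Θ × Kind K N)) : ℝ :=
  Xs m h (fun k : Fin l.length => (th (l.get k).1, (l.get k).2))

/-- Slot law at the final end point: true clause with probability `1/K`, else `V` clause. -/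
noncomputable def q1 (q : Θ → ℝ) (K N : ℕ) : Θ × Kind K N → ℝ
  | (x, Sum.inl _) => q x / (K * (N : ℝ) ^ K)
  | (_, Sum.inr (Sum.inl _)) => 0
  | (x, Sum.inr (Sum.inr _)) => q x * ((K : ℝ) - 1) / K

/-- Slot law at the initial end point: cavity clauses. -/
noncomputable def q0 (q : Θ → ℝ) (K N : ℕ) : Θ × Kind K N → ℝ
  | (_, Sum.inl _) => 0
  | (x, Sum.inr (Sum.inl _)) => q x / (K * (N : ℝ))
  | (_, Sum.inr (Sum.inr _)) => 0

theorem isPr_q1 {q : Θ → ℝ} (hq : IsPr q) (hK : 1 ≤ K) (hN : 1 ≤ N) : IsPr (q1 q K N) := by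
  have hK' : (1 : ℝ) ≤ K := by exact_mod_cast hK
  have hN' : (0 : ℝ) < N := by exact_mod_cast hN
  refine ⟨?_, ?_⟩
  · rintro ⟨x, _ | _ | _⟩
    · exact div_nonneg (hq.1 x) (by positivity)
    · exact le_rfl
    · exact div_nonneg (mul_nonneg (hq.1 x) (by linarith)) (by positivity)
  · rw [Fintype.sum_prod_type, ← hq.2]
    refine sum_congr rfl fun x _ => ?_
    simp only [Fintype.sum_sum_type, q1, sum_const, card_univ, Fintype.card_fun, Fintype.card_fin,
      nsmul_eq_mul, Fintype.card_unique, mul_zero]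
    push_cast
    field_simp
    ring
theorem isPr_q0 {q : Θ → ℝ} (hq : IsPr q) (hK : 1 ≤ K) (hN : 1 ≤ N) : IsPr (q0 q K N) := by
  have hK' : (0 : ℝ) < K := by exact_mod_cast hK
  have hN' : (0 : ℝ) < N := by exact_mod_cast hN
  refine ⟨?_, ?_⟩
  · rintro ⟨x, _ | _ | _⟩
    · exact le_rfl
    · exact div_nonneg (hq.1 x) (by positivity)
    · exact le_rfl
  · rw [Fintype.sum_prod_type, ← hq.2]
    refine sum_congr rfl fun x _ => ?_
    simp only [Fintype.sum_sum_type, q0, sum_const, card_univ, Fintype.card_prod, Fintype.card_fin,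
      nsmul_eq_mul, mul_zero]
    push_cast
    field_simp
    ring

section XG

variable {Sg ι ι' C C' : Type} [Fintype Sg] [Fintype ι] [DecidableEq ι] [Fintype ι']
  [DecidableEq ι'] {m : Msg S}

/-- Free energy of a system with general slot weights. -/
noncomputable def XG (m : Msg S) (w : Sg → ℝ) (f : ι → Sg → (Fin K → ℝ) → ℝ) : ℝ :=
  Tfin m (fun y : ι × Fin K → ℝ => ∑ s, Real.exp (w s) * ∏ k, f k s (fun j => y (k, j)))

theorem XG_equiv (hm : m.Good) (w : Sg → ℝ) (e : ι ≃ ι') (f : ι' → Sg → (Fin K → ℝ) → ℝ) :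
    XG m w (fun k => f (e k)) = XG m w f := by
  unfold XG
  rw [← Tfin_comp_inj hm _ (Equiv.prodCongr e.symm (Equiv.refl (Fin K))).injective
    fun y : ι' × Fin K → ℝ => ∑ s, Real.exp (w s) * ∏ k, f k s (fun j => y (k, j))]
  congr 1
  funext y
  refine sum_congr rfl fun s _ => ?_
  rw [← e.prod_comp]
  simp

theorem XG_one (hm : m.Good) (w : Sg → ℝ) (f : ι → Sg → (Fin K → ℝ) → ℝ) :
    XG m w (fun o : Option ι => o.elim (fun _ _ => 1) f) = XG m w f := by
  unfold XG
  rw [← Tfin_comp_inj hm (Prod.map some id) ((Option.some_injective ι).prodMap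
    Function.injective_id)
    fun y : ι × Fin K → ℝ => ∑ s, Real.exp (w s) * ∏ k, f k s (fun j => y (k, j))]
  simp [Fintype.prod_option]

theorem abs_XG_le [Nonempty Sg] (hm : m.Good) {w : Sg → ℝ} {f : ι → Sg → (Fin K → ℝ) → ℝ}
    {a b : ℝ} (hw : ∀ s, |w s| ≤ a)
    (hf : ∀ k s y, Cube y → 0 < f k s y ∧ |Real.log (f k s y)| ≤ b) :
    |XG m w f| ≤ a + Fintype.card Sg + b * Fintype.card ι := by
  refine abs_Tfin_le hm fun y hy => ?_
  have hc : ∀ k, Cube fun j => y (k, j) := fun k j => hy _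
  have e : ∀ s, Real.exp (w s) * ∏ k, f k s (fun j => y (k, j)) =
      Real.exp (w s + ∑ k, Real.log (f k s fun j => y (k, j))) := fun s => by
    rw [Real.exp_add, Real.exp_sum]
    simp only [fun k => Real.exp_log (hf k s _ (hc k)).1]
  have h1 := abs_log_sum_exp_sub_le (H' := fun _ => 0) (b := a + b * Fintype.card ι)
    (H := fun s => w s + ∑ k, Real.log (f k s fun j => y (k, j))) fun s => by
      rw [sub_zero]
      refine (abs_add_le _ _).trans (add_le_add (hw s) ((abs_sum_le_sum_abs _ _).trans ?_))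
      refine (sum_le_card_nsmul _ _ b fun k _ => (hf k s _ (hc k)).2).trans_eq ?_
      rw [card_univ, nsmul_eq_mul, mul_comm]
  simp only [Real.exp_zero, sum_const, card_univ, nsmul_eq_mul, mul_one] at h1
  have h2 : (1 : ℝ) ≤ Fintype.card Sg := by exact_mod_cast Fintype.card_pos
  have h3 := Real.log_nonneg h2
  have h4 := Real.log_le_sub_one_of_pos (zero_lt_one.trans_le h2)
  simp only [e]
  exact abs_le.mpr ⟨by linarith [(abs_le.mp h1).1], by linarith [(abs_le.mp h1).2]⟩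

/-- The list version. -/
noncomputable def XL (m : Msg S) (w : Sg → ℝ) (φ : C → Sg → (Fin K → ℝ) → ℝ) (l : List C) : ℝ :=
  XG m w (fun k : Fin l.length => φ (l.get k))

theorem linG_XL [Nonempty Sg] (hm : m.Good) (w : Sg → ℝ) {φ : C → Sg → (Fin K → ℝ) → ℝ} {b : ℝ}
    (hf : ∀ c s y, Cube y → 0 < φ c s y ∧ |Real.log (φ c s y)| ≤ b) : LinG (XL m w φ) :=
  ⟨‖w‖ + Fintype.card Sg, b, fun l => (abs_XG_le hm (norm_le_pi_norm w)
    fun k => hf _).trans_eq (by rw [Fintype.card_fin])⟩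

theorem permInv_XL (hm : m.Good) (w : Sg → ℝ) (φ : C → Sg → (Fin K → ℝ) → ℝ) :
    PermInv (XL m w φ) := fun l l' h => by
  obtain ⟨e, he⟩ := exists_equiv_of_perm h
  rw [XL, XL, ← XG_equiv hm w e]
  simp only [he]

theorem XL_cons (hm : m.Good) (w : Sg → ℝ) (φ : C → Sg → (Fin K → ℝ) → ℝ) (c : C) (l : List C) :
    XL m w φ (c :: l) =
      XG m w (fun o : Option (Fin l.length) => o.elim (φ c) fun k => φ (l.get k)) := by
  rw [← XG_equiv hm w (finSuccEquiv l.length), XL]
  congr 1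
  funext k
  refine Fin.cases ?_ (fun k => ?_) k <;> simp

theorem XL_ofFn (hm : m.Good) (w : Sg → ℝ) (φ : C → Sg → (Fin K → ℝ) → ℝ) {M : ℕ}
    (c : Fin M → C) : XL m w φ (List.ofFn c) = XG m w fun k => φ (c k) := by
  rw [← XG_equiv hm w (finCongr (List.length_ofFn (f := c))), XL]
  simp only [List.get_ofFn]
  rfl

theorem XL_map (hm : m.Good) (w : Sg → ℝ) (φ : C → Sg → (Fin K → ℝ) → ℝ) (e : C' → C)
    (l : List C') : XL m w φ (l.map e) = XL m w (fun c => φ (e c)) l := by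
  conv_lhs => rw [← List.ofFn_get l, List.map_ofFn, XL_ofFn hm]
  rfl

end XG

theorem upA_Tfin_mul {J J₁ J₂ : Type} [Fintype J] [DecidableEq J] [Fintype J₁] [DecidableEq J₁]
    [Fintype J₂] [DecidableEq J₂] {m : Msg S} (hm : m.Good) (e₁ : J₁ → J) (e₂ : J₂ → J)
    (he : Function.Injective (Sum.elim e₁ e₂)) (F : (J₁ → ℝ) → ℝ) (G : (J₂ → ℝ) → ℝ)
    (hF : ∀ y, Cube y → 0 < F y) (hG : ∀ y, Cube y → 0 < G y) :
    Tfin m (fun y : J → ℝ => F (fun j => y (e₁ j)) * G (fun j => y (e₂ j))) =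
      Tfin m F + Tfin m G := by
  rw [← Tfin_mul_sum hm F G hF hG, ← Tfin_comp_inj hm _ he]
  rfl

theorem upA_sum_tsum {α : Type} [Fintype α] {γ : ℝ} (hγ : 0 ≤ γ) (p : α → ℝ) {u : ℕ → α → ℝ}
    (hu : ∀ x, ∃ a b : ℝ, ∀ M, |u M x| ≤ a + b * M) :
    ∑ x, p x * ∑' M, poi γ M * u M x = ∑' M, poi γ M * ∑ x, p x * u M x := by
  simp only [← tsum_mul_left]
  rw [← Summable.tsum_finsetSum fun x _ => ?_]
  · simp only [mul_sum, mul_left_comm]
  · obtain ⟨a, b, h⟩ := hu x
    exact (summable_poi_mul hγ h).mul_left _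

theorem upA_Epi_comm {ι ι' : Type} [Fintype ι] [DecidableEq ι] [Fintype ι'] [DecidableEq ι']
    (q : Θ → ℝ) (F : (ι → Θ) → (ι' → Θ) → ℝ) :
    Epi q (fun ω => Epi q (F ω)) = Epi q fun ω' => Epi q fun ω => F ω ω' := by
  simp only [Epi, mul_sum]
  rw [sum_comm]
  simp only [mul_left_comm]

theorem Xs_equiv {ι ι' : Type} [Fintype ι] [DecidableEq ι] [Fintype ι'] [DecidableEq ι']
    {m : Msg S} (hm : m.Good) (h : Fin N → ℝ) (e : ι ≃ ι') (c : ι' → Cl K × Kind K N) :
    Xs m h (fun k => c (e k)) = Xs m h c :=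
  XG_equiv hm (fun s : Fin N → Bool => ∑ v, h v * spin (s v)) e fun k s => slotF (c k).1 (c k).2 s

theorem Xs_eq {ι : Type} [Fintype ι] [DecidableEq ι] (m : Msg S) (h : Fin N → ℝ)
    (c : ι → Cl K × Kind K N) : Xs m h c =
      XG m (fun s : Fin N → Bool => ∑ v, h v * spin (s v)) fun k s => slotF (c k).1 (c k).2 s := by
  unfold Xs XG
  rfl

omit [Fintype Θ] in
theorem GX_eq (m : Msg S) (th : Θ → Cl K) (h : Fin N → ℝ) : GX m th h =
    XL m (fun s : Fin N → Bool => ∑ v, h v * spin (s v)) fun c s => slotF (th c.1) c.2 s := by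
  funext l
  rw [GX, Xs_eq, XL]

theorem linG_GX {m : Msg S} (hm : m.Good) (th : Θ → Cl K) (h : Fin N → ℝ) :
    LinG (GX m th h) := by
  rw [GX_eq]
  exact linG_XL hm _ (b := ‖th‖)
    fun c s _ hy => ⟨slotF_pos _ _ s hy, (abs_log_slotF_le _ _ s hy).trans (norm_le_pi_norm th _)⟩

omit [Fintype Θ] in
theorem permInv_GX {m : Msg S} (hm : m.Good) (th : Θ → Cl K) (h : Fin N → ℝ) :
    PermInv (GX m th h) := by
  rw [GX_eq]
  exact permInv_XL hm _ _

omit [Fintype Θ] in
theorem GX_cons {m : Msg S} (hm : m.Good) (th : Θ → Cl K) (h : Fin N → ℝ) (c : Θ × Kind K N)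
    (l : List (Θ × Kind K N)) :
    GX m th h (c :: l) = Xs m h (fun o : Option (Fin l.length) =>
      o.elim (th c.1, c.2) (fun k => (th (l.get k).1, (l.get k).2))) := by
  rw [GX_eq, XL_cons hm, Xs_eq]
  refine congrArg (XG m _) (funext fun o => ?_)
  cases o <;> rfl

omit [Fintype Θ] in
theorem GX_ofFn {m : Msg S} (hm : m.Good) (th : Θ → Cl K) (h : Fin N → ℝ) {M : ℕ}
    (c : Fin M → Θ × Kind K N) :
    GX m th h (List.ofFn c) = Xs m h (fun k => (th (c k).1, (c k).2)) := by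
  rw [GX_eq, XL_ofFn hm, Xs_eq]

/-- The value of one `V` clause. -/
noncomputable def vT (m : Msg S) (θ : Cl K) : ℝ :=
  Tfin m fun y : Fin K → ℝ => ∑ σ : Fin K → Bool, Real.exp (θ σ) * ∏ j, (1 + y j * spin (σ j)) / 2

omit [Fintype Θ] in
theorem GX_consV {m : Msg S} (hm : m.Good) (th : Θ → Cl K) (h : Fin N → ℝ) (x : Θ)
    (l : List (Θ × Kind K N)) :
    GX m th h ((x, Sum.inr (Sum.inr ())) :: l) = vT m (th x) + GX m th h l := by
  rw [GX_cons hm, vT, GX, Xs, Xs, ← upA_Tfin_mul hm (fun j => (none, j)) (Prod.map some id)]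
  · congr 1
    funext y
    rw [mul_sum]
    refine sum_congr rfl fun s _ => ?_
    rw [Fintype.prod_option, mul_left_comm]
    rfl
  · rintro (a | ⟨a, a'⟩) (b | ⟨b, b'⟩) e <;> simp_all
  · exact fun y hy => slotF_pos (N := 0) (th x) (Sum.inr (Sum.inr ())) (fun _ => true) hy
  · exact fun y hy => sum_pos (fun s _ => mul_pos (Real.exp_pos _)
      (prod_pos fun k _ => slotF_pos _ _ s fun j => hy _)) univ_nonempty

omit [Fintype Θ] in
theorem GX_appendV {m : Msg S} (hm : m.Good) (th : Θ → Cl K) (h : Fin N → ℝ)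
    (l₁ : List (Θ × Kind K N)) (l₂ : List Θ) :
    GX m th h (l₁ ++ l₂.map fun x => (x, Sum.inr (Sum.inr ()))) =
      GX m th h l₁ + (l₂.map fun x => vT m (th x)).sum := by
  induction l₂ with
  | nil => simp
  | cons x l ih =>
    rw [List.map_cons, permInv_GX hm th h _ _ List.perm_middle, GX_consV hm, ih, List.map_cons,
      List.sum_cons]
    ring

theorem TVfin_eq {q : Θ → ℝ} (hq : IsPr q) (th : Θ → Cl K) (lam : ℝ) {m : Msg S} (hm : m.Good) :
    TVfin q th lam m = (K - 1) * lam * ∑ x, q x * vT m (th x) := by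
  have e : ∀ (M : ℕ) (ω : Fin M → Θ), Tfin m (Vfun fun k => th (ω k)) =
      ∑ k, vT m (th (ω k)) := by
    intro M ω
    refine (Tfin_prod hm Prod.fst (fun (k : Fin M) (y : Fin M × Fin K → ℝ) =>
      ∑ σ : Fin K → Bool, Real.exp (th (ω k) σ) * ∏ j, (1 + y (k, j) * spin (σ j)) / 2)
      (fun k y hy => slotF_pos (N := 0) (th (ω k)) (Sum.inr (Sum.inr ())) (fun _ => true)
        (y := fun j => y (k, j)) fun j => hy _)
      fun k y y' h => by simp only [fun j => h (k, j) rfl]).trans ?_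
    exact sum_congr rfl fun k _ => Tfin_comp_inj hm (fun j => (k, j)) (Prod.mk_right_injective k)
      fun y => ∑ σ : Fin K → Bool, Real.exp (th (ω k) σ) * ∏ j, (1 + y j * spin (σ j)) / 2
  unfold TVfin
  simp only [e, Epi_sum, fun (M : ℕ) (k : Fin M) => Epi_eval hq k fun x => vT m (th x), sum_const,
    card_univ, Fintype.card_fin, nsmul_eq_mul, ← mul_assoc]
  rw [tsum_mul_right, (hasSum_poi_mul _).tsum_eq]

omit [Fintype Θ] in
theorem GX_true {m : Msg S} (hm : m.Good) (th : Θ → Cl K) (h : Fin N → ℝ) {M : ℕ}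
    (c : Fin M → Θ × (Fin K → Fin N)) :
    GX m th h ((List.ofFn c).map fun c => (c.1, Sum.inl c.2)) =
      logZ (fun k => th (c k).1) (fun k => (c k).2) h := by
  rw [List.map_ofFn, GX_ofFn hm, logZ, ← Tfin_const (J := Fin M × Fin K) hm, Xs]
  congr 1
  funext y
  refine sum_congr rfl fun s _ => ?_
  rw [Real.exp_add, mul_comm, Real.exp_sum _ fun k => th (c k).1 _]
  rfl

theorem PP_q1 {q : Θ → ℝ} (hq : IsPr q) (hK : 1 ≤ K) (hN : 1 ≤ N) (th : Θ → Cl K) (hv : Θ → ℝ)
    {lam : ℝ} (hlam : 0 ≤ lam) {m : Msg S} (hm : m.Good) :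
    Epi q (fun ω : Fin N → Θ => PP (fun c => (K * lam * N) * q1 q K N c)
        (GX m th (fun v => hv (ω v)))) =
      Ffin q th hv lam N + N * TVfin q th lam m := by
  have hK' : (1 : ℝ) ≤ K := by exact_mod_cast hK
  have hN' : (0 : ℝ) < N := by exact_mod_cast hN
  have : Nonempty (Fin N) := ⟨⟨0, hN⟩⟩
  let qT : Θ × (Fin K → Fin N) → ℝ := fun c => q c.1 / (Fintype.card (Fin K → Fin N) : ℝ)
  have hc : (0 : ℝ) < Fintype.card (Fin K → Fin N) := Nat.cast_pos.mpr Fintype.card_pos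
  have hT : IsPr qT := ⟨fun c => div_nonneg (hq.1 _) hc.le, by
    rw [Fintype.sum_prod_type, ← hq.2]
    refine sum_congr rfl fun x _ => ?_
    simp only [qT, sum_const, card_univ, nsmul_eq_mul]
    field_simp⟩
  let νT : Θ × Kind K N → ℝ := fun c =>
    Sum.elim (fun i => lam * N * qT (c.1, i)) (fun _ => 0) c.2
  let νV : Θ × Kind K N → ℝ := fun c =>
    Sum.elim (fun _ => 0) (Sum.elim (fun _ => 0) fun _ => (K - 1) * lam * N * q c.1) c.2
  have hV0 : ∀ x, 0 ≤ (K - 1) * lam * N * q x := fun x =>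
    mul_nonneg (mul_nonneg (mul_nonneg (by linarith) hlam) hN'.le) (hq.1 x)
  have hT0 : ∀ c, 0 ≤ lam * N * qT c := fun c => mul_nonneg (by positivity) (hT.1 c)
  have e : (fun c => (K * lam * N) * q1 q K N c) = fun c => νT c + νV c := by
    funext ⟨x, k⟩
    rcases k with i | li | u
    · simp only [q1, νT, νV, qT, Sum.elim_inl, Fintype.card_fun, Fintype.card_fin]
      push_cast
      field_simp
      ring
    · simp [q1, νT, νV]
    · simp only [q1, νT, νV, Sum.elim_inr]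
      field_simp
      ring
  have key : ∀ h : Fin N → ℝ, PP (fun c => (K * lam * N) * q1 q K N c) (GX m th h) =
      (∑' M : ℕ, poi (lam * N) M * Epi q fun ω : Fin M → Θ =>
        avg fun i : Fin M → Fin K → Fin N => logZ (fun k => th (ω k)) i h) +
      N * TVfin q th lam m := by
    intro h
    have hG := linG_GX hm th h
    rw [e, PP_add (by rintro ⟨x, _ | _⟩; exacts [hT0 _, le_rfl])
      (by rintro ⟨x, _ | _ | _⟩; exacts [le_rfl, le_rfl, hV0 x]) hG (permInv_GX hm th h),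
      PP_map (ν' := fun c => lam * N * qT c) (fun c => (c.1, Sum.inl c.2))
        (fun F => by simp [νT, Fintype.sum_prod_type, Fintype.sum_sum_type])]
    have e2 : ∀ l₁, PP νV (fun l₂ => GX m th h (l₁ ++ l₂)) =
        GX m th h l₁ + N * TVfin q th lam m := by
      intro l₁
      rw [PP_map (ν' := fun x => (K - 1) * lam * N * q x) (fun x => (x, Sum.inr (Sum.inr ())))
        (fun F => by simp [νV, Fintype.sum_prod_type, Fintype.sum_sum_type])]
      simp only [GX_appendV hm]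
      rw [PP_add_fun hV0 (linG_const _) (linG_sum_map _), PP_const, PP_sum_map hV0,
        TVfin_eq hq th lam hm, mul_sum, mul_sum]
      congr 1
      exact sum_congr rfl fun x _ => by ring
    simp only [e2]
    rw [PP_add_fun hT0 (hG.comp_map _) (linG_const _), PP_const, PP_eq_poi hT]
    simp only [GX_true hm, qT, Epi_prod_unif]
  simp only [key]
  rw [Epi_add, Epi_const hq, Ffin]
  congr 1
  refine (upA_sum_tsum (by positivity) _ fun ω' => ?_).trans ?_
  · refine ⟨N + ∑ v, |hv (ω' v)|, ‖th‖, fun M => abs_Epi_le hq fun ω => abs_avg_le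
      (by positivity) fun i => (abs_logZ_le _ _ _).trans ?_⟩
    have := sum_le_card_nsmul univ (fun k : Fin M => ‖th (ω k)‖) ‖th‖
      fun k _ => norm_le_pi_norm th _
    rw [card_univ, Fintype.card_fin, nsmul_eq_mul] at this
    linarith
  · refine tsum_congr fun M => ?_
    rw [upA_Epi_comm]
    rfl

end Vale.Agent.P168
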